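import Vale.Agent.P319.Alg.CondSpec
import Vale.Agent.P319.Cv.StageA

/-!
P319: the specification of the first stage of the division step.
-/

open Polynomial

namespace Vale.Agent.P319.Crv

open Gen Vale.Agent.Lib.Dep

variable {A k : Type} [CommRing A] [Field k] {Q : ℕ} {ψ : A →+* k}
variable [IsAlgClosed k] {C : Cv k} {f : A[X]} {z : A} {Z : C.Mu}

namespace StA

omit [IsAlgClosed k] in
theorem ev_nmA (G : k[X][X]) : C.ev (nmA C.r Z.val G) = C.nm Z (C.ev G) := by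
  simp only [nmA, tw, map_prod, Cv.nm, Cv.pp, Cv.tau_ev, Cv.Mu.val_pow]

theorem dvd_mul_iff (a : k) (p : k[X]) :
    C.F ∣ p * (X - Polynomial.C a) ↔ ∀ a', C.F.eval a' = 0 → a' ≠ a → p.eval a' = 0 := by
  constructor
  · intro h a' ha' hne
    have := eval_eq_zero_of_dvd_of_eval_eq_zero h ha'
    simpa [sub_eq_zero, hne] using this
  · intro h
    by_cases hp : p = 0
    · simp [hp]
    have h0 := mul_ne_zero hp (X_sub_C_ne_zero a)
    rw [IsAlgClosed.dvd_iff_roots_le_roots C.F_ne h0, Multiset.le_iff_subset (nodup_roots C.hsep)]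
    intro a' ha'
    rw [mem_roots h0, IsRoot.def, eval_mul]
    by_cases e : a' = a
    · simp [e]
    · rw [h a' (isRoot_of_mem_roots ha') e, zero_mul]

/-- the meaning of the conditions at the ramified points -/
theorem condR_iff (hF : C.F.Monic) (a : k) (rho : k[X]) (H : k[X][X][X]) :
    (∀ i ∈ idx2 C.r C.r, condR C.r C.F a Z.val rho i H = 0) ↔
      C.SolR Z a rho fun l => C.ev (H.coeff l) := by
  have h1 : ∀ (G : k[X][X]) a' (ha' : C.F.eval a' = 0), C.ev G ∈ (Cv.ram a' ha').V C.r ↔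
      ∀ b < C.r, ((red C.r C.F G).coeff b).eval a' = 0 := by
    intro G a' ha'
    rw [← Cv.ev_mod]
    exact Cv.ev_mem_ram_iff_eval (P := Cv.ram a' ha') rfl (Cv.natDegree_mod_lt G) le_rfl
  have h2 : ∀ b : ℕ, (∑ l ∈ Finset.range C.r, C.ev (H.coeff l) * C.pol rho ^ (C.r - 1 - l) *
      C.cst (Z.val ^ (l * b))) * C.y ^ (b + 1) = C.ev ((∑ l ∈ Finset.range C.r, H.coeff l *
        Polynomial.C (rho ^ (C.r - 1 - l)) * Polynomial.C (Polynomial.C (Z.val ^ (l * b)))) *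
          X ^ (b + 1)) := by
    intro b
    simp only [map_mul, map_sum, map_pow, Cv.ev_C, Cv.ev_X, Cv.pol_C]
  simp only [Cv.SolR, h2, h1, condR, modByMonic_eq_zero_iff_dvd hF, dvd_mul_iff]
  exact ⟨fun h b hb a' ha' hne b' hb' => h (b, b') (mem_idx2.2 ⟨hb, hb'⟩) a' ha' hne,
    fun h i hi a' ha' hne => h i.1 (mem_idx2.1 hi).1 a' ha' hne i.2 (mem_idx2.1 hi).2⟩

omit [IsAlgClosed k] in
theorem testA_bool (h : Dat C Q ψ f z Z) (w : A[X]) (H : A[X][X][X]) :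
    ψ (testA Q C.r f z w H) = 0 ∨ ψ (testA Q C.r f z w H) = 1 := by
  rw [testA, map_mul, map_sub, map_one]
  rcases h.comp.nz2_bool (H.coeff 0) with h1 | h1 <;>
  rcases h.comp.nz2_bool (red C.r f (nmA C.r z (H.coeff 1) - Polynomial.C w * nmA C.r z (H.coeff 0)))
    with h2 | h2 <;> simp [h1, h2]

omit [IsAlgClosed k] in
theorem testA_iff (h : Dat C Q ψ f z Z) (w : A[X]) (H : A[X][X][X]) :
    ψ (testA Q C.r f z w H) = 1 ↔ (H.coeff 0).map (mapRingHom ψ) ≠ 0 ∧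
      C.nm Z (evA C ψ (H.coeff 1)) = C.pol (w.map ψ) * C.nm Z (evA C ψ (H.coeff 0)) := by
  have h1 : ψ (nz2 Q (red C.r f (nmA C.r z (H.coeff 1) - Polynomial.C w * nmA C.r z (H.coeff 0)))) =
      0 ↔ C.nm Z (evA C ψ (H.coeff 1)) = C.pol (w.map ψ) * C.nm Z (evA C ψ (H.coeff 0)) := by
    rw [h.comp.nz2_eq_zero, map_red ψ C.hr.ne_zero, h.mapf,
      ← sub_eq_zero (a := C.nm Z _)]
    refine (Cv.ev_eq_zero_iff (c := C)).symm.trans ?_
    rw [Polynomial.map_sub, Polynomial.map_mul, map_nmA, map_nmA, h.mapz, map_sub, map_mul, ev_nmA,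
      ev_nmA, map_C, Cv.ev_C]
    rfl
  rw [← h1, ← h.comp.nz2_eq_one, testA, map_mul, map_sub, map_one]
  rcases h.comp.nz2_bool (H.coeff 0) with h1 | h1 <;>
  rcases h.comp.nz2_bool (red C.r f (nmA C.r z (H.coeff 1) - Polynomial.C w * nmA C.r z (H.coeff 0)))
    with h2 | h2 <;> simp [h1, h2]

omit [IsAlgClosed k] in
theorem m3_alg (c : A) : m3 ψ (algebraMap A A[X][X][X] c) = algebraMap k k[X][X][X] (ψ c) := by
  simp [Polynomial.algebraMap_apply]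

/-- the span of the candidates -/
theorem candA_iff (h : Dat C Q ψ f z Z) {a : A} (ha : C.F.eval (ψ a) = 0) {D : C.Div} {u : A[X]}
    {B : A[X][X][X]}
    (hP : C.Pres (ψ a) (mu C.r C.nu) (mB C.r C.nu) D (u.map ψ) (m3 ψ B)) (rho : A[X]) (c : ℕ)
    (H : k[X][X][X]) :
    H ∈ spanL k (m3 ψ) (candA Q C.r C.nu f a z u B rho c) ↔
      (H.natDegree < C.r ∧ (∀ l, (H.coeff l).natDegree < C.r) ∧
        C.SolM Z D (Cv.ram (ψ a) ha) (mu C.r C.nu) ((C.r - 1) * C.nu) c fun l => C.ev (H.coeff l)) ∧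
      C.SolR Z (ψ a) (rho.map ψ) fun l => C.ev (H.coeff l) := by
  rw [candA, h.comp.mem_kerI' m3_alg (fun i => lin_condR C.r C.F (ψ a) Z.val (rho.map ψ) i)
    (fun i _ v => by rw [map_condR ψ C.hr.ne_zero h.monic, h.mapf, h.mapz]; rfl),
    solM_spanL h ha hP, condR_iff (h.mapf ▸ h.monic.map ψ)]

theorem exists_lift {D : C.Div} (hD : 0 ≤ D) {P : C.Pt} {m T c : ℕ} {Hs : ℕ → C.K}
    (hM : C.SolM Z D P m T c Hs) : ∃ H : k[X][X][X], H.natDegree < C.r ∧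
      (∀ l, (H.coeff l).natDegree < C.r) ∧ ∀ l < C.r, C.ev (H.coeff l) = Hs l := by
  have h1 : ∀ l : ℕ, ∃ G : k[X][X], G.natDegree < C.r ∧ (l < C.r → C.ev G = Hs l) := by
    intro l
    by_cases hl : l < C.r
    · have h2 : Hs l ∈ C.L (((T + l * m : ℕ) : ℤ) • C.H) := by
        refine Cv.L_mono ?_ (hM l hl)
        rw [sub_sub]
        exact sub_le_self _ (add_nonneg (Cv.sD_nonneg _ hD _)
          (Finsupp.single_nonneg.2 (Int.natCast_nonneg _)))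
      obtain ⟨G, h3, -, h4⟩ := Cv.mem_L_H_iff.1 h2
      exact ⟨G, h3, fun _ => h4⟩
    · exact ⟨0, by simpa using C.r_pos, fun h => (hl h).elim⟩
  choose G hG hG' using h1
  have hc : ∀ l, (∑ j ∈ Finset.range C.r, monomial j (G j)).coeff l =
      if l < C.r then G l else 0 := by
    intro l
    simp [finsetSum_coeff, coeff_monomial]
  refine ⟨∑ j ∈ Finset.range C.r, monomial j (G j), ?_, fun l => ?_, fun l hl => ?_⟩
  · refine (Nat.lt_iff_le_pred C.r_pos).2 (natDegree_le_iff_coeff_eq_zero.2 fun l hl => ?_)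
    rw [hc, if_neg (by omega)]
  · rw [hc]
    split_ifs
    · exact hG l
    · simpa using C.r_pos
  · rw [hc, if_pos hl, hG' l hl]

end StA

open StA in
theorem stA_spec (h : Dat C Q ψ f z Z) {a g : A} (ha : C.F.eval (ψ a) = 0) (hg : ψ g ≠ 0)
    {D : C.Div} {u : A[X]} {B : A[X][X][X]}
    (hP : C.Pres (ψ a) (mu C.r C.nu) (mB C.r C.nu) D (u.map ψ) (m3 ψ B)) (rho : ℕ → A[X])
    (hrho : ∃ m < C.r, ∀ a', C.F.eval a' = 0 → a' ≠ ψ a →
      ((rho m).map ψ).eval a' ^ C.r = ψ g ^ m * (u.map ψ).eval a') :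
    ∃ κ : k, κ ≠ 0 ∧
      evA C ψ ((stA Q C.r C.nu f a z g u B rho).coeff 0) ≠ 0 ∧
      C.nm Z (evA C ψ ((stA Q C.r C.nu f a z g u B rho).coeff 1)) =
        C.pol (Polynomial.C κ * u.map ψ) *
          C.nm Z (evA C ψ ((stA Q C.r C.nu f a z g u B rho).coeff 0)) ∧
      evA C ψ ((stA Q C.r C.nu f a z g u B rho).coeff 0) ∈
        C.L ((((C.r - 1) * C.nu : ℕ) : ℤ) • C.H) ∧
      evA C ψ ((stA Q C.r C.nu f a z g u B rho).coeff 1) ∈
        C.L ((((C.r - 1) * C.nu + mu C.r C.nu : ℕ) : ℤ) • C.H - D) := by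
  obtain ⟨m, hm, hrho⟩ := hrho
  have hgm : ψ g ^ m ≠ 0 := pow_ne_zero _ hg
  obtain ⟨c, hc, ⟨Hs, k1, k2, l, hl, k3⟩, huniq⟩ := Cv.stageA h.prim ha (mu := mu C.r C.nu) (D := D)
    (u := Polynomial.C (ψ g ^ m) * u.map ψ) (mul_ne_zero (C_ne_zero.2 hgm) hP.u_ne) hP.ram
    (by rw [map_mul, Cv.pol_C, Cv.div_cst_mul hgm]; exact hP.norm Z h.prim) ((rho m).map ψ)
    (fun a' ha' hne => by rw [hrho a' ha' hne, eval_mul, eval_C])
  have hev : ∀ (H : A[X][X][X]) (l : ℕ), evA C ψ (H.coeff l) = C.ev ((m3 ψ H).coeff l) := by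
    intro H l
    rw [coe_mapRingHom, coeff_map]
    rfl
  have hw : ∀ j : ℕ, (Polynomial.C (g ^ j) * u).map ψ = Polynomial.C (ψ g ^ j) * u.map ψ := by
    intro j
    rw [Polynomial.map_mul, map_C, map_pow]
  have hgood : ∃ H ∈ candA Q C.r C.nu f a z u B (rho m) c,
      ψ (testA Q C.r f z (Polynomial.C (g ^ m) * u) H) = 1 := by
    obtain ⟨H0, d1, d2, d3⟩ := exists_lift hP.nonneg k1
    have h1 : H0 ∈ spanL k (m3 ψ) (candA Q C.r C.nu f a z u B (rho m) c) := by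
      refine (candA_iff h ha hP _ _ _).2 ⟨⟨d1, d2, fun l hl => ?_⟩, fun b hb a' ha' hne => ?_⟩
      · simpa only [d3 l hl] using k1 l hl
      · rw [Finset.sum_congr rfl fun l hl => by simp only [d3 l (Finset.mem_range.1 hl)]; rfl]
        exact k2 b hb a' ha' hne
    by_contra hcon
    have h2 : spanL (N := k[X][X][X]) k (m3 ψ) (candA Q C.r C.nu f a z u B (rho m) c) ≤ ⊥ := by
      refine spanL_le.2 fun H hH => ?_
      by_contra h0
      obtain ⟨⟨e1, e2, e3⟩, e4⟩ := (candA_iff h ha hP _ _ _).1 (mem_spanL hH)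
      have h3 : ∃ l < C.r, C.ev ((m3 ψ H).coeff l) ≠ 0 :=
        ⟨_, e1, fun e => h0 (leadingCoeff_eq_zero.1 (Cv.eq_zero_of_ev (e2 _) e))⟩
      obtain ⟨h4, h5⟩ := huniq _ e3 e4 h3
      refine hcon ⟨H, hH, (testA_iff h _ _).2 ⟨fun e => h4 ?_, ?_⟩⟩
      · rw [← hev]
        change C.ev ((H.coeff 0).map (mapRingHom ψ)) = 0
        rw [e, map_zero]
      · rw [hev, hev, hw]
        exact h5
    refine k3 ?_
    rw [← d3 l hl, (Submodule.mem_bot k).1 (h2 h1), coeff_zero, map_zero]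
  have hC : ∀ t : A, m3 ψ (Polynomial.C (Polynomial.C (Polynomial.C t))) =
      Polynomial.C (Polynomial.C (Polynomial.C (ψ t))) := fun t => by simp
  obtain ⟨x, hx, hx1, hx2⟩ := pick_spec (N := k[X][X][X]) (m3 ψ) (l := (idx2 C.r (C.r * (C.r * C.nu) + 1)).flatMap
    fun i => (candA Q C.r C.nu f a z u B (rho i.1) i.2).map fun H =>
      (Polynomial.C (Polynomial.C (Polynomial.C
        (testA Q C.r f z (Polynomial.C (g ^ i.1) * u) H))), H)) (by
      intro x hx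
      obtain ⟨i, -, hx⟩ := List.mem_flatMap.1 hx
      obtain ⟨H, -, rfl⟩ := List.mem_map.1 hx
      rw [hC]
      rcases testA_bool h (Polynomial.C (g ^ i.1) * u) H with e | e <;> rw [e] <;> simp) (by
      obtain ⟨H, hH, e⟩ := hgood
      refine ⟨_, List.mem_flatMap.2 ⟨(m, c), mem_idx2.2 ⟨hm, Nat.lt_succ_of_le hc⟩,
        List.mem_map.2 ⟨H, hH, rfl⟩⟩, ?_⟩
      rw [hC, e]
      simp)
  obtain ⟨i, -, hx⟩ := List.mem_flatMap.1 hx
  obtain ⟨H, hH, rfl⟩ := List.mem_map.1 hx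
  rw [hC, ← C_1, ← C_1, ← C_1, C_inj, C_inj, C_inj, testA_iff h] at hx1
  have hst : m3 ψ (stA Q C.r C.nu f a z g u B rho) = m3 ψ H := hx2
  obtain ⟨⟨-, e2, e3⟩, -⟩ := (candA_iff h ha hP _ _ _).1 (mem_spanL hH)
  have hs : ∀ E : C.Div, E - Finsupp.single (Cv.ram (ψ a) ha) (i.2 : ℤ) ≤ E := fun E =>
    sub_le_self _ (Finsupp.single_nonneg.2 (Int.natCast_nonneg _))
  rw [hev, hev, hst]
  refine ⟨ψ g ^ i.1, pow_ne_zero _ hg, fun e => hx1.1 ?_, ?_, ?_, ?_⟩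
  · have := Cv.eq_zero_of_ev (e2 0) e
    rwa [coe_mapRingHom, coeff_map] at this
  · rw [← hev, ← hev, ← hw]
    exact hx1.2
  · simpa using Cv.L_mono (hs _) (e3 0 C.r_pos)
  · simpa using Cv.L_mono (hs _) (e3 1 C.hr.one_lt)

end Vale.Agent.P319.Crv
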