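import Vale.Agent.P319.Alg.CondSpec
import Vale.Agent.P319.Cv.StageB
import Vale.Agent.P319.Cv.RB
import Vale.Agent.P319.Cv.H90

/-!
P319: the second stage of the division step produces a presentation of the new divisor.
-/

open Polynomial

namespace Vale.Agent.P319.Crv

open Gen Cv

namespace StB

theorem pick_range {M N : Type} [CommRing M] [CommRing N] (φ : M →+* N) (F : ℕ → M × M) {n e : ℕ}
    (he : e < n) (h1 : ∀ i < e, φ (F i).1 = 0) (h2 : φ (F e).1 = 1) :
    φ (pick ((List.range n).map F)) = φ (F e).2 := by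
  obtain ⟨m, rfl⟩ := Nat.exists_eq_add_of_lt he
  rw [show e + m + 1 = e + 1 + m by omega, List.range_add, List.range_succ, List.append_assoc,
    List.singleton_append, List.map_append, List.map_cons]
  refine pick_append φ (fun d hd => ?_) h2
  obtain ⟨i, hi, rfl⟩ := List.mem_map.1 hd
  exact h1 i (List.mem_range.1 hi)

variable {A k : Type} [CommRing A] [Field k] {Q : ℕ} {ψ : A →+* k} {c : Cv k} {f : A[X]} {z : A}
  {Z : c.Mu}

/-- the coefficients of the norm of a form are invariant -/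
theorem tau_piW (hZ : IsPrimitiveRoot Z.val c.r) (B : k[X][X][X]) (j : ℕ) :
    c.tau Z (c.ev ((piW c.r Z.val B 0).coeff j)) = c.ev ((piW c.r Z.val B 0).coeff j) := by
  have h1 : (piW c.r Z.val B 0).map c.ev = ∏ w, (B.map c.ev).map (c.tau w : c.K →+* c.K) := by
    rw [map_ev_piW, Nat.sub_zero]
    simp only [zero_add]
    exact Mu.prod_range (Mu.ne_one_of_prim hZ) fun w => (B.map c.ev).map (c.tau w : c.K →+* c.K)
  have h2 : ((piW c.r Z.val B 0).map c.ev).map (c.tau Z : c.K →+* c.K) =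
      (piW c.r Z.val B 0).map c.ev := by
    rw [h1, Polynomial.map_prod]
    refine Fintype.prod_equiv (Equiv.mulLeft Z) _ _ fun w => ?_
    ext1 i
    simp only [coeff_map]
    exact c.tau_tau _ _ _
  have h3 := congrArg (fun p => coeff p j) h2
  simp only [coeff_map] at h3
  exact h3

variable [IsAlgClosed k]

/-- the norm of the content, and the test -/
theorem test_spec (h : Dat c Q ψ f z Z) {B : A[X][X][X]} {D : c.Div} (hD : 0 ≤ D) {d : ℕ}
    (hd : c.deg D = d) (hle : d ≤ c.r * mu c.r c.nu)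
    (hB : c.Cont ((m3 ψ B).map c.ev) ((mB c.r c.nu : ℤ) • c.H - D)) :
    (uB Q c.r c.nu f z B).map ψ ≠ 0 ∧
      c.div (c.pol ((uB Q c.r c.nu f z B).map ψ)) + (d : ℤ) • c.H = c.nD Z D ∧
      (d < c.r * mu c.r c.nu → ψ (testB Q c.r c.nu f z B) = 0) ∧
      (d = c.r * mu c.r c.nu → ψ (testB Q c.r c.nu f z B) = 1) := by
  have hr := c.r_pos
  set p : ℕ → k[X] := fun j => (red c.r c.F ((piW c.r Z.val (m3 ψ B) 0).coeff j)).coeff 0 with hp
  have hmap : ∀ j, ((red c.r f ((piW c.r z B 0).coeff j)).coeff 0).map ψ = p j := fun j => by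
    rw [map_coeff_red ψ c.hr.ne_zero, map_coeff_piW, h.mapf, h.mapz]
    rfl
  have hzero : ∀ j, ¬ j < c.r * B.natDegree + 1 → p j = 0 := fun j hj => by
    rw [← hmap, coeff_eq_zero_of_natDegree_lt
      ((natDegree_piW_le' c.r z B 0).trans_lt (by omega))]
    simp [red]
  have hall : ∀ P : k[X] → Prop, P 0 → ((∀ q ∈ psB c.r f z B, P (q.map ψ)) ↔ ∀ j, P (p j)) := by
    intro P h0
    simp only [psB, List.forall_mem_map, List.mem_range, hmap]
    refine ⟨fun g j => ?_, fun g j _ => g j⟩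
    by_cases hj : j < c.r * B.natDegree + 1
    · exact g j hj
    · rwa [hzero j hj]
  have hspan : Ideal.span {(gcdL Q (psB c.r f z B)).map ψ} = Ideal.span (Set.range p) := by
    rw [h.comp.gcdL]
    refine le_antisymm (Ideal.span_le.2 ?_) (Ideal.span_le.2 ?_)
    · rintro _ ⟨q, hq, rfl⟩
      exact (hall (· ∈ Ideal.span (Set.range p)) (zero_mem _)).2
        (fun j => Ideal.subset_span ⟨j, rfl⟩) q hq
    · rintro _ ⟨j, rfl⟩
      exact (hall (· ∈ Ideal.span {q | ∃ p ∈ psB c.r f z B, p.map ψ = q}) (zero_mem _)).1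
        (fun q hq => Ideal.subset_span ⟨q, hq, rfl⟩) j
  have hcont : c.Cont ((piW c.r Z.val (m3 ψ B) 0).map c.ev)
      (((c.r * mB c.r c.nu : ℕ) : ℤ) • c.H - c.nD Z D) := by
    have := cont_piW hB Z (Nat.zero_le _)
    rwa [sD_zero, sub_zero, nD, sD_sub, sD_zsmul, sD_H, smul_smul, ← Nat.cast_mul,
      mul_comm (mB c.r c.nu)] at this
  obtain ⟨g0, d', -, g1, g2, j0, g3⟩ := cont_gcd (sD_nonneg Z hD c.r) hcont p
    (fun j => by rw [coeff_map]; exact ev_eq_pol h.prim (tau_piW h.prim _ j)) hspan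
  have e1 : d' = d := by
    have := congrArg c.deg g1
    rw [map_add, deg_div_pol, zero_add, map_zsmul, deg_H, deg_sD, hd, smul_eq_mul,
      mul_comm] at this
    exact_mod_cast mul_left_cancel₀ (by exact_mod_cast hr.ne') this
  subst e1
  have e2 : ((gcdL Q (psB c.r f z B)).map ψ).natDegree ≤ d' := by
    obtain ⟨P, hP⟩ := exists_inf c
    have k1 := DFunLike.congr_fun g1 P
    have k2 := sD_nonneg Z hD c.r P
    rw [← k1, Finsupp.add_apply, div_apply, Pt.ord_pol_inf hP, Finsupp.smul_apply, H_inf hP] at k2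
    simp only [Finsupp.coe_zero, Pi.zero_apply, smul_eq_mul, mul_one] at k2
    omega
  have e3 : (uB Q c.r c.nu f z B).map ψ = (gcdL Q (psB c.r f z B)).map ψ := by
    rw [uB, map_modByMonic _ (monic_X_pow _), Polynomial.map_pow, map_X,
      (modByMonic_eq_self_iff (monic_X_pow _)).2]
    rw [degree_X_pow]
    exact degree_le_natDegree.trans_lt (Nat.cast_lt.2 (by omega))
  have e4 : c.r * mB c.r c.nu = c.r * mu c.r c.nu + c.r * (2 * (c.r * c.nu)) := by
    rw [mB, mul_add]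
  have t1 : ψ (nzL Q ((psB c.r f z B).map fun q => nz1 Q (divAny Q q (uB Q c.r c.nu f z B) /ₘ
      X ^ (c.r * (2 * (c.r * c.nu)) + 1)))) = 0 ↔ ∀ j, (p j / (gcdL Q (psB c.r f z B)).map ψ).degree <
        (c.r * (2 * (c.r * c.nu)) + 1 : ℕ) := by
    rw [h.comp.nzL_eq_zero, List.forall_mem_map, ← hall (fun q =>
      (q / (gcdL Q (psB c.r f z B)).map ψ).degree < (c.r * (2 * (c.r * c.nu)) + 1 : ℕ))
      (by rw [EuclideanDomain.zero_div, degree_zero]; exact WithBot.bot_lt_coe _)]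
    refine forall₂_congr fun q _ => ?_
    rw [h.comp.nz1_eq_zero, map_divByMonic _ (monic_X_pow _), Polynomial.map_pow, map_X,
      divByMonic_eq_zero_iff (monic_X_pow _), degree_X_pow, h.comp.map_divAny, e3]
  have t2 : ψ (nzL Q ((psB c.r f z B).map fun q => (divAny Q q (uB Q c.r c.nu f z B)).coeff
      (c.r * (2 * (c.r * c.nu))))) = 0 ↔ ∀ j, (p j / (gcdL Q (psB c.r f z B)).map ψ).coeff
        (c.r * (2 * (c.r * c.nu))) = 0 := by
    rw [h.comp.nzL_eq_zero, List.forall_mem_map, ← hall (fun q =>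
      (q / (gcdL Q (psB c.r f z B)).map ψ).coeff (c.r * (2 * (c.r * c.nu))) = 0)
      (by rw [EuclideanDomain.zero_div, coeff_zero])]
    refine forall₂_congr fun q _ => ?_
    rw [← coeff_map, h.comp.map_divAny, e3]
  refine ⟨by rwa [e3], by rwa [e3], fun hlt => ?_, fun heq => ?_⟩
  · rw [testB, map_mul, map_sub, (h.comp.nzL_bool _).resolve_left fun h0 => g3 ?_, map_one,
      sub_self, zero_mul]
    exact coeff_eq_zero_of_degree_lt ((t1.1 h0 j0).trans_le (Nat.cast_le.2 (by omega)))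
  · have e5 : c.r * mB c.r c.nu - d' = c.r * (2 * (c.r * c.nu)) := by omega
    rw [e5] at g2 g3
    rw [testB, map_mul, map_sub, t1.2 fun j => (g2 j).trans_lt
      (WithBot.coe_lt_coe.2 (Nat.lt_succ_self _)),
      (h.comp.nzL_bool _).resolve_left fun h0 => g3 (t2.1 h0 j0)]
    simp

/-- the content of the candidate forms -/
theorem cont_formB (h : Dat c Q ψ f z Z) {a : A} (ha : c.F.eval (ψ a) = 0)
    {D : c.Div} {u : A[X]} {B : A[X][X][X]}
    (hP : c.Pres (ψ a) (mu c.r c.nu) (mB c.r c.nu) D (u.map ψ) (m3 ψ B)) {h0 h1 : A[X][X]} {e : ℕ}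
    {D' : c.Div} (hD' : 0 ≤ D') (hd : c.deg D' ≤ (c.r * mu c.r c.nu : ℕ))
    (hs : ∀ s : c.K, s ∈ c.L ((mB c.r c.nu : ℤ) • c.H - D') ↔ ∃ Hs : ℕ → c.K, Hs 0 = s ∧
      c.SolM Z D (ram (ψ a) ha) (mu c.r c.nu) (mB c.r c.nu) e Hs ∧
        c.SolB Z (evA c ψ h0) (evA c ψ h1) Hs) :
    c.Cont ((m3 ψ (formB Q c.r c.nu f a z u B h0 h1 e)).map c.ev)
      ((mB c.r c.nu : ℤ) • c.H - D') := by
  have e1 : (m3 ψ (formB Q c.r c.nu f a z u B h0 h1 e)).map c.ev =
      (formB Q c.r c.nu f a z u B h0 h1 e).map (evA c ψ) := by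
    rw [coe_mapRingHom, map_map]
  have e2 : Submodule.span k (Set.range
      ((formB Q c.r c.nu f a z u B h0 h1 e).map (evA c ψ)).coeff) =
      c.L ((mB c.r c.nu : ℤ) • c.H - D') := by
    rw [formB, span_coeff_form]
    refine le_antisymm (spanL_le.2 fun G hG => ?_) fun s hs' => ?_
    · obtain ⟨H, hH, rfl⟩ := List.mem_map.1 hG
      obtain ⟨-, -, k1, k2⟩ := (solB_spanL h ha hP h0 h1 _ e _).1 (mem_spanL hH)
      refine (hs _).2 ⟨_, ?_, k1, k2⟩
      simp
    · obtain ⟨Hs, rfl, k1, k2⟩ := (hs s).1 hs'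
      obtain ⟨H, g1, g2, g3⟩ := exists_tuple hP.nonneg k1
      have g4 := (solB_spanL h ha hP h0 h1 _ e H).2 ⟨g1, g2, SolM.congr k1 g3, SolB.congr k2 g3⟩
      rw [← g3 0 c.r_pos]
      refine Submodule.span_induction (p := fun H _ => c.ev (H.coeff 0) ∈ spanL k (evA c ψ)
        ((kerI Q (idx2 (c.r - 1) c.r) (condB c.r f z h0 h1)
          (solM Q c.r c.nu f a z u B (mB c.r c.nu) e)).map fun H => H.coeff 0)) ?_ ?_ ?_ ?_ g4
      · rintro _ ⟨v, hv, rfl⟩
        have := mem_spanL (k := k) (φ := evA c ψ) (List.mem_map_of_mem (f := fun H => H.coeff 0) hv)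
        simpa using this
      · simp
      · intro x y _ _ hx hy
        rw [coeff_add, map_add]
        exact add_mem hx hy
      · intro b x _ hx
        rw [coeff_smul, ev_smul]
        exact Submodule.smul_mem _ b hx
  rw [e1]
  refine cont_of_span (fun j => ?_) e2.ge (bpf hD' ?_)
  · rw [← e2]
    exact Submodule.subset_span ⟨j, rfl⟩
  · rw [mB, Cv.n, mul_add, Nat.cast_add]
    omega

end StB

variable {A k : Type} [CommRing A] [Field k] {Q : ℕ} {ψ : A →+* k} [IsAlgClosed k] {C : Cv k}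
  {f : A[X]} {z : A} {Z : C.Mu}

theorem stB_spec (h : Dat C Q ψ f z Z) {a : A} (ha : C.F.eval (ψ a) = 0)
    {D : C.Div} {u : A[X]} {B : A[X][X][X]}
    (hP : C.Pres (ψ a) (mu C.r C.nu) (mB C.r C.nu) D (u.map ψ) (m3 ψ B)) {h0 h1 : A[X][X]}
    {κ : k} (hκ : κ ≠ 0) (hh : evA C ψ h0 ≠ 0)
    (hn : C.nm Z (evA C ψ h1) = C.pol (Polynomial.C κ * u.map ψ) * C.nm Z (evA C ψ h0))
    (k0 : evA C ψ h0 ∈ C.L ((((C.r - 1) * C.nu : ℕ) : ℤ) • C.H))
    (k1 : evA C ψ h1 ∈ C.L ((((C.r - 1) * C.nu + mu C.r C.nu : ℕ) : ℤ) • C.H - D)) :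
    ∃ D' : C.Div, C.Pres (ψ a) (mu C.r C.nu) (mB C.r C.nu) D'
        ((stB Q C.r C.nu f a z u B h0 h1).1.map ψ) (m3 ψ (stB Q C.r C.nu f a z u B h0 h1).2) ∧
      C.Triv (D - (D' - C.tD Z D')) := by
  have hram := isRam_ram (c := C) (ψ a) ha
  obtain ⟨Xh, x0, x1, x2, x3, x4⟩ := stageB h.prim hram (mul_ne_zero (C_ne_zero.2 hκ) hP.u_ne)
    (by rw [map_mul, pol_C, div_cst_mul hκ]; exact hP.norm Z h.prim) hh hn k0 k1
  obtain ⟨d, hd⟩ := Int.eq_ofNat_of_zero_le (deg_nonneg x0)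
  have hle : d ≤ C.r * mu C.r C.nu := by
    rw [hd, Nat.cast_le] at x1
    exact x1.trans (Nat.mul_le_mul_left _ (Nat.mul_le_mul_left _
      (Nat.mul_le_mul_right _ (Nat.sub_le _ _))))
  obtain ⟨e, he⟩ := Nat.exists_eq_add_of_le hle
  have hnn : ∀ i : ℕ, 0 ≤ Xh + Finsupp.single (ram (ψ a) ha) (i : ℤ) := fun i =>
    add_nonneg x0 (Finsupp.single_nonneg.2 (Int.natCast_nonneg i))
  have hdeg : ∀ i : ℕ, C.deg (Xh + Finsupp.single (ram (ψ a) ha) (i : ℤ)) = (d + i : ℕ) :=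
    fun i => by rw [map_add, deg_single, hd, Nat.cast_add]
  have hcont : ∀ i ≤ e, C.Cont ((m3 ψ (formB Q C.r C.nu f a z u B h0 h1 i)).map C.ev)
      ((mB C.r C.nu : ℤ) • C.H - (Xh + Finsupp.single (ram (ψ a) ha) (i : ℤ))) := fun i hi =>
    StB.cont_formB h ha hP (hnn i) (by rw [hdeg, Nat.cast_le]; omega) (x4 _ i)
  have htest := fun i (hi : i ≤ e) =>
    StB.test_spec h (hnn i) (hdeg i) (by omega) (hcont i hi)
  have t0 : ∀ i < e, ψ (testB Q C.r C.nu f z (formB Q C.r C.nu f a z u B h0 h1 i)) = 0 :=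
    fun i hi => (htest i hi.le).2.2.1 (by omega)
  have t1 : ψ (testB Q C.r C.nu f z (formB Q C.r C.nu f a z u B h0 h1 e)) = 1 :=
    (htest e le_rfl).2.2.2 he.symm
  have he' : e < C.r * mu C.r C.nu + 1 := by omega
  have e1 : (stB Q C.r C.nu f a z u B h0 h1).1.map ψ =
      (uB Q C.r C.nu f z (formB Q C.r C.nu f a z u B h0 h1 e)).map ψ :=
    StB.pick_range (mapRingHom ψ) (fun i => (Polynomial.C (testB Q C.r C.nu f z
      (formB Q C.r C.nu f a z u B h0 h1 i)), uB Q C.r C.nu f z (formB Q C.r C.nu f a z u B h0 h1 i)))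
      he' (fun i hi => by simp [t0 i hi]) (by simp [t1])
  have m3C : ∀ x : A, m3 ψ (Polynomial.C (Polynomial.C (Polynomial.C x))) =
      Polynomial.C (Polynomial.C (Polynomial.C (ψ x))) := fun x => by simp
  have e2 : m3 ψ (stB Q C.r C.nu f a z u B h0 h1).2 =
      m3 ψ (formB Q C.r C.nu f a z u B h0 h1 e) := by
    have := StB.pick_range (N := k[X][X][X]) (m3 ψ) (fun i => (Polynomial.C (Polynomial.C (Polynomial.C
      (testB Q C.r C.nu f z (formB Q C.r C.nu f a z u B h0 h1 i)))),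
        formB Q C.r C.nu f a z u B h0 h1 i))
      he' (fun i hi => by rw [m3C, t0 i hi]; simp) (by rw [m3C, t1]; simp)
    exact this
  rw [e1, e2]
  refine ⟨Xh + Finsupp.single (ram (ψ a) ha) (e : ℤ), ⟨hnn e, by rw [hdeg, he], fun b hb hne => ?_,
    (htest e le_rfl).1, fun w hw => ?_, hcont e le_rfl⟩, ?_⟩
  · rw [Finsupp.add_apply, x2 _ (isRam_ram b hb), zero_add, Finsupp.single_eq_of_ne]
    intro h2
    exact hne (by simpa only [x0_ram] using congrArg Pt.x0 h2)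
  · rw [he, nD_indep hw h.prim]
    exact (htest e le_rfl).2.1
  · rwa [map_add, tD_single_ram Z hram, add_sub_add_right_eq_sub]

end Vale.Agent.P319.Crv
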