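import Vale.Agent.P319.Alg.InitSpec
import Vale.Agent.P319.Cv.Rat
import Vale.Agent.P319.Alg.StASpec
import Vale.Agent.P319.Alg.StBSpec

/-!
P319: the chain of division steps presents the divisors of the chain of divisions.
-/

open Polynomial

namespace Vale.Agent.P319

namespace Crv

open Gen Vale.Agent.Lib.Dep

variable {A k : Type} [CommRing A] [Field k] {Q : ℕ} {ψ : A →+* k}

theorem chain_succ (Q r nu : ℕ) (f : A[X]) (a z g : A) (j : ℕ) :
    chain Q r nu f a z g (j + 1) =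
      step Q r nu f a (z ^ (1 + j % (r - 1))) g (chain Q r nu f a z g j) := by
  rw [chain, List.range_succ, List.foldl_append]
  rfl

variable [IsAlgClosed k] {C : Cv k} {f : A[X]} {z : A} {Z : C.Mu}

theorem Dat.pow (h : Dat C Q ψ f z Z) (j : ℕ) :
    Dat C Q ψ f (z ^ (1 + j % (C.r - 1))) (Z ^ (1 + j % (C.r - 1))) where
  comp := h.comp
  monic := h.monic
  mapf := h.mapf
  mapz := by rw [map_pow, h.mapz, Cv.Mu.val_pow]
  prim := Cv.prim_pow h.prim j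

theorem Ari.comp_fix {e : ℕ} {σ : k ≃+* k} {g : k} (hA : Ari C Q e σ g) (h : Comp Q ψ) :
    ((σ ^ C.r ^ e : k ≃+* k) : k →+* k).comp ψ = ψ :=
  RingHom.ext fun x => (hA.frob _).trans (h.fix x)

theorem Ari.g_ne_zero {e : ℕ} {σ : k ≃+* k} {g : k} (hA : Ari C Q e σ g) (hQ : 3 ≤ Q) :
    g ≠ 0 := fun h0 => by
  have h1 := hA.g_pow
  rw [h0, zero_pow (by omega)] at h1
  exact zero_ne_one h1

/-- the roots computed by `rootPoly` are roots -/
theorem rho_spec (h : Dat C Q ψ f z Z) {a g : A} {e : ℕ} {σ : k ≃+* k} (hA : Ari C Q e σ (ψ g))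
    {D : C.Div} {u : A[X]} {B : A[X][X][X]}
    (hP : C.Pres (ψ a) (mu C.r C.nu) (mB C.r C.nu) D (u.map ψ) (m3 ψ B))
    (hX : ∀ X, C.Triv (D - (X - C.tD Z X)) → C.Triv ((hA.fix.pow (C.r ^ e)).dv X - X)) :
    ∃ m < C.r, ∀ a', C.F.eval a' = 0 → a' ≠ ψ a →
      ((rootPoly Q C.r f g (Polynomial.C (g ^ m) * u)).map ψ).eval a' ^ C.r =
        ψ g ^ m * (u.map ψ).eval a' := by
  have h3 := h.comp.three
  have hg := hA.g_ne_zero h3
  obtain ⟨g0, hg0⟩ := IsAlgClosed.exists_pow_nat_eq (ψ g) C.r_pos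
  have hfix := hA.comp_fix h.comp
  obtain ⟨m, hm, h1⟩ := Cv.rational (hA.fix.pow (C.r ^ e)) h.prim hP
    (by rw [Polynomial.map_map, hfix])
    (by
      rw [coe_mapRingHom, Polynomial.map_map, mapRingHom_comp, mapRingHom_comp, hfix])
    hX (g := g0) (by rw [hg0, hA.frob, h.comp.fix]) (by
      intro h2
      apply hA.g_ne
      have h4 : g0 ≠ 0 := by
        rintro rfl
        rw [zero_pow C.hr.ne_zero] at hg0
        exact hg hg0.symm
      rw [hA.frob] at h2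
      rw [← hg0, ← pow_mul, Nat.mul_div_cancel' hA.dvd]
      obtain ⟨n, rfl⟩ : ∃ n, Q = n + 1 := ⟨Q - 1, by omega⟩
      rw [pow_succ] at h2
      simpa using mul_right_cancel₀ h4 (h2.trans (one_mul _).symm))
  refine ⟨m, hm, fun a' ha' hne => ?_⟩
  obtain ⟨θ, t1, -, t3⟩ := h1 a' ha' hne
  rw [hA.frob] at t1
  rw [hg0] at t3
  have h5 : h.cmp ⟨a', ha'⟩ (AdjoinRoot.mk (mon f) (Polynomial.C (g ^ m) * u)) =
      ψ g ^ m * (u.map ψ).eval a' := by
    rw [h.cmp_mk, Polynomial.map_mul, map_C, eval_mul, eval_C, map_pow]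
  rw [rootPoly, h.eval_map_rep ⟨a', ha'⟩, ← h5]
  exact root_spec (h.comp_cmp hA _) C.hr hA.dvd (by rwa [h.cmp_of]) (by rw [h.cmp_of]; exact hA.g_ne)
    t1 (h5.trans t3.symm)

theorem step_spec (h : Dat C Q ψ f z Z) {a g : A} (ha : C.F.eval (ψ a) = 0) {e : ℕ} {σ : k ≃+* k}
    (hA : Ari C Q e σ (ψ g)) {D : C.Div} {s : A[X] × A[X][X][X]}
    (hP : C.Pres (ψ a) (mu C.r C.nu) (mB C.r C.nu) D (s.1.map ψ) (m3 ψ s.2))
    (hX : ∀ X, C.Triv (D - (X - C.tD Z X)) → C.Triv ((hA.fix.pow (C.r ^ e)).dv X - X)) :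
    ∃ D' : C.Div, C.Pres (ψ a) (mu C.r C.nu) (mB C.r C.nu) D'
        ((step Q C.r C.nu f a z g s).1.map ψ) (m3 ψ (step Q C.r C.nu f a z g s).2) ∧
      C.Triv (D - (D' - C.tD Z D')) := by
  obtain ⟨κ, hκ, hh, hn, k0, k1⟩ := stA_spec h ha (hA.g_ne_zero h.comp.three) hP
    (fun m => rootPoly Q C.r f g (Polynomial.C (g ^ m) * s.1)) (rho_spec h hA hP hX)
  exact stB_spec h ha hP hκ hh hn k0 k1

theorem chain_spec (h : Dat C Q ψ f z Z) (hF : C.F.Monic) {a g : A} (ha : C.F.eval (ψ a) = 0)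
    {e : ℕ} {σ : k ≃+* k} (hA : Ari C Q e σ (ψ g)) {j : ℕ} (hj : j ≤ e * (C.r - 1)) :
    ∃ D : C.Div, C.Pres (ψ a) (mu C.r C.nu) (mB C.r C.nu) D
        ((chain Q C.r C.nu f a z g j).1.map ψ) (m3 ψ (chain Q C.r C.nu f a z g j).2) ∧
      Cv.Inv hF Z (Cv.ram (ψ a) ha) j D := by
  induction j with
  | zero => exact init_spec hF ha
  | succ j ih =>
    obtain ⟨D, hP, hI⟩ := ih (by omega)
    obtain ⟨D', hP', hT⟩ := step_spec (h.pow j) ha hA hP fun X hX =>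
      Cv.inv_frob h.prim (P := Cv.ram (ψ a) ha) rfl hA.fix (by omega) hI hX
    rw [chain_succ]
    exact ⟨D', hP', Cv.inv_step hI hT⟩

end Crv

end Vale.Agent.P319
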