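import Vale.Agent.P319.Alg.Gen
import Vale.Agent.Lib.Dep.Alg

/-!
P319: the branch free routines are computable in polynomial time; bounds for the heights of their
values.
-/

set_option linter.unusedSectionVars false

open Polynomial

namespace Vale.Agent.P319.Gen

open Vale.Agent.Lib.PolyTime hiding C P
open Vale.Agent.Lib.Dep

/-! ### Heights -/

section Ht

variable {A M ι : Type} [CommRing A] [Code A] [CommRing M] [Code M]

theorem ht_pick_le {l : List (M × M)} {B : ℕ} (h1 : ∀ c ∈ l, ht c.1 = 0)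
    (h2 : ∀ c ∈ l, ht c.2 ≤ B) : ht (pick l) ≤ B := by
  refine ht_foldl_le (by simp) fun u c hc hu => ?_
  rw [List.mem_reverse] at hc
  refine ht_add_le_of ?_ ?_
  · simpa using ht_mul_le_of (h1 c hc).le (h2 c hc)
  · simpa using ht_mul_le_of (ht_sub_le_of ht_one.le (h1 c hc).le) hu

theorem ht_pick_map_le {l : List ι} {f g : ι → M} {B : ℕ} (h1 : ∀ i ∈ l, ht (f i) = 0)
    (h2 : ∀ i ∈ l, ht (g i) ≤ B) : ht (pick (l.map fun i => (f i, g i))) ≤ B :=
  ht_pick_le (by simpa using h1) (by simpa using h2)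

section Ker

variable [Algebra A M]

theorem len_kerStep (Q : ℕ) (l : M → A) (vs : List M) : (kerStep Q l vs).length = vs.length :=
  List.length_map _

theorem len_ker1 (Q : ℕ) (Φ : M → A[X]) (vs : List M) : (ker1 Q Φ vs).length = vs.length :=
  List.foldlRecOn (motive := fun ws : List M => ws.length = vs.length) _ _ rfl
    fun _ h _ _ => (len_kerStep _ _ _).trans h

theorem len_kerI (Q : ℕ) (is : List ι) (Φ : ι → M → A[X]) (vs : List M) :
    (kerI Q is Φ vs).length = vs.length :=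
  List.foldlRecOn (motive := fun ws : List M => ws.length = vs.length) _ _ rfl
    fun _ h _ _ => (len_ker1 _ _ _).trans h

variable [HtAlg A M]

theorem ht_kerStep_le (Q : ℕ) (l : M → A) (vs : List M) : ht (kerStep Q l vs) ≤ ht vs := by
  refine ht_map_le (length_le_ht vs) fun v hv => ht_sub_le_of (ht_le_of_mem hv) ?_
  refine (ht_mul_le _ _).trans ?_
  rw [ht_algebraMap, zero_add]
  exact ht_pick_map_le (fun _ _ => ht_algebraMap _) fun w hw => by
    simpa using ht_mul_le_of (ht_algebraMap (pinv Q (l w))).le (ht_le_of_mem hw)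

theorem ht_ker1_le (Q : ℕ) (Φ : M → A[X]) (vs : List M) : ht (ker1 Q Φ vs) ≤ ht vs :=
  ht_foldl_le le_rfl fun _ _ _ hu => (ht_kerStep_le _ _ _).trans hu

theorem ht_kerI_le (Q : ℕ) (is : List ι) (Φ : ι → M → A[X]) (vs : List M) :
    ht (kerI Q is Φ vs) ≤ ht vs :=
  ht_foldl_le le_rfl fun _ _ _ hu => (ht_ker1_le _ _ _).trans hu

end Ker

theorem ht_form_le (l : List M) : ht (form l) ≤ 2 * ht l := by
  have key : ∀ t : List M, (∀ v ∈ t, ht v ≤ ht l) →
      ht (t.reverse.foldl (fun acc v => C v + X * acc) (0 : M[X])) ≤ ht l + t.length := by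
    intro t
    induction t with
    | nil => simp
    | cons v t ih =>
      intro h
      rw [List.reverse_cons, List.foldl_append, List.foldl_cons, List.foldl_nil, List.length_cons]
      refine ht_add_le_of ?_ ?_
      · rw [ht_C]; exact (h v List.mem_cons_self).trans (Nat.le_add_right _ _)
      · refine (ht_mul_le_of ht_X_le (ih fun w hw => h w (List.mem_cons_of_mem _ hw))).trans ?_
        omega
  have := key l fun _ => ht_le_of_mem
  have h2 := length_le_ht l
  unfold form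
  omega

theorem ht_mapc_le {f : A → M} {p : A[X]} {B : ℕ} (h0 : p.natDegree ≤ B)
    (h : ∀ i, ht (f (p.coeff i)) ≤ B) : ht (mapc f p) ≤ B :=
  ht_sum_le fun i hi => (ht_monomial_le _ _).trans
    (max_le ((Nat.lt_succ_iff.1 (Finset.mem_range.1 hi)).trans h0) (h i))

variable [HtZero A]

theorem ht_monz_le (Q : ℕ) (v : A[X]) (d : ℕ) : ht (monz Q v d) ≤ d :=
  ht_add_le_of (ht_X_pow_le d) (ht_sum_le fun j hj => (ht_monomial_le _ _).trans
    (max_le (Finset.mem_range.1 hj).le (by rw [ht_eq_zero]; exact Nat.zero_le _)))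

theorem ht_divAny_le (Q : ℕ) (p v : A[X]) : ht (divAny Q p v) ≤ ht p :=
  ht_pick_map_le (fun _ _ => by rw [ht_C, ht_eq_zero]) fun d _ => by
    simpa using ht_mul_le_of (B := 0) (by rw [ht_C, ht_eq_zero]) (ht_divByMonic_le' p (monz Q v d))

theorem ht_modAny_le (Q : ℕ) (p v : A[X]) : ht (modAny Q p v) ≤ ht p :=
  ht_pick_map_le (fun _ _ => by rw [ht_C, ht_eq_zero]) fun _ _ => ht_modByMonic_le' _ _

theorem ht_gcdStep_le (Q : ℕ) (s : A[X] × A[X]) : ht (gcdStep Q s) ≤ ht s := by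
  refine ht_pair_le.2 ⟨ht_add_le_of ?_ ?_, (ht_modAny_le _ _ _).trans (ht_fst_le s)⟩
  · simpa using ht_mul_le_of (B := 0) (by rw [ht_C, ht_eq_zero]) (ht_snd_le s)
  · simpa using ht_mul_le_of (x := C (1 - nz1 Q s.2)) (B := 0) (by rw [ht_C, ht_eq_zero])
      (ht_fst_le s)

theorem ht_gcd2_le (Q : ℕ) (a b : A[X]) : ht (gcd2 Q a b) ≤ max (ht a) (ht b) :=
  (ht_fst_le _).trans (ht_iterate_le le_rfl (fun _ hu => (ht_gcdStep_le Q _).trans hu) _)

theorem ht_gcdL_le (Q : ℕ) (l : List A[X]) : ht (gcdL Q l) ≤ ht l :=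
  ht_foldl_le (by simp) fun _ _ hx hu => (ht_gcd2_le _ _ _).trans (max_le hu (ht_le_of_mem hx))

end Ht

/-! ### Polynomial time -/

variable {α : Type} [Enc α] {A M : α → Type} [∀ a, CommRing (A a)] [∀ a, Code (A a)]
  [∀ a, CommRing (M a)] [∀ a, Code (M a)] {Q r : α → ℕ}

@[fun_prop]
theorem dpt_pick {l : ∀ a, List (M a × M a)} (hM : PTRing M) (hl : DPT l) :
    DPT (fun a => pick (l a)) := by
  refine DPT.foldl_grow hM.sz hl.reverse hM.zero (by fun_prop) (b := fun a => 2 * ht (l a))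
    (by fun_prop) fun a u c hc => ?_
  rw [List.mem_reverse] at hc
  have h1 := (ht_fst_le c).trans (ht_le_of_mem hc)
  have h2 := (ht_snd_le c).trans (ht_le_of_mem hc)
  refine ht_add_le_of ((ht_mul_le_of h1 h2).trans (by omega))
    ((ht_mul_le_of (ht_sub_le_of (by simp) h1) le_rfl).trans (by omega))

@[fun_prop]
theorem dpt_form {l : ∀ a, List (M a)} (hM : PTRing M) (hl : DPT l) :
    DPT (fun a => form (l a)) := by
  refine DPT.foldl_grow (by fun_prop) hl.reverse (by fun_prop) (by fun_prop)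
    (b := fun a => ht (l a) + 1) (by fun_prop) fun a u c hc => ?_
  rw [List.mem_reverse] at hc
  have h1 := ht_le_of_mem hc
  exact ht_add_le_of (by rw [ht_C]; omega) ((ht_mul_le_of ht_X_le le_rfl).trans (by omega))

@[fun_prop]
theorem dpt_mapc {f : ∀ a, A a → M a} {p : ∀ a, (A a)[X]} (hA : PTRing A) (hM : PTRing M)
    (hf : DPT (fun q : Σ a, A a => f q.1 q.2)) (hp : DPT p) : DPT (fun a => mapc (f a) (p a)) := by
  have hf' := DPT.fn f hf
  unfold mapc
  fun_prop

@[fun_prop]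
theorem dpt_rv (hQ : DPT Q) (hr : DPT r) : DPT (fun a => rv (Q a) (r a)) := by
  unfold rv
  fun_prop

@[fun_prop]
theorem pbd_rv (hQ : DPT Q) : PBd (fun a => rv (Q a) (r a)) := by
  unfold rv
  fun_prop

@[fun_prop]
theorem dpt_ro (hQ : DPT Q) (hr : DPT r) : DPT (fun a => ro (Q a) (r a)) := by
  unfold ro
  fun_prop

@[fun_prop]
theorem dpt_rc (hQ : DPT Q) (hr : DPT r) (hb : PBd r) : DPT (fun a => rc (Q a) (r a)) := by
  unfold rc
  fun_prop

theorem ht_newton_aux {R : Type} [CommRing R] [Code R] (iv ps : ℕ → R) {B n : ℕ}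
    (h1 : ∀ j < n, ht (iv (j + 1)) ≤ B) (h2 : ∀ j < n, ht (ps (j + 1)) ≤ B) (i : ℕ) (hi : i ≤ n) :
    ht ((List.range i).foldl (fun (es : List R) j => es ++ [iv (j + 1) *
      ∑ i ∈ Finset.range (j + 1), (-1) ^ i * es.getD (j - i) 0 * ps (i + 1)]) [1]) ≤
      1 + i * (2 * B + 1) := by
  induction i with
  | zero => exact ht_list_le.2 (by simp)
  | succ i ih =>
    rw [List.range_succ, List.foldl_append, List.foldl_cons, List.foldl_nil]
    have ih' := ih (by omega)
    generalize (List.range i).foldl _ _ = es at ih' ⊢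
    obtain ⟨h3, h4⟩ := ht_list_le.1 ih'
    refine ht_list_le.2 ⟨by rw [List.length_append, add_mul]; simp; omega, fun x hx => ?_⟩
    rcases List.mem_append.1 hx with h | h
    · exact (h4 x h).trans (by rw [add_mul]; omega)
    · rw [List.mem_singleton.1 h]
      refine (ht_mul_le_of (h1 i (by omega)) (ht_sum_le (B := 1 + i * (2 * B + 1) + B)
        fun j hj => ht_mul_le_of ?_ (h2 j ?_))).trans (by rw [add_mul]; omega)
      · refine (ht_mul_le _ _).trans ?_
        have h5 : ht ((-1 : R) ^ j) = 0 := Nat.le_zero.1 ((ht_pow_le _ _).trans (by simp))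
        rw [h5, zero_add]
        exact (ht_getD_le _ _ _).trans (max_le ih' (by simp))
      · have := Finset.mem_range.1 hj
        omega

theorem ht_newton_le {R : Type} [CommRing R] [Code R] (iv ps : ℕ → R) {B n : ℕ}
    (h1 : ∀ j < n, ht (iv (j + 1)) ≤ B) (h2 : ∀ j < n, ht (ps (j + 1)) ≤ B) :
    ht (newton iv ps n) ≤ 1 + n * (2 * B + 1) :=
  (ht_getD_le _ _ _).trans (max_le (ht_newton_aux iv ps h1 h2 n le_rfl) (by simp))

theorem newton_congr {R : Type} [CommRing R] {iv ps iv' ps' : ℕ → R} {n : ℕ}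
    (h1 : ∀ j < n, iv (j + 1) = iv' (j + 1)) (h2 : ∀ j < n, ps (j + 1) = ps' (j + 1)) :
    newton iv ps n = newton iv' ps' n := by
  unfold newton
  congr 1
  refine List.foldl_ext _ _ _ fun es j hj => ?_
  have hj' := List.mem_range.1 hj
  rw [h1 j hj']
  congr 3
  exact Finset.sum_congr rfl fun i hi => by
    rw [h2 i (by have := Finset.mem_range.1 hi; omega)]

@[fun_prop]
theorem dpt_newton {iv ps : ∀ a, ℕ → M a} {n : α → ℕ} (hM : PTRing M) (hn : DPT n) (hb : PBd n)
    (hiv : DPT (fun q : Σ a, {i // i ∈ List.range (n a + 1)} => iv q.1 q.2.1))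
    (hps : DPT (fun q : Σ a, {i // i ∈ List.range (n a + 1)} => ps q.1 q.2.1)) :
    DPT (fun a => newton (iv a) (ps a) (n a)) := by
  obtain ⟨L, hL⟩ : ∃ L : ∀ a, List (M a), L = fun a => (List.range (n a + 1)).map (iv a) := ⟨_, rfl⟩
  obtain ⟨P, hP⟩ : ∃ L : ∀ a, List (M a), L = fun a => (List.range (n a + 1)).map (ps a) := ⟨_, rfl⟩
  have h1 : DPT L := hL ▸ DPT.map (by fun_prop) hiv
  have h2 : DPT P := hP ▸ DPT.map (by fun_prop) hps
  have h3 : DPT (fun a => newton (fun j => (L a).getD j 0) (fun j => (P a).getD j 0) (n a)) := by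
    refine DPT.getD (DPT.foldl_ht (by fun_prop) (by fun_prop) (by fun_prop) (by fun_prop)
      (b := fun a => 1 + n a * (2 * max (ht (L a)) (ht (P a)) + 1)) (by fun_prop) fun a i => ?_)
      hn hM.zero
    rw [List.take_range]
    refine (ht_newton_aux (fun j => (L a).getD j 0) (fun j => (P a).getD j 0) (n := n a)
      (B := max (ht (L a)) (ht (P a))) (fun j _ => ?_) (fun j _ => ?_) _ (min_le_right _ _)).trans
      (Nat.add_le_add_left (Nat.mul_le_mul_right _ (min_le_right _ _)) _)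
    · exact (ht_getD_le _ _ _).trans (max_le (le_max_left _ _) (by simp))
    · exact (ht_getD_le _ _ _).trans (max_le (le_max_right _ _) (by simp))
  refine h3.congr fun a => newton_congr (fun j hj => ?_) fun j hj => ?_
  · rw [hL, List.getD_eq_getElem _ _ (by simpa using hj)]
    simp
  · rw [hP, List.getD_eq_getElem _ _ (by simpa using hj)]
    simp

variable [∀ a, HtZero (A a)]

@[fun_prop]
theorem dpt_pinv {z : ∀ a, A a} (hA : PTRing A) (hQ : DPT Q) (hz : DPT z) :
    DPT (fun a => pinv (Q a) (z a)) := by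
  unfold pinv
  fun_prop

@[fun_prop]
theorem dpt_ind {z : ∀ a, A a} (hA : PTRing A) (hQ : DPT Q) (hz : DPT z) :
    DPT (fun a => ind (Q a) (z a)) := by
  unfold ind
  fun_prop

@[fun_prop]
theorem dpt_nzL {l : ∀ a, List (A a)} (hA : PTRing A) (hQ : DPT Q) (hl : DPT l) :
    DPT (fun a => nzL (Q a) (l a)) := by
  unfold nzL
  fun_prop

@[fun_prop]
theorem dpt_nz1 {p : ∀ a, (A a)[X]} (hA : PTRing A) (hQ : DPT Q) (hp : DPT p) :
    DPT (fun a => nz1 (Q a) (p a)) := by
  unfold nz1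
  fun_prop

@[fun_prop]
theorem dpt_nz2 {p : ∀ a, (A a)[X][X]} (hA : PTRing A) (hQ : DPT Q) (hp : DPT p) :
    DPT (fun a => nz2 (Q a) (p a)) := by
  unfold nz2
  fun_prop

section Ker

variable [∀ a, Algebra (A a) (M a)]

@[fun_prop]
theorem dpt_kerStep {l : ∀ a, M a → A a} {vs : ∀ a, List (M a)} (hA : PTRing A) (hM : PTRing M)
    (hAM : PTAlg A M) (hQ : DPT Q) (hl : DPT (fun q : Σ a, M a => l q.1 q.2)) (hvs : DPT vs) :
    DPT (fun a => kerStep (Q a) (l a) (vs a)) := by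
  have hl' := DPT.fn l hl
  unfold kerStep
  fun_prop

variable [∀ a, HtAlg (A a) (M a)]

@[fun_prop]
theorem dpt_ker1 {Φ : ∀ a, M a → (A a)[X]} {vs : ∀ a, List (M a)} (hA : PTRing A) (hM : PTRing M)
    (hAM : PTAlg A M) (hQ : DPT Q) (hΦ : DPT (fun q : Σ a, M a => Φ q.1 q.2)) (hvs : DPT vs) :
    DPT (fun a => ker1 (Q a) (Φ a) (vs a)) := by
  have hΦ' := DPT.fn Φ hΦ
  exact DPT.foldl_inv (by fun_prop) (by fun_prop) hvs (by fun_prop) (b := fun a => ht (vs a))
    (by fun_prop) (fun _ => le_rfl) fun _ _ _ _ hu => (ht_kerStep_le _ _ _).trans hu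

@[fun_prop]
theorem dpt_kerI {ι : α → Type} [∀ a, Enc (ι a)] {is : ∀ a, List (ι a)}
    {Φ : ∀ a, ι a → M a → (A a)[X]} {vs : ∀ a, List (M a)} (hA : PTRing A) (hM : PTRing M)
    (hAM : PTAlg A M) (hQ : DPT Q) (his : DPT is)
    (hΦ : DPT (fun q : Σ p : (Σ a, {i // i ∈ is a}), M p.1 => Φ q.1.1 q.1.2.1 q.2))
    (hvs : DPT vs) : DPT (fun a => kerI (Q a) (is a) (Φ a) (vs a)) := by
  refine DPT.foldl_inv (by fun_prop) his hvs ?_ (b := fun a => ht (vs a))
    (by fun_prop) (fun _ => le_rfl) fun _ _ _ _ hu => (ht_ker1_le _ _ _).trans hu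
  refine dpt_ker1 (by fun_prop) (by fun_prop) (by fun_prop) (by fun_prop) ?_ (by fun_prop)
  exact DPT.comp (f := fun q : Σ p : (Σ a, List (M a) × {i // i ∈ is a}), M p.1 =>
    (⟨⟨q.1.1, q.1.2.2⟩, q.2⟩ : Σ p : (Σ a, {i // i ∈ is a}), M p.1)) hΦ (by fun_prop)

end Ker

@[fun_prop]
theorem dpt_monz {v : ∀ a, (A a)[X]} {d : α → ℕ} (hA : PTRing A) (hQ : DPT Q) (hv : DPT v)
    (hd : DPT d) (hb : PBd d) : DPT (fun a => monz (Q a) (v a) (d a)) := by
  unfold monz
  fun_prop

theorem map_reverse_eq {ι κ : Type} (f : ι → κ) (l : List ι) :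
    l.reverse.map f = (l.map f).reverse := List.map_reverse

@[fun_prop]
theorem dpt_divAny {p v : ∀ a, (A a)[X]} (hA : PTRing A) (hQ : DPT Q) (hp : DPT p) (hv : DPT v) :
    DPT (fun a => divAny (Q a) (p a) (v a)) := by
  simp only [divAny, map_reverse_eq]
  fun_prop

@[fun_prop]
theorem dpt_modAny {p v : ∀ a, (A a)[X]} (hA : PTRing A) (hQ : DPT Q) (hp : DPT p) (hv : DPT v) :
    DPT (fun a => modAny (Q a) (p a) (v a)) := by
  simp only [modAny, map_reverse_eq]
  fun_prop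

@[fun_prop]
theorem dpt_gcdStep {s : ∀ a, (A a)[X] × (A a)[X]} (hA : PTRing A) (hQ : DPT Q) (hs : DPT s) :
    DPT (fun a => gcdStep (Q a) (s a)) := by
  unfold gcdStep
  fun_prop

@[fun_prop]
theorem dpt_gcd2 {p v : ∀ a, (A a)[X]} (hA : PTRing A) (hQ : DPT Q) (hp : DPT p) (hv : DPT v) :
    DPT (fun a => gcd2 (Q a) (p a) (v a)) :=
  DPT.fst (DPT.iterate_inv (β := fun a => (A a)[X] × (A a)[X]) (f := fun a => gcdStep (Q a))
    (by fun_prop) (by fun_prop) (by fun_prop) (by fun_prop) (by fun_prop)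
    (b := fun a => ht (p a, v a)) (by fun_prop) (fun _ => le_rfl)
    fun _ _ hu => (ht_gcdStep_le _ _).trans hu)

@[fun_prop]
theorem dpt_gcdL {l : ∀ a, List (A a)[X]} (hA : PTRing A) (hQ : DPT Q) (hl : DPT l) :
    DPT (fun a => gcdL (Q a) (l a)) :=
  DPT.foldl_inv (f := fun a => gcd2 (Q a)) (by fun_prop) hl (by fun_prop) (by fun_prop)
    (b := fun a => ht (l a)) (by fun_prop) (fun _ => by simp)
    fun _ _ _ hx hu => (ht_gcd2_le _ _ _).trans (max_le hu (ht_le_of_mem hx))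

@[fun_prop]
theorem dpt_rootFac {G w : ∀ a, A a} {v i : α → ℕ} (hA : PTRing A) (hQ : DPT Q) (hr : DPT r)
    (hrb : PBd r) (hv : DPT v) (hvb : PBd v) (hG : DPT G) (hw : DPT w) (hi : DPT i)
    (hib : PBd i) : DPT (fun a => rootFac (Q a) (r a) (v a) (G a) (w a) (i a)) := by
  unfold rootFac
  fun_prop

@[fun_prop]
theorem dpt_root {g z : ∀ a, A a} (hA : PTRing A) (hQ : DPT Q) (hr : DPT r) (hrb : PBd r)
    (hg : DPT g) (hz : DPT z) : DPT (fun a => root (Q a) (r a) (g a) (z a)) := by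
  unfold root
  fun_prop

end Vale.Agent.P319.Gen
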