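import Vale.Agent.P319.Alg.Split
import Vale.Agent.P319.Alg.GenPT
import Vale.Agent.P319.Fin0

/-!
P319: the classical part of the algorithm runs in polynomial time; reduction of the final
statement to the curve algorithm.
-/

open Polynomial

namespace Vale.Agent.P319.Alg

open Vale.Agent.Lib.PolyTime hiding C P
open Vale.Agent.Lib.Dep Gen Crv

variable {α : Type} [Enc α]

section Field

theorem ht_elim1_le {F : Type} [Field F] [Code F] [HtZero F] (l : F[X] → F) (vs : List F[X]) :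
    ht (elim1 l vs) ≤ ht vs := by
  refine ht_map_le (length_le_ht vs) fun v hv => ht_sub_le_of (ht_le_of_mem hv) ?_
  refine (ht_mul_le _ _).trans ?_
  rw [ht_C, ht_eq_zero, zero_add]
  rcases pivot_cases l vs with h | h
  · exact ht_le_of_mem h.1
  · rw [h.1, ht_zero]
    exact Nat.zero_le _

variable {K : α → Type} [∀ a, Field (K a)] [∀ a, Code (K a)] [∀ a, HtZero (K a)]

omit [∀ a, HtZero (K a)] in
@[fun_prop]
theorem dpt_pivot {l : ∀ a, (K a)[X] → K a} {vs : ∀ a, List (K a)[X]} (hK : PTField K)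
    (hl : DPT (fun q : Σ a, (K a)[X] => l q.1 q.2)) (hvs : DPT vs) :
    DPT (fun a => pivot (l a) (vs a)) := by
  have hl' := DPT.fn l hl
  unfold pivot
  fun_prop

omit [∀ a, HtZero (K a)] in
@[fun_prop]
theorem dpt_elim1 {l : ∀ a, (K a)[X] → K a} {vs : ∀ a, List (K a)[X]} (hK : PTField K)
    (hl : DPT (fun q : Σ a, (K a)[X] => l q.1 q.2)) (hvs : DPT vs) :
    DPT (fun a => elim1 (l a) (vs a)) := by
  have hl' := DPT.fn l hl
  have h1 := dpt_pivot hK hl hvs
  unfold elim1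
  fun_prop

theorem dpt_kerP {Φ : ∀ a, (K a)[X] → (K a)[X]} {m : α → ℕ} {vs : ∀ a, List (K a)[X]}
    (hK : PTField K) (hΦ : DPT (fun q : Σ a, (K a)[X] => Φ q.1 q.2)) (hm : DPT m) (hb : PBd m)
    (hvs : DPT vs) : DPT (fun a => kerP (Φ a) (m a) (vs a)) := by
  have hΦ' := DPT.fn Φ hΦ
  refine DPT.foldl_inv (by fun_prop) (by fun_prop) hvs ?_ (b := fun a => ht (vs a))
    (by fun_prop) (fun _ => le_rfl) fun _ _ _ _ hu => (ht_elim1_le _ _).trans hu
  exact dpt_elim1 (by fun_prop) (by fun_prop) (by fun_prop)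

omit [∀ a, HtZero (K a)] in
@[fun_prop]
theorem dpt_monos {d : α → ℕ} (hK : PTField K) (hd : DPT d) (hb : PBd d) :
    DPT (fun a => monos (K a) (d a)) := by
  unfold monos
  fun_prop

omit [∀ a, HtZero (K a)] in
@[fun_prop]
theorem dpt_nrm {v : ∀ a, (K a)[X]} (hK : PTField K) (hv : DPT v) : DPT (fun a => nrm (v a)) := by
  unfold nrm
  fun_prop

@[fun_prop]
theorem dpt_ngcd {g c : ∀ a, (K a)[X]} (hK : PTField K) (hg : DPT g) (hc : DPT c) :
    DPT (fun a => ngcd (g a) (c a)) := by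
  unfold ngcd
  fun_prop

@[fun_prop]
theorem dpt_pmod {g v : ∀ a, (K a)[X]} {e : α → ℕ} (hK : PTField K) (hg : DPT g) (hv : DPT v)
    (he : DPT e) : DPT (fun a => pmod (g a) (v a) (e a)) := by
  classical
  have h1 : DPT (fun a => if (g a).Monic then rep (AdjoinRoot.mk (mon (g a)) (v a) ^ e a)
      else 0) := by fun_prop
  refine h1.congr fun a => ?_
  unfold pmod
  split_ifs with h
  · rw [← map_pow, rep_mk (mon_monic _)]
    congr 1
    exact mon_eq h
  · rfl

@[fun_prop]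
theorem dpt_rels {g b : ∀ a, (K a)[X]} {d : α → ℕ} (hK : PTField K) (hg : DPT g) (hb : DPT b)
    (hd : DPT d) (hd' : PBd d) : DPT (fun a => rels (g a) (b a) (d a)) :=
  dpt_kerP hK (by fun_prop) (by fun_prop) (by fun_prop) (by fun_prop)

end Field

section Ring

variable {A : α → Type} [∀ a, CommRing (A a)] [∀ a, Code (A a)]

@[fun_prop]
theorem dpt_chi {l r q x : α → ℕ} {ζ : ∀ a, A a} (hA : PTRing A) (hl : DPT l) (hl' : PBd l)
    (hr : DPT r) (hr' : PBd r) (hq : DPT q) (hζ : DPT ζ) (hx : DPT x) :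
    DPT (fun a => chi (l a) (r a) (q a) (ζ a) (x a)) := by
  unfold chi
  fun_prop

@[fun_prop]
theorem dpt_gam {l r q : α → ℕ} {ζ : ∀ a, A a} (hA : PTRing A) (hl : DPT l) (hl' : PBd l)
    (hr : DPT r) (hr' : PBd r) (hq : DPT q) (hζ : DPT ζ) :
    DPT (fun a => gam (l a) (r a) (q a) (ζ a)) := by
  unfold gam
  fun_prop

variable [∀ a, HtZero (A a)]

@[fun_prop]
theorem dpt_tourn {Q : α → ℕ} {γ : ∀ a, A a} {m : ∀ a, (A a)[X]} (hA : PTRing A) (hQ : DPT Q)
    (hγ : DPT γ) (hm : DPT m) : DPT (fun a => tourn (Q a) (γ a) (m a)) := by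
  have h1 : DPT (fun a => (m a).map (AdjoinRoot.of (mon (m a)))) := by fun_prop
  have h2 : DPT (fun a => tz (m a)) := by
    unfold tz
    fun_prop
  have h3 : DPT (fun a => outdeg (Q a) (γ a) (m a)) := by
    unfold outdeg trA
    fun_prop
  exact DPT.map (by fun_prop) (DPT.sub (by fun_prop) (h3.rep.comp DPT.id.sfst) (by fun_prop))

end Ring

@[fun_prop]
theorem pbd_ell (c : ℕ) {r q : α → ℕ} (hr : PBd r) (hq : DPT q) :
    PBd (fun a => ell c (r a) (q a)) :=
  PBd.mono (b := fun a => (r a + Nat.size (q a)) ^ c) (by fun_prop) fun _ => ell_le _ _ _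

@[fun_prop]
theorem dpt_ell (c : ℕ) {r q : α → ℕ} (hr : DPT r) (hr' : PBd r) (hq : DPT q) :
    DPT (fun a => ell c (r a) (q a)) := by
  unfold ell
  fun_prop

variable {p : α → ℕ} [∀ a, Fact (p a).Prime]

@[fun_prop]
theorem dpt_berl {g : ∀ a, (ZMod (p a))[X]} (hp : DPT p) (hg : DPT g) :
    DPT (fun a => berl (g a)) :=
  dpt_kerP (by fun_prop) (by fun_prop) (by fun_prop) (by fun_prop) (by fun_prop)

section Sp

variable {sp : ∀ a, (ZMod (p a))[X] → List (ZMod (p a))[X]}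

theorem dpt_cands {g : ∀ a, (ZMod (p a))[X]} (hp : DPT p)
    (hsp : DPT (fun q : Σ a, (ZMod (p a))[X] => sp q.1 q.2)) (hg : DPT g) :
    DPT (fun a => cands (sp a) (g a)) := by
  have hsp' := DPT.fn sp hsp
  unfold cands
  fun_prop

theorem dpt_split1 {g : ∀ a, (ZMod (p a))[X]} (hp : DPT p)
    (hsp : DPT (fun q : Σ a, (ZMod (p a))[X] => sp q.1 q.2)) (hg : DPT g) :
    DPT (fun a => split1 (sp a) (g a)) := by
  have h1 := dpt_cands hp hsp hg
  have h2 : DPT (fun a => fdiv (sp a) (g a)) := by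
    unfold fdiv
    fun_prop
  unfold split1
  fun_prop

theorem dpt_factor {f : ∀ a, (ZMod (p a))[X]} (hp : DPT p)
    (hsp : DPT (fun q : Σ a, (ZMod (p a))[X] => sp q.1 q.2)) (hf : DPT f) :
    DPT (fun a => factor (sp a) (f a)) := by
  have hsp' := DPT.fn sp hsp
  have h1 : DPT (fun q : Σ a, (ZMod (p a))[X] => split1 (sp q.1) q.2) :=
    dpt_split1 (by fun_prop) (by fun_prop) (by fun_prop)
  have h2 := DPT.fn (fun a g => split1 (sp a) g) h1
  refine DPT.iterate_ht (by fun_prop) (by fun_prop) (by fun_prop) (by fun_prop) (by fun_prop)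
    (b := fun a => (f a).natDegree) (by fun_prop) fun a j _ => ?_
  obtain ⟨k1, k2⟩ := work_bound (sp a) (f a) j
  exact ht_list_le.2 ⟨k1, fun d hd => by rw [ht_poly_eq]; exact k2 d hd⟩

theorem dpt_entry (c : ℕ) {r : α → ℕ} (hp : DPT p)
    (hsp : DPT (fun q : Σ a, (ZMod (p a))[X] => sp q.1 q.2)) (hr : DPT r) (hr' : PBd r) :
    DPT (fun a => entry c (sp a) (r a)) := by
  have h1 : DPT (fun a => cyc (sp a) (r a)) :=
    DPT.headD (dpt_factor hp hsp (by fun_prop)) (by fun_prop)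
  unfold entry
  fun_prop

end Sp

theorem ht_entry_le {q : ℕ} [Fact q.Prime] (c : ℕ) (sp : (ZMod q)[X] → List (ZMod q)[X]) (r : ℕ) :
    ht (entry c sp r) ≤ r := by
  obtain ⟨h1, h2⟩ := cyc_bound sp r
  refine ht_pair_le.2 ⟨?_, ?_⟩
  · rw [ht_poly_eq]
    omega
  · rw [ht_poly_eq]
    exact (natDegree_modByMonic_le _ h1).trans (by omega)

theorem ht_table_le {q : ℕ} [Fact q.Prime] (c : ℕ)
    (sp : List ((ZMod q)[X] × (ZMod q)[X]) → (ZMod q)[X] → List (ZMod q)[X]) (N : ℕ) :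
    ht (table c sp N) ≤ N := by
  induction N with
  | zero => exact le_rfl
  | succ N ih =>
    refine ht_list_le.2 ⟨(length_table c sp _).le, fun x hx => ?_⟩
    rw [table_succ] at hx
    rcases List.mem_append.1 hx with h | h
    · exact (ht_le_of_mem h).trans (by omega)
    · rw [List.mem_singleton.1 h]
      exact (ht_entry_le _ _ _).trans (by omega)

section Tab

variable {sp : ∀ a, List ((ZMod (p a))[X] × (ZMod (p a))[X]) → (ZMod (p a))[X] →
  List (ZMod (p a))[X]}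

theorem dpt_table (c : ℕ) {N : α → ℕ} (hp : DPT p)
    (hsp : DPT (fun q : Σ a, List ((ZMod (p a))[X] × (ZMod (p a))[X]) × (ZMod (p a))[X] =>
      sp q.1 q.2.1 q.2.2)) (hN : DPT N) (hN' : PBd N) : DPT (fun a => table c (sp a) (N a)) := by
  have hsp' := DPT.fn2 sp hsp
  refine DPT.foldl_ht (by fun_prop) (by fun_prop) (by fun_prop) ?_ hN' fun a i => ?_
  · refine DPT.append (by fun_prop) (DPT.cons ?_ DPT.nil)
    exact dpt_entry c (by fun_prop) (by fun_prop) (by fun_prop) (by fun_prop)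
  · rw [List.take_range]
    exact (ht_table_le c (sp a) _).trans (min_le_right _ _)

theorem dpt_factorAll (c : ℕ) {f : ∀ a, (ZMod (p a))[X]} (hp : DPT p)
    (hsp : DPT (fun q : Σ a, List ((ZMod (p a))[X] × (ZMod (p a))[X]) × (ZMod (p a))[X] =>
      sp q.1 q.2.1 q.2.2)) (hf : DPT f) : DPT (fun a => factorAll c (sp a) (f a)) := by
  have hsp' := DPT.fn2 sp hsp
  have h1 : DPT (fun a => table c (sp a) ((f a).natDegree + 1)) :=
    dpt_table c hp hsp (by fun_prop) (by fun_prop)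
  exact dpt_factor hp (hsp' DPT.id.sfst (h1.comp DPT.id.sfst) DPT.ssnd) hf

end Tab

theorem dpt_splitR (c0 : ℕ)
    {cv : ∀ a, ℕ → (ZMod (p a))[X] → (ZMod (p a))[X] → (ZMod (p a))[X] → List (ZMod (p a))[X]}
    {tab : ∀ a, List ((ZMod (p a))[X] × (ZMod (p a))[X])} {m : ∀ a, (ZMod (p a))[X]} (hp : DPT p)
    (hcv : DPT (fun q : Σ a, (ZMod (p a))[X] × (ZMod (p a))[X] × (ZMod (p a))[X] =>
      cv q.1 q.2.2.2.natDegree.minFac q.2.1 q.2.2.1 q.2.2.2)) (htab : DPT tab) (hm : DPT m) :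
    DPT (fun a => splitR c0 (cv a) (tab a) (m a)) := by
  have h0 : DPT (fun a => (0 : (ZMod (p a))[X] × (ZMod (p a))[X])) :=
    DPT.pair (by fun_prop) (by fun_prop)
  have h1 : DPT (fun a => (tab a).getD (m a).natDegree.minFac 0) := by fun_prop
  have h2 := DPT.fn3 (fun a h g m => cv a m.natDegree.minFac h g m) hcv DPT.id h1.fst h1.snd hm
  unfold splitR
  fun_prop

/-- The final statement follows from a polynomial time curve algorithm. -/
theorem goal_of_curve (hS : NT.SmallPrime) (c0 : ℕ)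
    (cv : ∀ q : Pr, ℕ → (ZMod q.1)[X] → (ZMod q.1)[X] → (ZMod q.1)[X] → List (ZMod q.1)[X])
    (hcv : ∀ q, CurveSpec c0 (cv q))
    (hD : DPT (fun x : Σ q : Pr, (ZMod q.1)[X] × (ZMod q.1)[X] × (ZMod q.1)[X] =>
      cv x.1 x.2.2.2.natDegree.minFac x.2.1 x.2.2.1 x.2.2.2)) : Goal := by
  obtain ⟨c, hc⟩ := exists_ellOk hS
  refine goal_of (fun x => factorAll c (splitR c0 (cv x.1)) x.2) ?_ fun x _ =>
    factorAll_spec hc (splitR_spec (hcv x.1)) x.2
  have h1 := DPT.fn3 (fun (q : Pr) h g m => cv q m.natDegree.minFac h g m) hD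
  refine dpt_factorAll c (by fun_prop) ?_ (by fun_prop)
  exact dpt_splitR c0 (by fun_prop) (by fun_prop) (by fun_prop) (by fun_prop)

end Vale.Agent.P319.Alg
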