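import Vale.Agent.P319.Alg.Gen
import Mathlib.LinearAlgebra.Span.Basic
import Mathlib.RingTheory.Ideal.Span
import Mathlib.Tactic.LinearCombination

/-!
P319: the meaning of the branch free routines of `Alg/Gen.lean` after applying a homomorphism to
a field.
-/

open Polynomial

namespace Vale.Agent.P319.Gen

variable {A k M N ι : Type} [CommRing A] [Field k] [CommRing M] [CommRing N] {Q : ℕ}
  {ψ : A →+* k}

/-! ### Indicators -/

theorem Comp.pow_pred (h : Comp Q ψ) {z : A} (hz : ψ z ≠ 0) : ψ z ^ (Q - 1) = 1 := by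
  have h1 := h.fix z
  have h3 := h.three
  obtain ⟨m, rfl⟩ : ∃ m, Q = m + 1 := ⟨Q - 1, by omega⟩
  rw [pow_succ] at h1
  rw [Nat.add_sub_cancel]
  exact mul_right_cancel₀ hz (by rw [h1, one_mul])

theorem Comp.map_pinv (h : Comp Q ψ) (z : A) : ψ (pinv Q z) = (ψ z)⁻¹ := by
  have h3 := h.three
  rw [pinv, map_pow]
  by_cases hz : ψ z = 0
  · rw [hz, inv_zero, zero_pow (by omega)]
  · refine eq_inv_of_mul_eq_one_left ?_
    rw [← pow_succ, show Q - 2 + 1 = Q - 1 by omega, h.pow_pred hz]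

theorem Comp.ind_of_eq (h : Comp Q ψ) {z : A} (hz : ψ z = 0) : ψ (ind Q z) = 0 := by
  have h3 := h.three
  rw [ind, map_pow, hz, zero_pow (by omega)]

theorem Comp.ind_of_ne (h : Comp Q ψ) {z : A} (hz : ψ z ≠ 0) : ψ (ind Q z) = 1 := by
  rw [ind, map_pow, h.pow_pred hz]

open Classical in
theorem Comp.map_ind (h : Comp Q ψ) (z : A) : ψ (ind Q z) = if ψ z = 0 then 0 else 1 := by
  split_ifs with hz
  · exact h.ind_of_eq hz
  · exact h.ind_of_ne hz

theorem Comp.ind_bool (h : Comp Q ψ) (z : A) : ψ (ind Q z) = 0 ∨ ψ (ind Q z) = 1 := by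
  by_cases hz : ψ z = 0
  · exact Or.inl (h.ind_of_eq hz)
  · exact Or.inr (h.ind_of_ne hz)

theorem Comp.ind_eq_zero (h : Comp Q ψ) {z : A} : ψ (ind Q z) = 0 ↔ ψ z = 0 :=
  ⟨fun h0 => by_contra fun hz => one_ne_zero ((h.ind_of_ne hz).symm.trans h0), h.ind_of_eq⟩

theorem Comp.ind_eq_one (h : Comp Q ψ) {z : A} : ψ (ind Q z) = 1 ↔ ψ z ≠ 0 :=
  ⟨fun h1 hz => one_ne_zero (h1.symm.trans (h.ind_of_eq hz)), h.ind_of_ne⟩

theorem Comp.nzL_of_eq (h : Comp Q ψ) {l : List A} (hl : ∀ z ∈ l, ψ z = 0) :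
    ψ (nzL Q l) = 0 := by
  rw [nzL, map_sub, map_one, map_list_prod, List.map_map, List.prod_eq_one, sub_self]
  intro x hx
  obtain ⟨z, hz, rfl⟩ := List.mem_map.1 hx
  simp [h.ind_of_eq (hl z hz)]

theorem Comp.nzL_of_ne (h : Comp Q ψ) {l : List A} (hl : ∃ z ∈ l, ψ z ≠ 0) :
    ψ (nzL Q l) = 1 := by
  obtain ⟨z, hz, h0⟩ := hl
  rw [nzL, map_sub, map_one, map_list_prod, List.map_map, List.prod_eq_zero, sub_zero]
  exact List.mem_map.2 ⟨z, hz, by simp [h.ind_of_ne h0]⟩

theorem Comp.nzL_bool (h : Comp Q ψ) (l : List A) : ψ (nzL Q l) = 0 ∨ ψ (nzL Q l) = 1 := by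
  by_cases hl : ∀ z ∈ l, ψ z = 0
  · exact Or.inl (h.nzL_of_eq hl)
  · push Not at hl
    exact Or.inr (h.nzL_of_ne hl)

theorem Comp.nzL_eq_zero (h : Comp Q ψ) {l : List A} : ψ (nzL Q l) = 0 ↔ ∀ z ∈ l, ψ z = 0 := by
  refine ⟨fun h0 => by_contra fun hl => ?_, h.nzL_of_eq⟩
  push Not at hl
  exact one_ne_zero ((h.nzL_of_ne hl).symm.trans h0)

theorem Comp.nzL_eq_one (h : Comp Q ψ) {l : List A} : ψ (nzL Q l) = 1 ↔ ∃ z ∈ l, ψ z ≠ 0 := by
  refine ⟨fun h1 => by_contra fun hl => ?_, h.nzL_of_ne⟩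
  push Not at hl
  exact one_ne_zero (h1.symm.trans (h.nzL_of_eq hl))

theorem map_eq_zero_iff_range (φ : M →+* N) (p : M[X]) :
    p.map φ = 0 ↔ ∀ i < p.natDegree + 1, φ (p.coeff i) = 0 := by
  refine ⟨fun h0 i _ => by rw [← coeff_map, h0, coeff_zero], fun h0 => ?_⟩
  ext i
  rw [coeff_map, coeff_zero]
  by_cases hi : i < p.natDegree + 1
  · exact h0 i hi
  · rw [coeff_eq_zero_of_natDegree_lt (by omega), map_zero]

theorem Comp.nz1_eq_zero (h : Comp Q ψ) {p : A[X]} : ψ (nz1 Q p) = 0 ↔ p.map ψ = 0 := by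
  rw [nz1, h.nzL_eq_zero, map_eq_zero_iff_range]
  simp

theorem Comp.nz1_bool (h : Comp Q ψ) (p : A[X]) : ψ (nz1 Q p) = 0 ∨ ψ (nz1 Q p) = 1 :=
  h.nzL_bool _

theorem Comp.nz1_eq_one (h : Comp Q ψ) {p : A[X]} : ψ (nz1 Q p) = 1 ↔ p.map ψ ≠ 0 := by
  rw [Ne, ← h.nz1_eq_zero]
  rcases h.nz1_bool p with h0 | h0 <;> simp [h0]

theorem Comp.nz2_eq_zero (h : Comp Q ψ) {p : A[X][X]} :
    ψ (nz2 Q p) = 0 ↔ p.map (mapRingHom ψ) = 0 := by
  rw [nz2, h.nzL_eq_zero, map_eq_zero_iff_range]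
  simp [h.nz1_eq_zero]

theorem Comp.nz2_bool (h : Comp Q ψ) (p : A[X][X]) : ψ (nz2 Q p) = 0 ∨ ψ (nz2 Q p) = 1 :=
  h.nzL_bool _

theorem Comp.nz2_eq_one (h : Comp Q ψ) {p : A[X][X]} :
    ψ (nz2 Q p) = 1 ↔ p.map (mapRingHom ψ) ≠ 0 := by
  rw [Ne, ← h.nz2_eq_zero]
  rcases h.nz2_bool p with h0 | h0 <;> simp [h0]

/-! ### Selection -/

@[simp] theorem pick_nil : pick ([] : List (M × M)) = 0 := rfl

@[simp] theorem pick_cons (c : M × M) (l : List (M × M)) :
    pick (c :: l) = c.1 * c.2 + (1 - c.1) * pick l := by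
  simp [pick]

theorem map_pick (φ : M →+* N) (l : List (M × M)) :
    φ (pick l) = pick (l.map fun c => (φ c.1, φ c.2)) := by
  induction l with
  | nil => simp
  | cons c l ih => simp [ih]

/-- no candidate is selected -/
theorem pick_of_zero (φ : M →+* N) {l : List (M × M)} (h : ∀ c ∈ l, φ c.1 = 0) :
    φ (pick l) = 0 := by
  induction l with
  | nil => simp
  | cons c l ih =>
    simp [h c List.mem_cons_self, ih fun d hd => h d (List.mem_cons_of_mem _ hd)]

/-- the first candidate with indicator `1` is selected -/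
theorem pick_append (φ : M →+* N) {l₁ l₂ : List (M × M)} {c : M × M} (h : ∀ d ∈ l₁, φ d.1 = 0)
    (hc : φ c.1 = 1) : φ (pick (l₁ ++ c :: l₂)) = φ c.2 := by
  induction l₁ with
  | nil => simp [hc]
  | cons d l ih =>
    simp [h d List.mem_cons_self, ih fun e he => h e (List.mem_cons_of_mem _ he)]

/-- some candidate with indicator `1` is selected -/
theorem pick_spec (φ : M →+* N) {l : List (M × M)} (h : ∀ c ∈ l, φ c.1 = 0 ∨ φ c.1 = 1)
    (h1 : ∃ c ∈ l, φ c.1 = 1) : ∃ c ∈ l, φ c.1 = 1 ∧ φ (pick l) = φ c.2 := by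
  induction l with
  | nil => simp at h1
  | cons c l ih =>
    by_cases hc : φ c.1 = 1
    · exact ⟨c, List.mem_cons_self, hc, by simp [hc]⟩
    · have h0 := (h c List.mem_cons_self).resolve_right hc
      obtain ⟨d, hd, hd1⟩ := h1
      have hd' : d ∈ l := (List.mem_cons.1 hd).resolve_left (by rintro rfl; exact hc hd1)
      obtain ⟨e, he, e1, e2⟩ := ih (fun e he => h e (List.mem_cons_of_mem _ he)) ⟨d, hd', hd1⟩
      exact ⟨e, List.mem_cons_of_mem _ he, e1, by simp [h0, e2]⟩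

/-- the version for an indexed list of candidates -/
theorem pick_map_spec (φ : M →+* N) {is : List ι} {s v : ι → M}
    (h : ∀ i ∈ is, φ (s i) = 0 ∨ φ (s i) = 1) (h1 : ∃ i ∈ is, φ (s i) = 1) :
    ∃ i ∈ is, φ (s i) = 1 ∧ φ (pick (is.map fun i => (s i, v i))) = φ (v i) := by
  obtain ⟨c, hc, e1, e2⟩ := pick_spec φ (l := is.map fun i => (s i, v i))
    (by simpa using h) (by simpa using h1)
  obtain ⟨i, hi, rfl⟩ := List.mem_map.1 hc
  exact ⟨i, hi, e1, e2⟩

/-- two selections with the same indicators select the same index -/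
theorem pick_map_first {is : List ι} {P : ι → Prop} (h1 : ∃ i ∈ is, P i) :
    ∃ i ∈ is, P i ∧ ∀ {M N : Type} [CommRing M] [CommRing N] (φ : M →+* N) (s v : ι → M),
      (∀ j ∈ is, P j → φ (s j) = 1) → (∀ j ∈ is, ¬ P j → φ (s j) = 0) →
        φ (pick (is.map fun i => (s i, v i))) = φ (v i) := by
  induction is with
  | nil => simp at h1
  | cons c l ih =>
    by_cases hc : P c
    · refine ⟨c, List.mem_cons_self, hc, fun φ s v e1 _ => ?_⟩
      simp [e1 c List.mem_cons_self hc]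
    · obtain ⟨d, hd, hd1⟩ := h1
      have hd' : d ∈ l := (List.mem_cons.1 hd).resolve_left (by rintro rfl; exact hc hd1)
      obtain ⟨e, he, e1, e2⟩ := ih ⟨d, hd', hd1⟩
      refine ⟨e, List.mem_cons_of_mem _ he, e1, fun φ s v k1 k0 => ?_⟩
      simp [k0 c List.mem_cons_self hc, e2 φ s v (fun j hj => k1 j (List.mem_cons_of_mem _ hj))
        (fun j hj => k0 j (List.mem_cons_of_mem _ hj))]

/-! ### Kernels -/

section Ker

variable [Algebra A M] [Algebra k N] {φ : M →+* N}

/-- the span of the images of the members of a list -/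
def spanL (k : Type) [Field k] [Algebra k N] (φ : M →+* N) (vs : List M) : Submodule k N :=
  Submodule.span k {w | ∃ v ∈ vs, φ v = w}

theorem mem_spanL {vs : List M} {v : M} (hv : v ∈ vs) : φ v ∈ spanL k φ vs :=
  Submodule.subset_span ⟨v, hv, rfl⟩

theorem spanL_le {vs : List M} {S : Submodule k N} : spanL k φ vs ≤ S ↔ ∀ v ∈ vs, φ v ∈ S := by
  rw [spanL, Submodule.span_le]
  exact ⟨fun h v hv => h ⟨v, hv, rfl⟩, by rintro h _ ⟨v, hv, rfl⟩; exact h v hv⟩

theorem length_kerStep (l : M → A) (vs : List M) : (kerStep Q l vs).length = vs.length := by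
  simp [kerStep]

theorem Comp.kerStep (h : Comp Q ψ) (hφ : ∀ a, φ (algebraMap A M a) = algebraMap k N (ψ a))
    {l : M → A} {l' : N →ₗ[k] k} (vs : List M) (hl : ∀ v ∈ vs, ψ (l v) = l' (φ v)) :
    spanL k φ (kerStep Q l vs) = spanL k φ vs ⊓ LinearMap.ker l' := by
  set c := pick (vs.map fun w =>
    (algebraMap A M (ind Q (l w)), algebraMap A M (pinv Q (l w)) * w)) with hc
  have key : ∀ v ∈ vs, φ (v - algebraMap A M (l v) * c) = φ v - l' (φ v) • φ c := by
    intro v hv
    rw [map_sub, map_mul, hφ, hl v hv, Algebra.smul_def]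
  have hmem : ∀ u ∈ Gen.kerStep Q l vs, ∃ v ∈ vs, φ u = φ v - l' (φ v) • φ c := by
    intro u hu
    obtain ⟨v, hv, rfl⟩ := List.mem_map.1 hu
    exact ⟨v, hv, key v hv⟩
  have hmem' : ∀ v ∈ vs, φ v - l' (φ v) • φ c ∈ spanL k φ (Gen.kerStep Q l vs) := by
    intro v hv
    rw [← key v hv]
    exact mem_spanL (List.mem_map.2 ⟨v, hv, rfl⟩)
  have hall : ∀ w ∈ spanL k φ vs, w - l' w • φ c ∈ spanL k φ (Gen.kerStep Q l vs) := by
    intro w hw
    have : spanL k φ vs ≤ (spanL k φ (Gen.kerStep Q l vs)).comap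
        (LinearMap.id - l'.smulRight (φ c)) := spanL_le.2 hmem'
    exact this hw
  refine le_antisymm (spanL_le.2 fun u hu => ?_) fun w hw => ?_
  · obtain ⟨v, hv, e⟩ := hmem u hu
    rw [e]
    by_cases h0 : ∀ w ∈ vs, l' (φ w) = 0
    · rw [h0 v hv, zero_smul, sub_zero]
      exact ⟨mem_spanL hv, h0 v hv⟩
    · push Not at h0
      obtain ⟨w, hw, e1, e2⟩ := pick_map_first h0
      have e3 : φ c = (l' (φ w))⁻¹ • φ w := by
        rw [hc, e2 φ, map_mul, hφ, h.map_pinv, hl w hw, Algebra.smul_def]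
        · intro j hj hj1
          rw [hφ, h.ind_of_ne (by rwa [hl j hj]), map_one]
        · intro j hj hj1
          rw [hφ, h.ind_of_eq (by rw [hl j hj]; exact not_not.1 hj1), map_zero]
      refine ⟨Submodule.sub_mem _ (mem_spanL hv) (Submodule.smul_mem _ _ ?_), ?_⟩
      · rw [e3]
        exact Submodule.smul_mem _ _ (mem_spanL hw)
      · change l' _ = 0
        rw [map_sub, map_smul, e3, map_smul, smul_eq_mul, smul_eq_mul, inv_mul_cancel₀ e1,
          mul_one, sub_self]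
  · have := hall w hw.1
    rwa [show l' w = 0 from hw.2, zero_smul, sub_zero] at this

theorem length_ker1 (Φ : M → A[X]) (vs : List M) : (ker1 Q Φ vs).length = vs.length := by
  rw [ker1]
  generalize List.range _ = ds
  induction ds generalizing vs with
  | nil => rfl
  | cons d ds ih => rw [List.foldl_cons, ih, length_kerStep]

theorem Comp.ker1 (h : Comp Q ψ) (hφ : ∀ a, φ (algebraMap A M a) = algebraMap k N (ψ a))
    {Φ : M → A[X]} {Φ' : N →ₗ[k] k[X]} (hΦ : ∀ v, (Φ v).map ψ = Φ' (φ v)) (vs : List M) :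
    spanL k φ (ker1 Q Φ vs) = spanL k φ vs ⊓ LinearMap.ker Φ' := by
  have key : ∀ (ds : List ℕ) (ws : List M) (w : N), w ∈ spanL k φ (ds.foldl
      (fun ws d => Gen.kerStep Q (fun v => (Φ v).coeff d) ws) ws) ↔
      w ∈ spanL k φ ws ∧ ∀ d ∈ ds, (Φ' w).coeff d = 0 := by
    intro ds
    induction ds with
    | nil => simp
    | cons d ds ih =>
      intro ws w
      rw [List.foldl_cons, ih, h.kerStep hφ (l' := (lcoeff k d).comp Φ') ws
        (fun v _ => by rw [← coeff_map, hΦ]; rfl)]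
      simp [and_assoc]
  ext w
  rw [Gen.ker1, key, Submodule.mem_inf, LinearMap.mem_ker]
  refine and_congr_right fun hw => ⟨fun h0 => ?_, fun h0 d _ => by rw [h0, coeff_zero]⟩
  ext d
  rw [coeff_zero]
  by_cases hd : d < (vs.map fun v => (Φ v).natDegree).sum + 1
  · exact h0 d (List.mem_range.2 hd)
  · have : spanL k φ vs ≤ LinearMap.ker ((lcoeff k d).comp Φ') := spanL_le.2 fun v hv => by
      change (Φ' (φ v)).coeff d = 0
      have := List.single_le_sum (l := vs.map fun v => (Φ v).natDegree) (fun _ _ => Nat.zero_le _)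
        _ (List.mem_map.2 ⟨v, hv, rfl⟩)
      rw [← hΦ, coeff_map, coeff_eq_zero_of_natDegree_lt (by omega), map_zero]
    exact this hw

theorem length_kerI (is : List ι) (Φ : ι → M → A[X]) (vs : List M) :
    (kerI Q is Φ vs).length = vs.length := by
  rw [kerI]
  induction is generalizing vs with
  | nil => rfl
  | cons d ds ih => rw [List.foldl_cons, ih, length_ker1]

theorem Comp.mem_kerI (h : Comp Q ψ) (hφ : ∀ a, φ (algebraMap A M a) = algebraMap k N (ψ a))
    {is : List ι} {Φ : ι → M → A[X]} {Φ' : ι → N →ₗ[k] k[X]}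
    (hΦ : ∀ i ∈ is, ∀ v, (Φ i v).map ψ = Φ' i (φ v)) (vs : List M) (w : N) :
    w ∈ spanL k φ (kerI Q is Φ vs) ↔ w ∈ spanL k φ vs ∧ ∀ i ∈ is, Φ' i w = 0 := by
  rw [kerI]
  induction is generalizing vs with
  | nil => simp
  | cons i is ih =>
    rw [List.foldl_cons, ih fun j hj => hΦ j (List.mem_cons_of_mem _ hj),
      h.ker1 hφ (hΦ i List.mem_cons_self)]
    simp [and_assoc]

/-- the version with unbundled linear maps -/
theorem Comp.mem_kerI' (h : Comp Q ψ) (hφ : ∀ a, φ (algebraMap A M a) = algebraMap k N (ψ a))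
    {is : List ι} {Φ : ι → M → A[X]} {Φ' : ι → N → k[X]} (hlin : ∀ i, IsLinearMap k (Φ' i))
    (hΦ : ∀ i ∈ is, ∀ v, (Φ i v).map ψ = Φ' i (φ v)) (vs : List M) (w : N) :
    w ∈ spanL k φ (kerI Q is Φ vs) ↔ w ∈ spanL k φ vs ∧ ∀ i ∈ is, Φ' i w = 0 :=
  h.mem_kerI hφ (Φ' := fun i => (hlin i).mk' _) hΦ vs w

end Ker

/-! ### Division -/

theorem degree_monz_low (v : A[X]) (d : ℕ) :
    (∑ j ∈ Finset.range d, monomial j (v.coeff j * pinv Q (v.coeff d))).degree < d := by
  refine (degree_sum_le _ _).trans_lt ((Finset.sup_lt_iff (WithBot.bot_lt_coe d)).2 fun j hj => ?_)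
  exact (degree_monomial_le _ _).trans_lt (WithBot.coe_lt_coe.2 (Finset.mem_range.1 hj))

theorem monic_monz (v : A[X]) (d : ℕ) : (monz Q v d).Monic :=
  monic_X_pow_add (degree_monz_low v d)

theorem Comp.map_monz (h : Comp Q ψ) {v : A[X]} (hv : v.map ψ ≠ 0) :
    (monz Q v (v.map ψ).natDegree).map ψ = v.map ψ * C (v.map ψ).leadingCoeff⁻¹ := by
  have hl : (v.map ψ).leadingCoeff ≠ 0 := leadingCoeff_ne_zero.2 hv
  have hd : ψ (v.coeff (v.map ψ).natDegree) = (v.map ψ).leadingCoeff := by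
    rw [← coeff_map]; rfl
  ext i
  rw [monz, coeff_map, coeff_add, finsetSum_coeff, coeff_mul_C, coeff_X_pow]
  simp only [coeff_monomial, Finset.sum_ite_eq', Finset.mem_range]
  rcases lt_trichotomy i (v.map ψ).natDegree with hi | hi | hi
  · rw [if_neg hi.ne, if_pos hi, zero_add, map_mul, h.map_pinv, hd, coeff_map]
  · rw [if_pos hi, if_neg (by omega), add_zero, map_one, hi, coeff_natDegree, mul_inv_cancel₀ hl]
  · rw [if_neg hi.ne', if_neg (by omega), add_zero, map_zero, coeff_eq_zero_of_natDegree_lt hi,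
      zero_mul]

/-- selection of the true degree -/
theorem Comp.pick_deg (h : Comp Q ψ) {v : A[X]} (hv : v.map ψ ≠ 0) (w : ℕ → A[X]) :
    (pick ((List.range (v.natDegree + 1)).reverse.map fun d =>
      (C (ind Q (v.coeff d)), w d))).map ψ = (w (v.map ψ).natDegree).map ψ := by
  have hle : (v.map ψ).natDegree ≤ v.natDegree := natDegree_map_le
  have key : ∀ m, (v.map ψ).natDegree < m → (pick ((List.range m).reverse.map fun d =>
      (C (ind Q (v.coeff d)), w d))).map ψ = (w (v.map ψ).natDegree).map ψ := by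
    intro m hm
    induction m with
    | zero => omega
    | succ m ih =>
      rw [List.range_succ, List.reverse_append, List.reverse_singleton, List.singleton_append,
        List.map_cons, pick_cons]
      simp only [Polynomial.map_add, Polynomial.map_mul, Polynomial.map_sub, Polynomial.map_one,
        map_C]
      rcases (Nat.le_of_lt_succ hm).eq_or_lt with e | e
      · rw [h.ind_of_ne, ← e]
        · simp
        · rw [← coeff_map, ← e]
          exact leadingCoeff_ne_zero.2 hv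
      · rw [h.ind_of_eq (by rw [← coeff_map]; exact coeff_eq_zero_of_natDegree_lt e), ih e]
        simp
  exact key _ (by omega)

theorem Comp.pick_deg_zero (h : Comp Q ψ) {v : A[X]} (hv : v.map ψ = 0) (w : ℕ → A[X]) :
    (pick ((List.range (v.natDegree + 1)).reverse.map fun d =>
      (C (ind Q (v.coeff d)), w d))).map ψ = 0 := by
  refine pick_of_zero (mapRingHom ψ) fun c hc => ?_
  obtain ⟨d, -, rfl⟩ := List.mem_map.1 hc
  rw [coe_mapRingHom, map_C, h.ind_of_eq (by rw [← coeff_map, hv, coeff_zero]), map_zero]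

theorem Comp.map_divAny (h : Comp Q ψ) (p v : A[X]) :
    (divAny Q p v).map ψ = p.map ψ / v.map ψ := by
  by_cases hv : v.map ψ = 0
  · rw [divAny, h.pick_deg_zero hv, hv, EuclideanDomain.div_zero]
  · rw [divAny, h.pick_deg hv, Polynomial.map_mul, map_C, h.map_pinv,
      map_divByMonic _ (monic_monz _ _), h.map_monz hv, div_def, ← coeff_map]
    rfl

theorem Comp.map_modAny (h : Comp Q ψ) (p : A[X]) {v : A[X]} (hv : v.map ψ ≠ 0) :
    (modAny Q p v).map ψ = p.map ψ % v.map ψ := by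
  rw [modAny, h.pick_deg hv, map_modByMonic _ (monic_monz _ _), h.map_monz hv, mod_def]

theorem Comp.map_modAny_zero (h : Comp Q ψ) (p : A[X]) {v : A[X]} (hv : v.map ψ = 0) :
    (modAny Q p v).map ψ = 0 := by
  rw [modAny, h.pick_deg_zero hv]

theorem Comp.modAny_eq_zero (h : Comp Q ψ) (p : A[X]) {v : A[X]} (hv : v.map ψ ≠ 0) :
    (modAny Q p v).map ψ = 0 ↔ v.map ψ ∣ p.map ψ := by
  rw [h.map_modAny p hv, EuclideanDomain.mod_eq_zero]

/-! ### Greatest common divisors -/

theorem Comp.gcdStep_of_eq (h : Comp Q ψ) {s : A[X] × A[X]} (hs : s.2.map ψ = 0) :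
    (gcdStep Q s).1.map ψ = s.1.map ψ ∧ (gcdStep Q s).2.map ψ = 0 := by
  refine ⟨?_, h.map_modAny_zero _ hs⟩
  simp [gcdStep, h.nz1_eq_zero.2 hs]

theorem Comp.gcdStep_of_ne (h : Comp Q ψ) {s : A[X] × A[X]} (hs : s.2.map ψ ≠ 0) :
    (gcdStep Q s).1.map ψ = s.2.map ψ ∧ (gcdStep Q s).2.map ψ = s.1.map ψ % s.2.map ψ := by
  refine ⟨?_, h.map_modAny _ hs⟩
  simp [gcdStep, h.nz1_eq_one.2 hs]

theorem Comp.span_gcdStep (h : Comp Q ψ) (s : A[X] × A[X]) :
    Ideal.span {(gcdStep Q s).1.map ψ, (gcdStep Q s).2.map ψ} =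
      Ideal.span {s.1.map ψ, s.2.map ψ} := by
  by_cases hs : s.2.map ψ = 0
  · rw [(h.gcdStep_of_eq hs).1, (h.gcdStep_of_eq hs).2, hs]
  · rw [(h.gcdStep_of_ne hs).1, (h.gcdStep_of_ne hs).2, EuclideanDomain.mod_eq_sub_mul_div,
      sub_eq_add_neg, ← mul_neg, Ideal.span_pair_add_left_mul, Ideal.span_pair_comm]

theorem Comp.gcd2 (h : Comp Q ψ) (a b : A[X]) :
    Ideal.span {(gcd2 Q a b).map ψ} = Ideal.span {a.map ψ, b.map ψ} := by
  have key : ∀ j, Ideal.span {((gcdStep Q)^[j] (a, b)).1.map ψ, ((gcdStep Q)^[j] (a, b)).2.map ψ} =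
      Ideal.span {a.map ψ, b.map ψ} ∧ (((gcdStep Q)^[j] (a, b)).2.map ψ = 0 ∨
        (((gcdStep Q)^[j] (a, b)).2.map ψ).natDegree + j ≤ b.natDegree) := by
    intro j
    induction j with
    | zero => exact ⟨rfl, Or.inr natDegree_map_le⟩
    | succ j ih =>
      rw [Function.iterate_succ_apply']
      refine ⟨(h.span_gcdStep _).trans ih.1, ?_⟩
      by_cases hs : ((gcdStep Q)^[j] (a, b)).2.map ψ = 0
      · exact Or.inl (h.gcdStep_of_eq hs).2
      · rw [(h.gcdStep_of_ne hs).2]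
        refine or_iff_not_imp_left.2 fun h0 => ?_
        have := natDegree_lt_natDegree h0 (EuclideanDomain.mod_lt _ hs)
        have := ih.2.resolve_left hs
        omega
  obtain ⟨k1, k2⟩ := key (b.natDegree + 2)
  rw [← k1, k2.resolve_right (by omega), Gen.gcd2, Ideal.span_pair_comm, Ideal.span_insert_zero]

theorem Comp.gcdL (h : Comp Q ψ) (l : List A[X]) :
    Ideal.span {(gcdL Q l).map ψ} = Ideal.span {q | ∃ p ∈ l, p.map ψ = q} := by
  have key : ∀ (l : List A[X]) (a : A[X]), Ideal.span {(l.foldl (Gen.gcd2 Q) a).map ψ} =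
      Ideal.span {a.map ψ} ⊔ Ideal.span {q | ∃ p ∈ l, p.map ψ = q} := by
    intro l
    induction l with
    | nil => simp
    | cons b l ih =>
      intro a
      rw [List.foldl_cons, ih, h.gcd2, Ideal.span_insert, sup_assoc, ← Ideal.span_insert]
      congr 2
      ext q
      simp [eq_comm]
  rw [Gen.gcdL, key]
  simp

/-! ### Forms and coefficientwise maps -/

theorem getD_of_lt {l : List M} {j : ℕ} (hj : j < l.length) : l.getD j 0 = l[j] := by
  simp [List.getD, hj]

theorem getD_of_le {l : List M} {j : ℕ} (hj : l.length ≤ j) : l.getD j 0 = 0 := by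
  simp [List.getD, hj]

@[simp] theorem form_nil : form ([] : List M) = 0 := rfl

@[simp] theorem form_cons (v : M) (l : List M) : form (v :: l) = C v + X * form l := by
  simp [form]

theorem coeff_form (l : List M) (j : ℕ) : (form l).coeff j = l.getD j 0 := by
  induction l generalizing j with
  | nil => simp
  | cons v l ih => cases j <;> simp [ih, coeff_C]

theorem map_form (φ : M →+* N) (l : List M) : (form l).map φ = form (l.map φ) := by
  induction l with
  | nil => simp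
  | cons v l ih => simp [ih]

theorem natDegree_form_le (l : List M) : (form l).natDegree ≤ l.length - 1 := by
  refine natDegree_le_iff_coeff_eq_zero.2 fun j hj => ?_
  rw [coeff_form, getD_of_le (by omega)]

theorem span_coeff_form [Algebra k N] (φ : M →+* N) (l : List M) :
    Submodule.span k (Set.range ((form l).map φ).coeff) = spanL k φ l := by
  refine le_antisymm (Submodule.span_le.2 ?_) (spanL_le.2 fun v hv => ?_)
  · rintro _ ⟨j, rfl⟩
    rw [coeff_map, coeff_form]
    by_cases hj : j < l.length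
    · rw [getD_of_lt hj]
      exact mem_spanL (List.getElem_mem hj)
    · rw [getD_of_le (by omega), map_zero]
      exact Submodule.zero_mem _
  · obtain ⟨j, hj, rfl⟩ := List.getElem_of_mem hv
    exact Submodule.subset_span ⟨j, by rw [coeff_map, coeff_form, getD_of_lt hj]⟩

theorem coeff_mapc' (f : A → M) (p : A[X]) (i : ℕ) :
    (mapc f p).coeff i = if i < p.natDegree + 1 then f (p.coeff i) else 0 := by
  simp [mapc, coeff_monomial]

theorem coeff_mapc {f : A → M} (hf : f 0 = 0) (p : A[X]) (i : ℕ) :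
    (mapc f p).coeff i = f (p.coeff i) := by
  rw [coeff_mapc']
  split_ifs with hi
  · rfl
  · rw [coeff_eq_zero_of_natDegree_lt (by omega), hf]

/-- the version where `f 0` only vanishes after applying a homomorphism -/
theorem coeff_map_mapc (φ : M →+* N) {f : A → M} (hf : φ (f 0) = 0) (p : A[X]) (i : ℕ) :
    ((mapc f p).map φ).coeff i = φ (f (p.coeff i)) := by
  rw [coeff_map, coeff_mapc']
  split_ifs with hi
  · rfl
  · rw [coeff_eq_zero_of_natDegree_lt (by omega), hf, map_zero]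

theorem natDegree_mapc_le (f : A → M) (p : A[X]) : (mapc f p).natDegree ≤ p.natDegree := by
  refine natDegree_le_iff_coeff_eq_zero.2 fun j hj => ?_
  rw [coeff_mapc', if_neg (by omega)]

end Vale.Agent.P319.Gen
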