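import Vale.Agent.P319.Alg.Step
import Vale.Agent.P319.Alg.GenSpec

/-!
P319: the linear systems of `Alg/Step.lean` are natural for ring homomorphisms, and linear over a
field.
-/

open Polynomial

namespace Vale.Agent.P319.Crv

open Gen

variable {A A' : Type} [CommRing A] [CommRing A'] (ψ : A →+* A')

/-! ### The substitution `Y ↦ z Y` as a ring homomorphism -/

/-- the substitution as a ring homomorphism -/
noncomputable def twH (z : A) : A[X][X] →+* A[X][X] := compRingHom (C (C z) * X)

theorem twH_apply (z : A) (G : A[X][X]) : twH z G = tw z G := rfl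

theorem tw_zero (z : A) : tw z (0 : A[X][X]) = 0 := map_zero (twH z)

theorem tw_mul (z : A) (G G' : A[X][X]) : tw z (G * G') = tw z G * tw z G' := map_mul (twH z) _ _

theorem twW_eq (z : A) (B : A[X][X][X]) : twW z B = B.map (twH z) := by
  ext1 i
  rw [twW, coeff_mapc (tw_zero z), coeff_map, twH_apply]

theorem coeff_twW (z : A) (B : A[X][X][X]) (i : ℕ) : (twW z B).coeff i = tw z (B.coeff i) :=
  coeff_mapc (tw_zero z) _ _

theorem natDegree_twW_le (z : A) (B : A[X][X][X]) : (twW z B).natDegree ≤ B.natDegree :=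
  natDegree_mapc_le _ _

theorem natDegree_piW_le (r : ℕ) (z : A) (B : A[X][X][X]) (l : ℕ) :
    (piW r z B l).natDegree ≤ (r - l) * B.natDegree := by
  refine (natDegree_prod_le _ _).trans ?_
  refine (Finset.sum_le_card_nsmul _ _ B.natDegree fun i _ => natDegree_twW_le _ _).trans ?_
  simp

theorem natDegree_piW_le' (r : ℕ) (z : A) (B : A[X][X][X]) (l : ℕ) :
    (piW r z B l).natDegree ≤ r * B.natDegree :=
  (natDegree_piW_le r z B l).trans (Nat.mul_le_mul_right _ (Nat.sub_le _ _))

/-! ### Index lists -/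

theorem mem_idx2 {m n : ℕ} {i : ℕ × ℕ} : i ∈ idx2 m n ↔ i.1 < m ∧ i.2 < n := by
  obtain ⟨i, j⟩ := i
  simp [idx2]

theorem mem_idx3 {l m n : ℕ} {i : ℕ × ℕ × ℕ} :
    i ∈ idx3 l m n ↔ i.1 < l ∧ i.2.1 < m ∧ i.2.2 < n := by
  obtain ⟨i, j⟩ := i
  simp [idx3, mem_idx2]

/-! ### Naturality -/

theorem monic_eqn {r : ℕ} (hr : r ≠ 0) (f : A[X]) : (X ^ r - C f : A[X][X]).Monic :=
  monic_X_pow_sub_C _ hr

theorem map_red {r : ℕ} (hr : r ≠ 0) (f : A[X]) (G : A[X][X]) :
    (red r f G).map (mapRingHom ψ) = red r (f.map ψ) (G.map (mapRingHom ψ)) := by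
  rw [red, map_modByMonic _ (monic_eqn hr f), red]
  simp

theorem map_coeff_red {r : ℕ} (hr : r ≠ 0) (f : A[X]) (G : A[X][X]) (b : ℕ) :
    ((red r f G).coeff b).map ψ = (red r (f.map ψ) (G.map (mapRingHom ψ))).coeff b := by
  rw [← map_red ψ hr, coeff_map, coe_mapRingHom]

theorem map_tw (z : A) (G : A[X][X]) :
    (tw z G).map (mapRingHom ψ) = tw (ψ z) (G.map (mapRingHom ψ)) := by
  rw [tw, map_comp, tw]
  simp

theorem map_twW (z : A) (B : A[X][X][X]) :
    (twW z B).map (mapRingHom (mapRingHom ψ)) = twW (ψ z) (B.map (mapRingHom (mapRingHom ψ))) := by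
  ext1 i
  rw [coeff_map, coeff_twW, coeff_twW, coeff_map, coe_mapRingHom, map_tw]

theorem map_nmA (r : ℕ) (z : A) (G : A[X][X]) :
    (nmA r z G).map (mapRingHom ψ) = nmA r (ψ z) (G.map (mapRingHom ψ)) := by
  simp only [nmA, Polynomial.map_prod, map_tw, map_pow]

theorem map_piW (r : ℕ) (z : A) (B : A[X][X][X]) (l : ℕ) :
    (piW r z B l).map (mapRingHom (mapRingHom ψ)) =
      piW r (ψ z) (B.map (mapRingHom (mapRingHom ψ))) l := by
  simp only [piW, Polynomial.map_prod, map_twW, map_pow]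

theorem map_coeff_piW (r : ℕ) (z : A) (B : A[X][X][X]) (l j : ℕ) :
    ((piW r z B l).coeff j).map (mapRingHom ψ) =
      (piW r (ψ z) (B.map (mapRingHom (mapRingHom ψ))) l).coeff j := by
  rw [← map_piW, coeff_map, coe_mapRingHom]

theorem map_cstr {dv : A[X] → A[X] → A[X]} {dv' : A'[X] → A'[X] → A'[X]}
    (h : ∀ p v, (dv p v).map ψ = dv' (p.map ψ) (v.map ψ)) (v : A[X]) (N : ℕ) (p : A[X]) :
    (cstr dv v N p).map ψ = cstr dv' (v.map ψ) N (p.map ψ) := by
  rw [cstr, Polynomial.map_sub, Polynomial.map_mul, map_modByMonic _ (monic_X_pow N), h, cstr]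
  simp

theorem map_condM {dv : A[X] → A[X] → A[X]} {dv' : A'[X] → A'[X] → A'[X]}
    (h : ∀ p v, (dv p v).map ψ = dv' (p.map ψ) (v.map ψ)) {r : ℕ} (hr : r ≠ 0) (nu : ℕ) (f : A[X])
    (a z : A) (u : A[X]) (B : A[X][X][X]) (T c : ℕ) (i : ℕ × ℕ × ℕ) (H : A[X][X][X]) :
    (condM dv r nu f a z u B T c i H).map ψ =
      condM dv' r nu (f.map ψ) (ψ a) (ψ z) (u.map ψ) (B.map (mapRingHom (mapRingHom ψ))) T c i
        (H.map (mapRingHom (mapRingHom ψ))) := by
  rw [condM, map_cstr ψ h, map_coeff_red ψ hr, condM]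
  simp [map_coeff_piW]

theorem map_condR {r : ℕ} (hr : r ≠ 0) {f : A[X]} (hf : f.Monic) (a z : A) (rho : A[X])
    (i : ℕ × ℕ) (H : A[X][X][X]) :
    (condR r f a z rho i H).map ψ =
      condR r (f.map ψ) (ψ a) (ψ z) (rho.map ψ) i (H.map (mapRingHom (mapRingHom ψ))) := by
  rw [condR, map_modByMonic _ hf, Polynomial.map_mul, map_coeff_red ψ hr, condR]
  simp [Polynomial.map_sum]

theorem map_condB {r : ℕ} (hr : r ≠ 0) (f : A[X]) (z : A) (h0 h1 : A[X][X])
    (i : ℕ × ℕ) (H : A[X][X][X]) :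
    (condB r f z h0 h1 i H).map ψ =
      condB r (f.map ψ) (ψ z) (h0.map (mapRingHom ψ)) (h1.map (mapRingHom ψ)) i
        (H.map (mapRingHom (mapRingHom ψ))) := by
  rw [condB, map_coeff_red ψ hr, condB]
  simp [map_tw]

theorem map_condF {dv : A[X] → A[X] → A[X]} {dv' : A'[X] → A'[X] → A'[X]}
    (h : ∀ p v, (dv p v).map ψ = dv' (p.map ψ) (v.map ψ)) {r : ℕ} (hr : r ≠ 0) (nu : ℕ)
    (f U : A[X]) (T : A[X][X][X]) (d m : ℕ) (i : ℕ × ℕ) (G : A[X][X]) :
    (condF dv r nu f U T d m i G).map ψ =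
      condF dv' r nu (f.map ψ) (U.map ψ) (T.map (mapRingHom (mapRingHom ψ))) d m i
        (G.map (mapRingHom ψ)) := by
  rw [condF, map_cstr ψ h, map_coeff_red ψ hr, condF]
  simp

theorem map_mons (r nu m : ℕ) :
    (Cv.mons r nu m A).map (mapRingHom (mapRingHom ψ)) = Cv.mons r nu m A' := by
  simp [Cv.mons, List.map_flatMap, Function.comp_def]

theorem map_basisM (r nu T : ℕ) :
    (basisM A r nu T).map (mapRingHom (mapRingHom (mapRingHom ψ))) = basisM A' r nu T := by
  simp only [basisM, List.map_flatMap, ← map_mons ψ, List.map_map]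
  simp [Function.comp_def]

theorem map_formInf (nu : ℕ) :
    (formInf A nu).map (mapRingHom (mapRingHom ψ)) = formInf A' nu := by
  simp [formInf]

theorem map_formRam (nu : ℕ) (a : A) :
    (formRam nu a).map (mapRingHom (mapRingHom ψ)) = formRam nu (ψ a) := by
  simp [formRam]

theorem map_init_fst (r nu : ℕ) (a : A) : (init r nu a).1.map ψ = (init r nu (ψ a)).1 := by
  simp [init]

theorem map_init_snd (r nu : ℕ) (a : A) :
    (init r nu a).2.map (mapRingHom (mapRingHom ψ)) = (init r nu (ψ a)).2 := by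
  simp [init, map_formInf, map_formRam]

theorem map_formW (M : ℕ) (z : A) (S : A[X][X][X]) (j : ℕ) :
    (formW M z S j).map (mapRingHom (mapRingHom ψ)) =
      formW M (ψ z) (S.map (mapRingHom (mapRingHom ψ))) j := by
  simp only [formW, Polynomial.map_prod, Polynomial.map_pow, map_twW, map_pow]

theorem map_formT (r : ℕ) (z : A) (S : A[X][X][X]) :
    (formT r z S).map (mapRingHom (mapRingHom ψ)) =
      formT r (ψ z) (S.map (mapRingHom (mapRingHom ψ))) := by
  rw [formT, Polynomial.map_mul, map_twW, map_piW, formT]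

/-! ### Linearity over a field -/

variable {k : Type} [Field k]

theorem red_add (r : ℕ) (f : A[X]) (G G' : A[X][X]) :
    red r f (G + G') = red r f G + red r f G' := add_modByMonic _ _

theorem red_smul (r : ℕ) (f : A[X]) (c : A) (G : A[X][X]) : red r f (c • G) = c • red r f G := by
  rw [← algebraMap_smul A[X] c G, red, smul_modByMonic, algebraMap_smul, red]

theorem poly_add_div (p q v : k[X]) : (p + q) / v = p / v + q / v := by
  rcases eq_or_ne v 0 with rfl | hv
  · simp
  · refine mul_left_cancel₀ hv ?_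
    have h1 := EuclideanDomain.div_add_mod (p + q) v
    have h2 := EuclideanDomain.div_add_mod p v
    have h3 := EuclideanDomain.div_add_mod q v
    have h4 : (p + q) % v = p % v + q % v := by simp only [mod_def, add_modByMonic]
    linear_combination h1 - h2 - h3 - h4

theorem poly_smul_div (c : k) (p v : k[X]) : (c • p) / v = c • (p / v) := by
  rcases eq_or_ne v 0 with rfl | hv
  · simp
  · refine mul_left_cancel₀ hv ?_
    have h1 := EuclideanDomain.div_add_mod (c • p) v
    have h2 := EuclideanDomain.div_add_mod p v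
    have h4 : (c • p) % v = c • (p % v) := by simp only [mod_def, smul_modByMonic]
    rw [smul_eq_C_mul] at h1 h4 ⊢
    rw [smul_eq_C_mul] at h4 ⊢
    linear_combination h1 - C c * h2 - h4

theorem lin_cstr (v : k[X]) (N : ℕ) : IsLinearMap k (cstr (fun p q : k[X] => p / q) v N) where
  map_add p q := by
    simp only [cstr, poly_add_div, mul_add, add_modByMonic]
    ring
  map_smul c p := by
    simp only [cstr, poly_smul_div, mul_smul_comm, smul_modByMonic, smul_sub]

theorem lin_condM (r nu : ℕ) (f : k[X]) (a z : k) (u : k[X]) (B : k[X][X][X]) (T c : ℕ)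
    (i : ℕ × ℕ × ℕ) : IsLinearMap k (condM (fun p q : k[X] => p / q) r nu f a z u B T c i) where
  map_add H H' := by
    simp only [condM, coeff_add, add_mul, red_add, (lin_cstr _ _).map_add]
  map_smul e H := by
    simp only [condM, coeff_smul, smul_mul_assoc, red_smul, (lin_cstr _ _).map_smul]

theorem lin_condR (r : ℕ) (f : k[X]) (a z : k) (rho : k[X]) (i : ℕ × ℕ) :
    IsLinearMap k (condR r f a z rho i) where
  map_add H H' := by
    simp only [condR, coeff_add, add_mul, Finset.sum_add_distrib, red_add, add_modByMonic]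
  map_smul e H := by
    simp only [condR, coeff_smul, smul_mul_assoc, ← Finset.smul_sum, red_smul, smul_modByMonic]

theorem lin_condB (r : ℕ) (f : k[X]) (z : k) (h0 h1 : k[X][X]) (i : ℕ × ℕ) :
    IsLinearMap k (condB r f z h0 h1 i) where
  map_add H H' := by
    simp only [condB, ← red_add, ← coeff_add]
    congr 2
    simp only [coeff_add]
    ring
  map_smul e H := by
    simp only [condB, coeff_smul, smul_mul_assoc, ← smul_sub, red_smul]

theorem lin_condF (r nu : ℕ) (f U : k[X]) (T : k[X][X][X]) (d m : ℕ) (i : ℕ × ℕ) :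
    IsLinearMap k (condF (fun p q : k[X] => p / q) r nu f U T d m i) where
  map_add H H' := by
    simp only [condF, coeff_add, add_mul, red_add, (lin_cstr _ _).map_add]
  map_smul e H := by
    simp only [condF, coeff_smul, smul_mul_assoc, red_smul, (lin_cstr _ _).map_smul]

/-- the meaning of the division constraint -/
theorem cstr_eq_zero {v : k[X]} (hv : v ≠ 0) (N : ℕ) (p : k[X]) :
    cstr (fun p q : k[X] => p / q) v N p = 0 ↔ ∃ q : k[X], q.degree < N ∧ p = v * q := by
  rw [cstr, sub_eq_zero]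
  constructor
  · intro h
    refine ⟨_, ?_, h⟩
    have := degree_modByMonic_lt (p / v) (monic_X_pow (R := k) N)
    rwa [degree_X_pow] at this
  · rintro ⟨q, hq, rfl⟩
    rw [mul_div_cancel_left₀ _ hv, (modByMonic_eq_self_iff (monic_X_pow N)).2]
    rwa [degree_X_pow]

end Vale.Agent.P319.Crv
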