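import Vale.Agent.P319.Alg.Curve

/-!
P319: the data attached to a component of the coefficient ring (definitions).
-/

open Polynomial

namespace Vale.Agent.P319.Crv

open Gen Vale.Agent.Lib.Dep

variable {A k : Type} [CommRing A] [Field k]

/-- the component attached to a root -/
noncomputable def comp (ψ : A →+* k) {f : A[X]} (hf : f.Monic) (a : k)
    (ha : (f.map ψ).eval a = 0) : AdjoinRoot (mon f) →+* k :=
  AdjoinRoot.lift ψ a (by rw [mon_eq hf, ← eval_map, ha])

variable [IsAlgClosed k]

/-- the data of a component: the ring data map to the data of the curve -/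
structure Dat (C : Cv k) (Q : ℕ) (ψ : A →+* k) (f : A[X]) (z : A) (Z : C.Mu) : Prop where
  /-- the image lies in the field with `Q` elements -/
  comp : Comp Q ψ
  /-- the equation is monic -/
  monic : f.Monic
  /-- the equation maps to the equation of the curve -/
  mapf : f.map ψ = C.F
  /-- the root of unity -/
  mapz : ψ z = Z.val
  /-- it is primitive -/
  prim : IsPrimitiveRoot Z.val C.r

/-- evaluation of bivariate polynomials over `A` as functions -/
noncomputable abbrev evA (C : Cv k) (ψ : A →+* k) : A[X][X] →+* C.K :=
  C.ev.comp (mapRingHom (mapRingHom ψ))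

/-- the map on forms and tuples -/
noncomputable abbrev m3 (ψ : A →+* k) : A[X][X][X] →+* k[X][X][X] :=
  mapRingHom (mapRingHom (mapRingHom ψ))

/-- the arithmetic data: `σ` fixes the curve, `σ ^ (r ^ e)` is the `Q`-th power map, `g` is not an
`r`-th power in the field with `Q` elements -/
structure Ari (C : Cv k) (Q e : ℕ) (σ : k ≃+* k) (g : k) : Prop where
  /-- the curve, its ramified points and the roots of unity are fixed -/
  fix : C.Fix σ
  /-- the Frobenius map of the big field -/
  frob : ∀ x, (σ ^ C.r ^ e) x = x ^ Q
  /-- the roots of unity are in the field -/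
  dvd : C.r ∣ Q - 1
  /-- `g` is a unit of the field -/
  g_pow : g ^ (Q - 1) = 1
  /-- `g` is not an `r`-th power -/
  g_ne : g ^ ((Q - 1) / C.r) ≠ 1

end Vale.Agent.P319.Crv
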