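import Vale.Agent.P319.Alg.CondMap
import Vale.Agent.P319.Alg.Dat
import Vale.Agent.P319.Cv.Divs
import Vale.Agent.P319.Cv.Cont
import Vale.Agent.P319.Cv.Mem

/-!
P319: the meaning of the linear systems of `Alg/Step.lean`.
-/

open Polynomial

namespace Vale.Agent.P319.Crv

open Gen Cv

variable {k : Type} [Field k] {c : Cv k}

/-! ### Evaluation of the basic operations -/

theorem ev_tw (Z : c.Mu) (G : k[X][X]) : c.ev (tw Z.val G) = c.tau Z (c.ev G) :=
  (tau_ev Z G).symm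

theorem ev_tw_pow (Z : c.Mu) (l : ℕ) (G : k[X][X]) :
    c.ev (tw (Z.val ^ l) G) = c.tau (Z ^ l) (c.ev G) := by
  rw [← Mu.val_pow, ev_tw]

theorem ev_red (G : k[X][X]) : c.ev (red c.r c.F G) = c.ev G := ev_mod G

theorem natDegree_red_lt (G : k[X][X]) : (red c.r c.F G).natDegree < c.r := natDegree_mod_lt G

theorem ev_nmA (Z : c.Mu) (G : k[X][X]) : c.ev (nmA c.r Z.val G) = c.nm Z (c.ev G) := by
  simp only [nmA, map_prod, ev_tw_pow, nm, pp]

theorem red_eq_zero_iff {G : k[X][X]} : red c.r c.F G = 0 ↔ c.ev G = 0 := ev_eq_zero_iff.symm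

theorem red_coeff_eq_zero_iff {G : k[X][X]} :
    (∀ b < c.r, (red c.r c.F G).coeff b = 0) ↔ c.ev G = 0 := by
  rw [← red_eq_zero_iff]
  refine ⟨fun h => ?_, fun h b _ => by rw [h, coeff_zero]⟩
  ext1 b
  rcases lt_or_ge b c.r with hb | hb
  · rw [h b hb, coeff_zero]
  · rw [coeff_eq_zero_of_natDegree_lt ((natDegree_red_lt G).trans_le hb), coeff_zero]

/-- the coefficient `0` of the reduction of a polynomial function -/
theorem red_coeff_zero {G : k[X][X]} {p : k[X]} (h : c.ev G = c.pol p) :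
    (red c.r c.F G).coeff 0 = p := by
  have : red c.r c.F G = C p :=
    ev_inj (natDegree_red_lt G) (by rw [natDegree_C]; exact c.r_pos) (by rw [ev_red, h, ev_C])
  rw [this, coeff_C_zero]

theorem map_ev_twW (Z : c.Mu) (B : k[X][X][X]) :
    (twW Z.val B).map c.ev = (B.map c.ev).map (c.tau Z : c.K →+* c.K) := by
  ext1 i
  rw [coeff_map, coeff_twW, coeff_map, coeff_map, ev_tw]
  rfl

theorem map_ev_piW (Z : c.Mu) (B : k[X][X][X]) (l : ℕ) :
    (piW c.r Z.val B l).map c.ev =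
      ∏ i ∈ Finset.range (c.r - l), (B.map c.ev).map (c.tau (Z ^ (l + i)) : c.K →+* c.K) := by
  simp only [piW, Polynomial.map_prod, ← Mu.val_pow, map_ev_twW]

theorem sum_tD_eq (Z : c.Mu) (E : c.Div) {l : ℕ} (hl : l ≤ c.r) :
    ∑ i ∈ Finset.range (c.r - l), c.tD (Z ^ (l + i)) E = c.nD Z E - c.sD Z E l := by
  rw [eq_sub_iff_add_eq', nD, sD, sD, ← Finset.sum_range_add (fun i => c.tD (Z ^ i) E),
    Nat.add_sub_cancel' hl]

theorem span_basisM {r nu T : ℕ} {H : k[X][X][X]}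
    (h : ∀ l < r, H.coeff l ∈ Submodule.span k {G | G ∈ mons r nu (T + l * mu r nu) k})
    (hd : ∀ l, r ≤ l → H.coeff l = 0) : H ∈ Submodule.span k {w | w ∈ basisM k r nu T} := by
  have e : H = ∑ l ∈ Finset.range r, monomial l (H.coeff l) := by
    ext1 j
    simp only [finsetSum_coeff, coeff_monomial, Finset.sum_ite_eq', Finset.mem_range]
    split_ifs with hj
    · rfl
    · exact hd j (not_lt.1 hj)
  rw [e]
  refine Submodule.sum_mem _ fun l hl => ?_
  have hl' := Finset.mem_range.1 hl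
  refine Submodule.span_induction (p := fun G _ => monomial l G ∈
    Submodule.span k {w | w ∈ basisM k r nu T}) (fun G hG => Submodule.subset_span ?_) ?_ ?_ ?_
    (h l hl')
  · simp only [basisM, Set.mem_ofPred_eq, List.mem_flatMap, List.mem_range, List.mem_map]
    exact ⟨l, hl', G, hG, rfl⟩
  · simp
  · intro G G' _ _ h1 h2
    rw [map_add]
    exact add_mem h1 h2
  · intro a G _ h1
    rw [← smul_monomial]
    exact Submodule.smul_mem _ a h1

theorem spanL_eq {M N : Type} [CommRing M] [CommRing N] [Algebra k N] (φ : M →+* N)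
    (vs : List M) : spanL k φ vs = Submodule.span k {w | w ∈ vs.map φ} := by
  simp only [spanL, List.mem_map]

variable [IsAlgClosed k]

/-! ### Contents -/

theorem cont_twW {B : k[X][X][X]} {E : c.Div} (h : c.Cont (B.map c.ev) E) (Z : c.Mu) :
    c.Cont ((twW Z.val B).map c.ev) (c.tD Z E) := by
  rw [map_ev_twW]
  exact h.tau Z

theorem cont_piW {B : k[X][X][X]} {E : c.Div} (h : c.Cont (B.map c.ev) E) (Z : c.Mu) {l : ℕ}
    (hl : l ≤ c.r) : c.Cont ((piW c.r Z.val B l).map c.ev) (c.nD Z E - c.sD Z E l) := by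
  rw [map_ev_piW, ← sum_tD_eq Z E hl]
  exact Cont.prod _ fun i _ => h.tau _

theorem cont_formT {S : k[X][X][X]} {E : c.Div} (h : c.Cont (S.map c.ev) E) (Z : c.Mu) :
    c.Cont ((formT c.r Z.val S).map c.ev) (c.tD Z E + (c.nD Z E - E)) := by
  rw [formT, Polynomial.map_mul]
  have := cont_piW h Z c.hr.one_lt.le
  rw [sD_one] at this
  exact (cont_twW h Z).mul this

theorem cont_formW {S : k[X][X][X]} {E : c.Div} (h : c.Cont (S.map c.ev) E) (Z : c.Mu) (M j : ℕ) :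
    c.Cont ((formW M Z.val S j).map c.ev) (c.Wj Z M j E) := by
  simp only [formW, Polynomial.map_prod, Polynomial.map_pow, ← Mu.val_pow]
  exact Cont.prod _ fun l _ => (cont_twW h _).pow _

/-- the division constraints on the coefficients of `G * B` -/
theorem cstr_cont {B : k[X][X][X]} {E : c.Div} (h : c.Cont (B.map c.ev) E) {N : ℕ}
    (hN : B.natDegree < N) {v : k[X]} (hv : v ≠ 0) (m : ℤ) (M : ℕ → ℕ)
    (hM : ∀ b, M b = (m + 1 - (b * c.nu : ℕ)).toNat) (G : k[X][X]) :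
    (∀ j < N, ∀ b < c.r, cstr (fun p q : k[X] => p / q) v (M b)
        ((red c.r c.F (G * B.coeff j)).coeff b) = 0) ↔
      c.ev G ∈ c.L (m • c.H - E - c.div (c.pol v)) := by
  have h1 : c.ev G ∈ c.L (m • c.H - E - c.div (c.pol v)) ↔
      c.ev G / c.pol v ∈ c.L (m • c.H - E) := by
    rw [← mul_mem_L_iff (s := c.ev G / c.pol v) (c.pol_ne hv), div_mul_cancel₀ _ (c.pol_ne hv)]
  rw [h1, ← h.mem]
  have h2 : ∀ j, (∀ b < c.r, cstr (fun p q : k[X] => p / q) v (M b)
      ((red c.r c.F (G * B.coeff j)).coeff b) = 0) ↔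
        c.ev G / c.pol v * (B.map c.ev).coeff j ∈ c.L (m • c.H) := fun j => by
    rw [coeff_map, div_mul_eq_mul_div, ← map_mul, memL hv]
    simp only [cstr_eq_zero hv, hM, red]
  simp only [h2]
  refine ⟨fun g j => ?_, fun g j _ => g j⟩
  rcases lt_or_ge j N with hj | hj
  · exact g j hj
  · rw [coeff_map, coeff_eq_zero_of_natDegree_lt (hN.trans_le hj), map_zero, mul_zero]
    exact zero_mem _

/-- ramified points at which nothing is required -/
theorem ev_mem_add_iff {E : c.Div} {P : c.Pt} (hP : P.IsRam)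
    (hE : ∀ P' : c.Pt, P'.IsRam → P' ≠ P → E P' = 0) (j : ℕ) (G : k[X][X]) :
    c.ev G ∈ c.L (E + (j : ℤ) • (c.R - Finsupp.single P 1)) ↔ c.ev G ∈ c.L E := by
  classical
  rw [mem_L', mem_L']
  refine forall_congr' fun P' => ?_
  by_cases h1 : P' = P
  · subst h1
    simp [R_ram hP]
  by_cases h2 : P'.IsRam
  · have h3 := Pt.ev_mem h2.not_inf G
    refine ⟨fun _ => by rw [hE P' h2 h1]; exact h3, fun _ => Pt.mem_V_of_le h3 ?_⟩
    simp [hE P' h2 h1, R_ram h2, Ne.symm h1]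
  · simp [R_unram h2, Ne.symm h1]

/-- the membership conditions -/
theorem condM_iff {Z : c.Mu} (hz : IsPrimitiveRoot Z.val c.r) {a : k} (ha : c.F.eval a = 0)
    {D : c.Div} {u : k[X]} {B : k[X][X][X]} (hP : c.Pres a (mu c.r c.nu) (mB c.r c.nu) D u B)
    (T e : ℕ) {N : ℕ} (hN : c.r * B.natDegree < N) (H : k[X][X][X]) :
    (∀ i ∈ idx3 c.r N c.r,
        condM (fun p q : k[X] => p / q) c.r c.nu c.F a Z.val u B T e i H = 0) ↔
      c.SolM Z D (ram a ha) (mu c.r c.nu) T e fun l => c.ev (H.coeff l) := by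
  have hr := c.r_pos
  set e' := (e + c.r - 1) / c.r with he'
  have h1 : e ≤ c.r * e' := by
    have := Nat.div_add_mod (e + c.r - 1) c.r
    have := Nat.mod_lt (e + c.r - 1) hr
    rw [he']
    omega
  obtain ⟨j, hj⟩ := Nat.exists_eq_add_of_le h1
  have hj' : c.r * e' - e = j := by omega
  have hx : (X - C a : k[X]) ≠ 0 := X_sub_C_ne_zero a
  have hv : u * (X - C a) ^ e' ≠ 0 := mul_ne_zero hP.u_ne (pow_ne_zero _ hx)
  have key : ∀ l < c.r, (∀ i < N, ∀ b < c.r,
      condM (fun p q : k[X] => p / q) c.r c.nu c.F a Z.val u B T e (l, i, b) H = 0) ↔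
      c.ev (H.coeff l) ∈ c.L (((T + l * mu c.r c.nu : ℕ) : ℤ) • c.H - c.sD Z D l -
        Finsupp.single (ram a ha) (e : ℤ)) := fun l hl => by
    obtain ⟨s, hs⟩ := Nat.exists_eq_add_of_le hl.le
    have hs' : c.r - l = s := by omega
    have h2 := cstr_cont (cont_piW hP.cont Z hl.le) ((natDegree_piW_le' _ _ _ _).trans_lt hN) hv
      ((T + l * mu c.r c.nu + j * c.nu + s * mB c.r c.nu : ℕ) - (c.r * mu c.r c.nu + e' : ℕ))
      (fun b => T + l * mu c.r c.nu + j * c.nu + s * mB c.r c.nu + 1 -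
        (c.r * mu c.r c.nu + e' + b * c.nu)) (fun b => by omega) (H.coeff l * X ^ j)
    simp only [condM, ← he', hj', hs']
    rw [h2, ← ev_mem_add_iff (P := ram a ha) (isRam_ram a ha) ?_ j (H.coeff l), map_mul c.ev,
      map_pow c.ev, ev_X, ← mul_mem_L_iff (s := c.ev (H.coeff l)) (pow_ne_zero j c.y_ne)]
    · have e1 := hP.norm Z hz
      have e2 := div_X_sub_ram (isRam_ram (c := c) a ha)
      rw [x0_ram] at e2
      have e3 : (Finsupp.single (ram a ha) (c.r : ℤ) : c.Div) =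
          (c.r : ℤ) • Finsupp.single (ram a ha) 1 := by simp
      have e4 : (Finsupp.single (ram a ha) (e : ℤ) : c.Div) =
          (e : ℤ) • Finsupp.single (ram a ha) 1 := by simp
      have e5 : (c.r : ℤ) * e' = e + j := by exact_mod_cast hj
      have e6 : (c.r : ℤ) = l + s := by exact_mod_cast hs
      refine iff_of_eq (congrArg (fun E => _ ∈ c.L E) ?_)
      have e7 : (s : ℤ) = c.r - l := by omega
      have e8 : (e : ℤ) = c.r * e' - j := by omega
      rw [map_mul, map_pow, div_mul (c.pol_ne hP.u_ne) (pow_ne_zero _ (c.pol_ne hx)), Cv.div_pow,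
        Cv.div_pow, div_y, e2, e3, e4, nD, sD_sub, sD_sub, sD_zsmul, sD_zsmul, sD_H, sD_H,
        eq_sub_of_add_eq e1, nD, ← natCast_zsmul, ← natCast_zsmul]
      push_cast
      rw [e7, e8]
      module
    · intro P' h3 h4
      have h5 : D P' = 0 := by
        rw [h3.eq_ram]
        refine hP.ram _ _ fun h6 => h4 ?_
        rw [h3.eq_ram]
        simp only [h6]
      simp [H_ram h3, sD_ram Z D l h3, h5, Ne.symm h4]
  constructor
  · intro h l hl
    exact (key l hl).1 fun i hi b hb => h _ (mem_idx3.2 ⟨hl, hi, hb⟩)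
  · rintro h ⟨l, i, b⟩ hi
    obtain ⟨k1, k2, k3⟩ := mem_idx3.1 hi
    exact (key l k1).2 (h l k1) i k2 b k3

/-- the conditions at the ramified points -/
theorem condR_iff (hF : c.F.Monic) (Z : c.Mu) (a : k) (rho : k[X])
    (H : k[X][X][X]) :
    (∀ i ∈ idx2 c.r c.r, condR c.r c.F a Z.val rho i H = 0) ↔
      c.SolR Z a rho fun l => c.ev (H.coeff l) := by
  have key : ∀ p : k[X], (p * (X - C a)) %ₘ c.F = 0 ↔
      ∀ a', c.F.eval a' = 0 → a' ≠ a → p.eval a' = 0 := fun p => by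
    rw [modByMonic_eq_zero_iff_dvd hF]
    constructor
    · rintro ⟨q, hq⟩ a' h1 h2
      have := congrArg (eval a') hq
      simpa [h1, sub_eq_zero, h2] using this
    · intro h
      rcases eq_or_ne (p * (X - C a)) 0 with h0 | h0
      · rw [h0]
        exact dvd_zero _
      refine (IsAlgClosed.splits c.F).dvd_of_roots_le_roots c.F_ne ?_
      rw [Multiset.le_iff_subset (nodup_roots c.hsep)]
      intro a' h1
      rw [mem_roots h0, IsRoot, eval_mul]
      by_cases h2 : a' = a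
      · simp [h2]
      · rw [h a' (isRoot_of_mem_roots h1) h2, zero_mul]
  have key2 : ∀ G : k[X][X],
      (∀ b' < c.r, ((red c.r c.F G).coeff b' * (X - C a)) %ₘ c.F = 0) ↔
        ∀ a' (ha' : c.F.eval a' = 0), a' ≠ a → c.ev G ∈ (ram a' ha').V c.r := fun G => by
    simp only [key, ← ev_red G,
      ev_mem_ram_iff_eval (isRam_ram _ _) (natDegree_red_lt G) (le_refl c.r), x0_ram]
    exact ⟨fun h a' h1 h2 b hb => h b hb a' h1 h2, fun h b hb a' h1 h2 => h a' h1 h2 b hb⟩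
  have e : ∀ b, c.ev ((∑ l ∈ Finset.range c.r, H.coeff l * C (rho ^ (c.r - 1 - l)) *
      C (C (Z.val ^ (l * b)))) * X ^ (b + 1)) =
      (∑ l ∈ Finset.range c.r, c.ev (H.coeff l) * c.pol rho ^ (c.r - 1 - l) *
        c.cst (Z.val ^ (l * b))) * c.y ^ (b + 1) := fun b => by
    simp only [map_mul c.ev, map_sum c.ev, ev_C, map_pow c.ev, ev_X, pol_C, map_pow c.pol]
  constructor
  · intro h b hb
    rw [← e, ← key2]
    exact fun b' hb' => h (b, b') (mem_idx2.2 ⟨hb, hb'⟩)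
  · rintro h ⟨b, b'⟩ hi
    obtain ⟨k1, k2⟩ := mem_idx2.1 hi
    have := h b k1
    rw [← e, ← key2] at this
    exact this b' k2

omit [IsAlgClosed k] in
theorem ev_condB (Z : c.Mu) (h0 h1 : k[X][X]) (H : k[X][X][X]) (l : ℕ) :
    (∀ b < c.r, condB c.r c.F Z.val h0 h1 (l, b) H = 0) ↔
      c.ev (H.coeff (l + 1)) * c.tau (Z ^ l) (c.ev h0) =
        c.ev (H.coeff l) * c.tau (Z ^ l) (c.ev h1) := by
  simp only [condB]
  rw [red_coeff_eq_zero_iff, map_sub, map_mul, map_mul, ev_tw_pow, ev_tw_pow, sub_eq_zero]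

omit [IsAlgClosed k] in
/-- the relations of the second stage -/
theorem condB_iff (Z : c.Mu) (h0 h1 : k[X][X]) (H : k[X][X][X]) :
    (∀ i ∈ idx2 (c.r - 1) c.r, condB c.r c.F Z.val h0 h1 i H = 0) ↔
      c.SolB Z (c.ev h0) (c.ev h1) fun l => c.ev (H.coeff l) := by
  constructor
  · intro h l hl
    exact (ev_condB Z h0 h1 H l).1 fun b hb => h _ (mem_idx2.2 ⟨by omega, hb⟩)
  · rintro h ⟨l, b⟩ hi
    obtain ⟨k1, k2⟩ := mem_idx2.1 hi
    exact (ev_condB Z h0 h1 H l).2 (h l (by omega)) b k2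

/-- the conditions of the final stage -/
theorem condF_iff {Z : c.Mu} {W : c.Div} {U : k[X]} {S : k[X][X][X]} {d m : ℕ} (hU0 : U ≠ 0)
    (hU : c.div (c.pol U) + (d : ℤ) • c.H = c.nD Z W)
    (hS : c.Cont (S.map c.ev) ((m : ℤ) • c.H - W)) {N : ℕ}
    (hN : (formT c.r Z.val S).natDegree < N) (G : k[X][X]) :
    (∀ i ∈ idx2 N c.r,
        condF (fun p q : k[X] => p / q) c.r c.nu c.F U (formT c.r Z.val S) d m i G = 0) ↔
      c.ev G / c.pol U ∈ c.L (c.tD Z W - W) := by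
  have h2 := cstr_cont (cont_formT hS Z) hN (pow_ne_zero 2 hU0)
    ((d + c.r * m : ℕ) - (2 * d : ℕ)) (fun b => d + c.r * m + 1 - (2 * d + b * c.nu))
    (fun b => by omega) G
  have h3 : c.ev G / c.pol U ∈ c.L (c.tD Z W - W) ↔
      c.ev G ∈ c.L (c.tD Z W - W - c.div (c.pol U)) := by
    rw [← mul_mem_L_iff (s := c.ev G / c.pol U) (c.pol_ne hU0), div_mul_cancel₀ _ (c.pol_ne hU0)]
  have h4 : (((d + c.r * m : ℕ) - (2 * d : ℕ) : ℤ) • c.H - (c.tD Z ((m : ℤ) • c.H - W) +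
      (c.nD Z ((m : ℤ) • c.H - W) - ((m : ℤ) • c.H - W))) - c.div (c.pol (U ^ 2))) =
      c.tD Z W - W - c.div (c.pol U) := by
    rw [map_pow, Cv.div_pow, map_sub, map_zsmul, tD_H, nD, sD_sub, sD_zsmul, sD_H,
      eq_sub_of_add_eq hU, nD]
    push_cast
    module
  rw [h3, ← h4, ← h2]
  exact ⟨fun h j hj b hb => h (j, b) (mem_idx2.2 ⟨hj, hb⟩),
    fun h i hi => h i.1 (mem_idx2.1 hi).1 i.2 (mem_idx2.1 hi).2⟩

/-! ### Spans of monomials -/

variable {A : Type} [CommRing A] {Q : ℕ} {ψ : A →+* k} {f : A[X]} {z : A} {Z : c.Mu}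

theorem mem_span_mons' (m : ℕ) (G : k[X][X]) :
    G ∈ Submodule.span k {x | x ∈ mons c.r c.nu m k} ↔
      G.natDegree < c.r ∧ c.ev G ∈ c.L ((m : ℤ) • c.H) := by
  rw [Cv.mem_span_mons c.r_pos]
  refine and_congr_right fun h => ?_
  rw [ev_mem_L_iff h]
  exact forall₂_congr fun b _ => by norm_cast

theorem mem_spanL_mons (m : ℕ) (G : k[X][X]) :
    G ∈ spanL k (mapRingHom (mapRingHom ψ)) (mons c.r c.nu m A) ↔
      G.natDegree < c.r ∧ c.ev G ∈ c.L ((m : ℤ) • c.H) := by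
  rw [spanL_eq, map_mons, mem_span_mons']

theorem mem_span_mons (m : ℕ) (G : k[X][X]) :
    G ∈ Submodule.span k {x | ∃ v ∈ Cv.mons c.r c.nu m A, x = v.map (mapRingHom ψ)} ↔
      G.natDegree < c.r ∧ c.ev G ∈ c.L ((m : ℤ) • c.H) := by
  rw [← mem_spanL_mons (ψ := ψ), spanL]
  simp only [coe_mapRingHom, eq_comm]

theorem exists_ev_of_mem_L (m : ℕ) {s : c.K} (hs : s ∈ c.L ((m : ℤ) • c.H)) :
    ∃ G : k[X][X], G.natDegree < c.r ∧ c.ev G = s :=
  (mem_L_H_iff.1 hs).imp fun _ h => ⟨h.1, h.2.2⟩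

omit [IsAlgClosed k] in
theorem ev_eq_zero {G : k[X][X]} (hG : G.natDegree < c.r) (h : c.ev G = 0) : G = 0 :=
  eq_zero_of_ev hG h

omit [IsAlgClosed k] in
theorem red_eq_zero (G : k[X][X]) : red c.r c.F G = 0 ↔ c.ev G = 0 := red_eq_zero_iff

omit [IsAlgClosed k] in
theorem ev_eq_pol (hZ : IsPrimitiveRoot Z.val c.r) {G : k[X][X]}
    (h : c.tau Z (c.ev G) = c.ev G) : c.ev G = c.pol ((red c.r c.F G).coeff 0) := by
  obtain ⟨q, hq⟩ := exists_rat_of_fixed (Mu.ne_one_of_prim hZ) h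
  have h1 := co_ev (natDegree_red_lt (c := c) G) c.r_pos
  have h2 : c.rat q = c.rat q * c.y ^ 0 := by simp
  rw [ev_red, hq, h2, co_rat_mul, co_y_pow c.r_pos, if_pos rfl, mul_one] at h1
  rw [hq, h1, rat_pol]

theorem mem_span_basisM (T : ℕ) (H : k[X][X][X]) :
    H ∈ Submodule.span k {w | w ∈ basisM k c.r c.nu T} ↔
      H.natDegree < c.r ∧ (∀ l, (H.coeff l).natDegree < c.r) ∧
        ∀ l < c.r, c.ev (H.coeff l) ∈ c.L (((T + l * mu c.r c.nu : ℕ) : ℤ) • c.H) := by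
  constructor
  · intro h
    have h1 : (∀ l, c.r ≤ l → H.coeff l = 0) ∧ ∀ l < c.r, H.coeff l ∈
        Submodule.span k {x | x ∈ mons c.r c.nu (T + l * mu c.r c.nu) k} := by
      refine Submodule.span_induction (p := fun H _ => (∀ l, c.r ≤ l → H.coeff l = 0) ∧
        ∀ l < c.r, H.coeff l ∈ Submodule.span k {x | x ∈ mons c.r c.nu (T + l * mu c.r c.nu) k})
        ?_ ?_ ?_ ?_ h
      · intro w hw
        simp only [basisM, Set.mem_ofPred_eq, List.mem_flatMap, List.mem_range, List.mem_map] at hw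
        obtain ⟨l, hl, G, hG, rfl⟩ := hw
        refine ⟨fun j hj => by rw [coeff_monomial, if_neg (by omega)], fun j _ => ?_⟩
        rw [coeff_monomial]
        split_ifs with e
        · subst e
          exact Submodule.subset_span hG
        · exact zero_mem _
      · exact ⟨fun _ _ => rfl, fun _ _ => zero_mem _⟩
      · intro w w' _ _ g g'
        exact ⟨fun l hl => by rw [coeff_add, g.1 l hl, g'.1 l hl, add_zero],
          fun l hl => by rw [coeff_add]; exact add_mem (g.2 l hl) (g'.2 l hl)⟩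
      · intro a w _ g
        exact ⟨fun l hl => by rw [coeff_smul, g.1 l hl, smul_zero],
          fun l hl => by rw [coeff_smul]; exact Submodule.smul_mem _ a (g.2 l hl)⟩
    refine ⟨?_, fun l => ?_, fun l hl => ((mem_span_mons' _ _).1 (h1.2 l hl)).2⟩
    · have := c.r_pos
      have := natDegree_le_iff_coeff_eq_zero.2 fun j (hj : c.r - 1 < j) => h1.1 j (by omega)
      omega
    · rcases lt_or_ge l c.r with hl | hl
      · exact ((mem_span_mons' _ _).1 (h1.2 l hl)).1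
      · rw [h1.1 l hl, natDegree_zero]
        exact c.r_pos
  · rintro ⟨h1, h2, h3⟩
    exact span_basisM (fun l hl => (mem_span_mons' _ _).2 ⟨h2 l, h3 l hl⟩)
      fun l hl => coeff_eq_zero_of_natDegree_lt (h1.trans_le hl)

theorem SolM.mem_H {D : c.Div} (hD : 0 ≤ D) {P : c.Pt} {m T e : ℕ} {Hs : ℕ → c.K}
    (h : c.SolM Z D P m T e Hs) {l : ℕ} (hl : l < c.r) :
    Hs l ∈ c.L (((T + l * m : ℕ) : ℤ) • c.H) := by
  refine L_mono ?_ (h l hl)
  rw [sub_sub]
  exact sub_le_self _ (add_nonneg (sD_nonneg Z hD l) (Finsupp.single_nonneg.2 (Int.natCast_nonneg e)))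

/-- every tuple of functions with bounded poles comes from a polynomial tuple -/
theorem exists_tuple {D : c.Div} (hD : 0 ≤ D) {P : c.Pt} {m T e : ℕ} {Hs : ℕ → c.K}
    (h : c.SolM Z D P m T e Hs) : ∃ H : k[X][X][X], H.natDegree < c.r ∧
      (∀ l, (H.coeff l).natDegree < c.r) ∧ ∀ l < c.r, c.ev (H.coeff l) = Hs l := by
  have h1 : ∀ l < c.r, ∃ G : k[X][X], G.natDegree < c.r ∧ c.ev G = Hs l := fun l hl =>
    exists_ev_of_mem_L _ (SolM.mem_H hD h hl)
  choose! G g1 g2 using h1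
  have e : ∀ l, (∑ j ∈ Finset.range c.r, monomial j (G j)).coeff l =
      if l < c.r then G l else 0 := fun l => by
    simp only [finsetSum_coeff, coeff_monomial, Finset.sum_ite_eq', Finset.mem_range]
  have hr := c.r_pos
  refine ⟨∑ j ∈ Finset.range c.r, monomial j (G j), ?_, fun l => ?_, fun l hl => ?_⟩
  · have := natDegree_le_iff_coeff_eq_zero.2 fun j (hj : c.r - 1 < j) =>
      (e j).trans (if_neg (by omega))
    omega
  · rw [e]
    split_ifs with hl
    · exact g1 l hl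
    · rwa [natDegree_zero]
  · rw [e, if_pos hl, g2 l hl]

theorem SolM.congr {D : c.Div} {P : c.Pt} {m T e : ℕ} {Hs Hs' : ℕ → c.K}
    (h : c.SolM Z D P m T e Hs) (h' : ∀ l < c.r, Hs' l = Hs l) : c.SolM Z D P m T e Hs' :=
  fun l hl => h' l hl ▸ h l hl

theorem SolR.congr {a : k} {rho : k[X]} {Hs Hs' : ℕ → c.K}
    (h : c.SolR Z a rho Hs) (h' : ∀ l < c.r, Hs' l = Hs l) : c.SolR Z a rho Hs' :=
  fun b hb a' h1 h2 => by
    rw [Finset.sum_congr rfl fun l hl => by rw [h' l (Finset.mem_range.1 hl)]]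
    exact h b hb a' h1 h2

omit [IsAlgClosed k] in
theorem SolB.congr {h0 h1 : c.K} {Hs Hs' : ℕ → c.K}
    (h : c.SolB Z h0 h1 Hs) (h' : ∀ l < c.r, Hs' l = Hs l) : c.SolB Z h0 h1 Hs' :=
  fun l hl => by
    rw [h' _ hl, h' l (by omega)]
    exact h l hl

/-! ### The computed solution spaces -/

omit [IsAlgClosed k] in
theorem m3_algebraMap (ψ : A →+* k) (a : A) :
    m3 ψ (algebraMap A A[X][X][X] a) = algebraMap k k[X][X][X] (ψ a) := by
  simp [Polynomial.algebraMap_apply]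

omit [IsAlgClosed k] in
theorem m2_algebraMap (ψ : A →+* k) (a : A) :
    mapRingHom (mapRingHom ψ) (algebraMap A A[X][X] a) = algebraMap k k[X][X] (ψ a) := by
  simp [Polynomial.algebraMap_apply]

omit [IsAlgClosed k] in
theorem spanL_eq' {M N : Type} [CommRing M] [CommRing N] [Algebra k N] (φ : M →+* N)
    (vs : List M) : Submodule.span k {x | ∃ v ∈ vs, x = φ v} = spanL k φ vs := by
  simp only [spanL, eq_comm]

/-- the span of the computed solutions is the solution space -/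
theorem solM_spanL (h : Dat c Q ψ f z Z) {a : A} (ha : c.F.eval (ψ a) = 0) {D : c.Div} {u : A[X]}
    {B : A[X][X][X]}
    (hP : c.Pres (ψ a) (mu c.r c.nu) (mB c.r c.nu) D (u.map ψ) (m3 ψ B)) (T e : ℕ)
    (H : k[X][X][X]) :
    H ∈ spanL k (m3 ψ) (solM Q c.r c.nu f a z u B T e) ↔
      H.natDegree < c.r ∧ (∀ l, (H.coeff l).natDegree < c.r) ∧
        c.SolM Z D (Cv.ram (ψ a) ha) (mu c.r c.nu) T e fun l => c.ev (H.coeff l) := by
  rw [solM, h.comp.mem_kerI' (m3_algebraMap ψ)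
    (Φ' := condM (fun p q : k[X] => p / q) c.r c.nu c.F (ψ a) Z.val (u.map ψ) (m3 ψ B) T e)
    (fun i => lin_condM _ _ _ _ _ _ _ _ _ i) fun i _ v => by
      rw [map_condM ψ h.comp.map_divAny c.hr.ne_zero, h.mapf, h.mapz]; rfl,
    condM_iff h.prim ha hP T e (Nat.lt_succ_of_le (Nat.mul_le_mul_left _ natDegree_map_le)),
    spanL_eq, map_basisM, mem_span_basisM]
  exact ⟨fun g => ⟨g.1.1, g.1.2.1, g.2⟩,
    fun g => ⟨⟨g.1, g.2.1, fun l hl => SolM.mem_H hP.nonneg g.2.2 hl⟩, g.2.2⟩⟩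

theorem solM_spec (h : Dat c Q ψ f z Z) {a : A} (ha : c.F.eval (ψ a) = 0) {D : c.Div} {u : A[X]}
    {B : A[X][X][X]}
    (hP : c.Pres (ψ a) (mu c.r c.nu) (mB c.r c.nu) D (u.map ψ) (m3 ψ B)) (T e : ℕ)
    (H : k[X][X][X]) :
    H ∈ Submodule.span k {x | ∃ v ∈ solM Q c.r c.nu f a z u B T e, x = m3 ψ v} ↔
      H.natDegree < c.r ∧ (∀ l, (H.coeff l).natDegree < c.r) ∧
        c.SolM Z D (Cv.ram (ψ a) ha) (mu c.r c.nu) T e fun l => c.ev (H.coeff l) := by
  rw [← solM_spanL h ha hP, spanL]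
  simp only [eq_comm]

/-- the candidates of the first stage -/
theorem candA_spanL (h : Dat c Q ψ f z Z) {a : A} (ha : c.F.eval (ψ a) = 0) {D : c.Div}
    {u : A[X]} {B : A[X][X][X]}
    (hP : c.Pres (ψ a) (mu c.r c.nu) (mB c.r c.nu) D (u.map ψ) (m3 ψ B)) (rho : A[X]) (e : ℕ)
    (H : k[X][X][X]) :
    H ∈ spanL k (m3 ψ) (candA Q c.r c.nu f a z u B rho e) ↔
      H.natDegree < c.r ∧ (∀ l, (H.coeff l).natDegree < c.r) ∧
        (c.SolM Z D (Cv.ram (ψ a) ha) (mu c.r c.nu) ((c.r - 1) * c.nu) e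
          fun l => c.ev (H.coeff l)) ∧
        c.SolR Z (ψ a) (rho.map ψ) fun l => c.ev (H.coeff l) := by
  rw [candA, h.comp.mem_kerI' (m3_algebraMap ψ)
    (Φ' := condR c.r c.F (ψ a) Z.val (rho.map ψ))
    (fun i => lin_condR _ _ _ _ _ i) fun i _ v => by
      rw [map_condR ψ c.hr.ne_zero h.monic, h.mapf, h.mapz]; rfl,
    condR_iff (h.mapf ▸ h.monic.map ψ) Z, solM_spanL h ha hP]
  simp only [and_assoc]

/-- the solutions of the second stage -/
theorem solB_spanL (h : Dat c Q ψ f z Z) {a : A} (ha : c.F.eval (ψ a) = 0) {D : c.Div}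
    {u : A[X]} {B : A[X][X][X]}
    (hP : c.Pres (ψ a) (mu c.r c.nu) (mB c.r c.nu) D (u.map ψ) (m3 ψ B)) (h0 h1 : A[X][X])
    (T e : ℕ) (H : k[X][X][X]) :
    H ∈ spanL k (m3 ψ) (kerI Q (idx2 (c.r - 1) c.r) (condB c.r f z h0 h1)
        (solM Q c.r c.nu f a z u B T e)) ↔
      H.natDegree < c.r ∧ (∀ l, (H.coeff l).natDegree < c.r) ∧
        (c.SolM Z D (Cv.ram (ψ a) ha) (mu c.r c.nu) T e fun l => c.ev (H.coeff l)) ∧
        c.SolB Z (evA c ψ h0) (evA c ψ h1) fun l => c.ev (H.coeff l) := by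
  rw [h.comp.mem_kerI' (m3_algebraMap ψ)
    (Φ' := condB c.r c.F Z.val (h0.map (mapRingHom ψ)) (h1.map (mapRingHom ψ)))
    (fun i => lin_condB _ _ _ _ _ i) fun i _ v => by
      rw [map_condB ψ c.hr.ne_zero, h.mapf, h.mapz]; rfl,
    condB_iff, solM_spanL h ha hP]
  simp only [and_assoc]
  rfl

/-- the solutions of the final system -/
theorem solF_spanL (h : Dat c Q ψ f z Z) {W : c.Div} {U : A[X]} {S : A[X][X][X]}
    {d m : ℕ} (hU0 : U.map ψ ≠ 0) (hU : c.div (c.pol (U.map ψ)) + (d : ℤ) • c.H = c.nD Z W)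
    (hS : c.Cont ((m3 ψ S).map c.ev) ((m : ℤ) • c.H - W)) (G : k[X][X]) :
    G ∈ spanL k (mapRingHom (mapRingHom ψ)) (solF Q c.r c.nu f z U S d m) ↔
      G.natDegree < c.r ∧ c.ev G ∈ c.L ((d : ℤ) • c.H) ∧
        c.ev G / c.pol (U.map ψ) ∈ c.L (c.tD Z W - W) := by
  have e : formT c.r Z.val (m3 ψ S) = (formT c.r z S).map (mapRingHom (mapRingHom ψ)) := by
    rw [map_formT, h.mapz]; rfl
  rw [solF, h.comp.mem_kerI' (m2_algebraMap ψ)
    (Φ' := condF (fun p q : k[X] => p / q) c.r c.nu c.F (U.map ψ) (formT c.r Z.val (m3 ψ S)) d m)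
    (fun i => lin_condF _ _ _ _ _ _ _ i) fun i _ v => by
      rw [map_condF ψ h.comp.map_divAny c.hr.ne_zero, h.mapf, e]; rfl,
    condF_iff hU0 hU hS (Nat.lt_succ_of_le (by rw [e]; exact natDegree_map_le)), mem_spanL_mons,
    and_assoc]

end Vale.Agent.P319.Crv
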