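import Vale.Agent.P319.Alg.Step
import Vale.Agent.Lib.Dep.Adjoin

/-!
P319: the splitting algorithm for polynomials whose degree is divisible by an odd prime
(definitions).
-/

open Polynomial

namespace Vale.Agent.P319.Crv

open Gen Vale.Agent.Lib.Dep

variable {A : Type} [CommRing A]

/-- a polynomial whose values at the roots of `f` are `r`-th roots of the values of `w` -/
noncomputable def rootPoly (Q r : ℕ) (f : A[X]) (g : A) (w : A[X]) : A[X] :=
  rep (root Q r (AdjoinRoot.of (mon f) g) (AdjoinRoot.mk (mon f) w))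

/-- the sum of the values at the roots of `f` -/
noncomputable def trA (f : A[X]) (x : AdjoinRoot (mon f)) : A :=
  (rep (x * AdjoinRoot.mk (mon f) (derivative f))).coeff (f.natDegree - 1)

/-- the product of the values of a form at the roots of `f` -/
noncomputable def nrm3 (Q : ℕ) (f : A[X]) (B : (AdjoinRoot (mon f))[X][X][X]) : A[X][X][X] :=
  newton (fun j => C (C (C (pinv Q (j : A))))) (fun j => mapc (mapc (mapc (trA f))) (B ^ j))
    f.natDegree

/-- the first stage with the roots put in -/
noncomputable def stA' (Q r nu : ℕ) (f : A[X]) (a z g : A) (s : A[X] × A[X][X][X]) : A[X][X][X] :=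
  stA Q r nu f a z g s.1 s.2 fun m => rootPoly Q r f g (C (g ^ m) * s.1)

/-- the division step -/
noncomputable def step (Q r nu : ℕ) (f : A[X]) (a z g : A) (s : A[X] × A[X][X][X]) :
    A[X] × A[X][X][X] :=
  stB Q r nu f a z s.1 s.2 ((stA' Q r nu f a z g s).coeff 0) ((stA' Q r nu f a z g s).coeff 1)

/-- the chain of `j` division steps -/
noncomputable def chain (Q r nu : ℕ) (f : A[X]) (a z g : A) (j : ℕ) : A[X] × A[X][X][X] :=
  (List.range j).foldl (fun s i => step Q r nu f a (z ^ (1 + i % (r - 1))) g s) (init r nu a)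

/-- the chain over the algebra of a universal root -/
noncomputable def chainU (Q r nu e : ℕ) (f : A[X]) (z g : A) :
    (AdjoinRoot (mon f))[X] × (AdjoinRoot (mon f))[X][X][X] :=
  chain Q r nu (f.map (AdjoinRoot.of (mon f))) (AdjoinRoot.root (mon f)) (AdjoinRoot.of (mon f) z)
    (AdjoinRoot.of (mon f) g) (e * (r - 1))

/-- the norm polynomial of the divisor `W` -/
noncomputable def finU (Q r nu e : ℕ) (f : A[X]) (z g : A) : A[X] :=
  ((nrm3 Q f (C (C (chainU Q r nu e f z g).1))).coeff 0).coeff 0

/-- the form of the divisor `W` -/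
noncomputable def finS (Q r nu e : ℕ) (f : A[X]) (z g : A) : A[X][X][X] :=
  nrm3 Q f (chainU Q r nu e f z g).2 * piW r z (formInf A nu) 1 ^ (r * nu / r ^ e)

/-- the degree of `W` -/
def finD (r nu e : ℕ) : ℕ := r * nu * (r * mu r nu) + r * nu / r ^ e * (r - 1)

/-- the formal degree of the form of `W` -/
def finM (r nu e : ℕ) : ℕ := r * nu * mB r nu + r * nu / r ^ e * ((r - 1) * nu)

/-- the values of `G / U` at the ramified points, after cancellation of `f ^ E` -/
noncomputable def vals (Q : ℕ) (f U : A[X]) (E : ℕ) (G : A[X][X]) : AdjoinRoot (mon f) :=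
  AdjoinRoot.mk (mon f) (G.coeff 0 /ₘ f ^ E) * pinv Q (AdjoinRoot.mk (mon f) (U /ₘ f ^ E))

/-- the candidates attached to such values -/
noncomputable def candV (Q r : ℕ) (f : A[X]) (z g : A) (h : AdjoinRoot (mon f)) : List A[X] :=
  (List.range r).map fun m =>
    rep (h - AdjoinRoot.of (mon f) (z ^ m) * root Q r (AdjoinRoot.of (mon f) g) (h ^ r))

/-- the final stage, for the divisor with norm `U`, form `S`, degree `d`, formal degree `m` -/
noncomputable def final (Q r nu e : ℕ) (f : A[X]) (z g : A) (U : A[X]) (S : A[X][X][X])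
    (d m : ℕ) : List A[X] :=
  ((List.range (r * mu r nu + 1)).map fun E => U /ₘ f ^ E) ++
    (idx2 (e * (r - 1)) (r * mu r nu + 1)).flatMap fun i =>
      (solF Q r nu f z (U ^ Cv.cs (r ^ e) i.1) (formW (r ^ e) z S i.1) (Cv.cs (r ^ e) i.1 * d)
        (Cv.cs (r ^ e) i.1 * m)).flatMap fun G =>
          candV Q r f z g (vals Q f (U ^ Cv.cs (r ^ e) i.1) (Cv.cs (r ^ e) i.1 * i.2) G)

/-- The list of candidates: for `f` split and separable of degree `r ν` with `r ^ e` the exact
power of `r` in the degree, one of them vanishes at some but not all roots of `f`. -/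
noncomputable def curve (Q r nu e : ℕ) (f : A[X]) (z g : A) : List A[X] :=
  final Q r nu e f z g (finU Q r nu e f z g) (finS Q r nu e f z g) (finD r nu e) (finM r nu e)

end Vale.Agent.P319.Crv
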