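import Vale.Agent.P319.Alg.Step
import Vale.Agent.P319.Alg.GenPT

/-!
P319: the linear systems of the division step and of the final stage are computable in polynomial
time; bounds for the heights of their values.
-/

set_option linter.unusedSectionVars false
set_option maxSynthPendingDepth 3

open Polynomial

namespace Vale.Agent.P319.Crv

open Vale.Agent.Lib.PolyTime hiding C P
open Vale.Agent.Lib.Dep Gen

theorem mem_idx2_pt {m n : ℕ} {i : ℕ × ℕ} : i ∈ idx2 m n ↔ i.1 < m ∧ i.2 < n := by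
  obtain ⟨i, j⟩ := i
  simp [idx2]

theorem mem_idx3_pt {l m n : ℕ} {i : ℕ × ℕ × ℕ} :
    i ∈ idx3 l m n ↔ i.1 < l ∧ i.2.1 < m ∧ i.2.2 < n := by
  obtain ⟨i, j⟩ := i
  simp [idx3, mem_idx2_pt]

/-! ### Heights -/

section Ht

variable {A : Type} [CommRing A] [Code A]

theorem length_flatMap_le_pt {ι κ : Type} {l : List ι} {f : ι → List κ} {B : ℕ}
    (h : ∀ i ∈ l, (f i).length ≤ B) : (l.flatMap f).length ≤ l.length * B := by
  rw [List.length_flatMap]
  simpa using List.sum_le_card_nsmul (l.map fun i => (f i).length) B (by simpa using h)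

theorem ht_mons_le (r nu m : ℕ) : ht (Cv.mons r nu m A) ≤ r * (m + 1) := by
  refine ht_list_le.2 ⟨?_, fun v hv => ?_⟩
  · refine (length_flatMap_le_pt (B := m + 1) fun b _ => by simp).trans ?_
    simp
  · simp only [Cv.mons, List.mem_flatMap, List.mem_map, List.mem_range] at hv
    obtain ⟨b, hb, a, ha, rfl⟩ := hv
    have h1 : r ≤ r * (m + 1) := Nat.le_mul_of_pos_right _ (Nat.succ_pos _)
    have h2 : m + 1 ≤ r * (m + 1) := Nat.le_mul_of_pos_left _ (by omega)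
    refine (ht_monomial_le _ _).trans (max_le (by omega) ((ht_monomial_le _ _).trans ?_))
    rw [ht_one]
    omega

theorem ht_basisM_le (r nu T : ℕ) : ht (basisM A r nu T) ≤ r * (r * (T + r * mu r nu + 1)) := by
  have key : ∀ l < r, ht (Cv.mons r nu (T + l * mu r nu) A) ≤ r * (T + r * mu r nu + 1) :=
    fun l hl => (ht_mons_le _ _ _).trans (by gcongr)
  refine ht_list_le.2 ⟨?_, fun v hv => ?_⟩
  · refine (length_flatMap_le_pt (B := r * (T + r * mu r nu + 1)) fun l hl => ?_).trans (by simp)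
    rw [List.length_map]
    exact (length_le_ht _).trans (key l (List.mem_range.1 hl))
  · simp only [basisM, List.mem_flatMap, List.mem_map, List.mem_range] at hv
    obtain ⟨l, hl, w, hw, rfl⟩ := hv
    have h1 : r ≤ r * (T + r * mu r nu + 1) := Nat.le_mul_of_pos_right _ (Nat.succ_pos _)
    have h2 : r * (T + r * mu r nu + 1) ≤ r * (r * (T + r * mu r nu + 1)) :=
      Nat.le_mul_of_pos_left _ (by omega)
    have h3 := (ht_le_of_mem hw).trans (key l hl)
    exact (ht_monomial_le _ _).trans (max_le (by omega) (by omega))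

variable [HtZero A]

theorem ht_solM_le (Q r nu : ℕ) (f : A[X]) (a z : A) (u : A[X]) (B : A[X][X][X]) (T c : ℕ) :
    ht (solM Q r nu f a z u B T c) ≤ r * (r * (T + r * mu r nu + 1)) :=
  (ht_kerI_le _ _ _ _).trans (ht_basisM_le _ _ _)

theorem ht_formB_le (Q r nu : ℕ) (f : A[X]) (a z : A) (u : A[X]) (B : A[X][X][X])
    (h0 h1 : A[X][X]) (c : ℕ) :
    ht (formB Q r nu f a z u B h0 h1 c) ≤ 2 * (r * (r * (mB r nu + r * mu r nu + 1))) := by
  refine (ht_form_le _).trans (Nat.mul_le_mul_left _ ?_)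
  have h := (ht_kerI_le Q (idx2 (r - 1) r) (condB r f z h0 h1) _).trans
    (ht_solM_le Q r nu f a z u B (mB r nu) c)
  exact ht_map_le ((length_le_ht _).trans h) fun H hH =>
    (ht_coeff_le _ _).trans ((ht_le_of_mem hH).trans h)

theorem ht_uB_le (Q r nu : ℕ) (f : A[X]) (z : A) (B : A[X][X][X]) :
    ht (uB Q r nu f z B) ≤ r * mu r nu + 1 := by
  rw [ht_poly_eq]
  exact (natDegree_modByMonic_le _ (monic_X_pow _)).trans (natDegree_X_pow_le _)

/-- the bound for the height of the result of a division step -/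
def htB (r nu : ℕ) : ℕ := 2 * (r * (r * (mB r nu + r * mu r nu + 1))) + (r * mu r nu + 1)

theorem ht_stB_le (Q r nu : ℕ) (f : A[X]) (a z : A) (u : A[X]) (B : A[X][X][X])
    (h0 h1 : A[X][X]) : ht (stB Q r nu f a z u B h0 h1) ≤ htB r nu := by
  refine ht_pair_le.2 ⟨ht_pick_map_le (fun _ _ => ?_) fun _ _ => ?_,
    ht_pick_map_le (fun _ _ => ?_) fun _ _ => ?_⟩
  · rw [ht_C, ht_eq_zero]
  · exact (ht_uB_le _ _ _ _ _ _).trans (Nat.le_add_left _ _)
  · rw [ht_C, ht_C, ht_C, ht_eq_zero]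
  · exact (ht_formB_le _ _ _ _ _ _ _ _ _ _ _).trans (Nat.le_add_right _ _)

end Ht

/-! ### Polynomial time -/

variable {α : Type} [Enc α] {A : α → Type} [∀ a, CommRing (A a)] [∀ a, Code (A a)]
  {Q r nu : α → ℕ} {f u : ∀ a, (A a)[X]} {x z g : ∀ a, A a} {B : ∀ a, (A a)[X][X][X]}

@[fun_prop]
theorem dpt_idx2 {m n : α → ℕ} (hm : DPT m) (hmb : PBd m) (hn : DPT n) (hnb : PBd n) :
    DPT (fun a => idx2 (m a) (n a)) := by
  unfold idx2
  fun_prop

@[fun_prop]
theorem dpt_idx3 {l m n : α → ℕ} (hl : DPT l) (hlb : PBd l) (hm : DPT m) (hmb : PBd m) (hn : DPT n)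
    (hnb : PBd n) : DPT (fun a => idx3 (l a) (m a) (n a)) := by
  unfold idx3
  fun_prop

@[fun_prop]
theorem pbd_idx2_fst {m n : α → ℕ} {i : ∀ a, {i // i ∈ idx2 (m a) (n a)}} (hm : PBd m) :
    PBd (fun a => (i a).1.1) := hm.mono fun a => (mem_idx2_pt.1 (i a).2).1.le

@[fun_prop]
theorem pbd_idx2_snd {m n : α → ℕ} {i : ∀ a, {i // i ∈ idx2 (m a) (n a)}} (hn : PBd n) :
    PBd (fun a => (i a).1.2) := hn.mono fun a => (mem_idx2_pt.1 (i a).2).2.le

@[fun_prop]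
theorem pbd_idx3_fst {l m n : α → ℕ} {i : ∀ a, {i // i ∈ idx3 (l a) (m a) (n a)}} (hl : PBd l) :
    PBd (fun a => (i a).1.1) := hl.mono fun a => (mem_idx3_pt.1 (i a).2).1.le

@[fun_prop]
theorem dpt_mu (hr : DPT r) (hnu : DPT nu) : DPT (fun a => mu (r a) (nu a)) := by
  unfold mu
  fun_prop

@[fun_prop]
theorem pbd_mu (hr : PBd r) (hnu : PBd nu) : PBd (fun a => mu (r a) (nu a)) := by
  unfold mu
  fun_prop

@[fun_prop]
theorem dpt_mB (hr : DPT r) (hnu : DPT nu) : DPT (fun a => mB (r a) (nu a)) := by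
  unfold mB
  fun_prop

@[fun_prop]
theorem pbd_mB (hr : PBd r) (hnu : PBd nu) : PBd (fun a => mB (r a) (nu a)) := by
  unfold mB
  fun_prop

@[fun_prop]
theorem pbd_htB (hr : PBd r) (hnu : PBd nu) : PBd (fun a => htB (r a) (nu a)) := by
  unfold htB
  fun_prop

@[fun_prop]
theorem dpt_mons {m : α → ℕ} (hA : PTRing A) (hr : DPT r) (hrb : PBd r) (hnu : DPT nu)
    (hm : DPT m) (hmb : PBd m) : DPT (fun a => Cv.mons (r a) (nu a) (m a) (A a)) := by
  unfold Cv.mons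
  fun_prop

@[fun_prop]
theorem dpt_red {G : ∀ a, (A a)[X][X]} (hA : PTRing A) (hr : DPT r) (hrb : PBd r) (hf : DPT f)
    (hG : DPT G) : DPT (fun a => red (r a) (f a) (G a)) := by
  unfold red
  fun_prop

@[fun_prop]
theorem dpt_tw {G : ∀ a, (A a)[X][X]} (hA : PTRing A) (hz : DPT z) (hG : DPT G) :
    DPT (fun a => tw (z a) (G a)) := by
  unfold tw
  fun_prop

@[fun_prop]
theorem dpt_twW (hA : PTRing A) (hz : DPT z) (hB : DPT B) : DPT (fun a => twW (z a) (B a)) := by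
  unfold twW
  fun_prop

@[fun_prop]
theorem dpt_basisM {T : α → ℕ} (hA : PTRing A) (hr : DPT r) (hrb : PBd r) (hnu : DPT nu)
    (hnub : PBd nu) (hT : DPT T) (hTb : PBd T) : DPT (fun a => basisM (A a) (r a) (nu a) (T a)) := by
  unfold basisM
  fun_prop

@[fun_prop]
theorem dpt_formInf (hA : PTRing A) (hnu : DPT nu) (hnub : PBd nu) :
    DPT (fun a => formInf (A a) (nu a)) := by
  unfold formInf
  fun_prop

@[fun_prop]
theorem dpt_formRam (hA : PTRing A) (hnu : DPT nu) (hnub : PBd nu) (hx : DPT x) :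
    DPT (fun a => formRam (nu a) (x a)) := by
  unfold formRam
  fun_prop

@[fun_prop]
theorem dpt_init (hA : PTRing A) (hr : DPT r) (hrb : PBd r) (hnu : DPT nu) (hnub : PBd nu)
    (hx : DPT x) : DPT (fun a => init (r a) (nu a) (x a)) := by
  unfold init
  fun_prop

variable [∀ a, HtZero (A a)]

@[fun_prop]
theorem dpt_nmA {G : ∀ a, (A a)[X][X]} (hA : PTRing A) (hr : DPT r) (hrb : PBd r) (hz : DPT z)
    (hG : DPT G) : DPT (fun a => nmA (r a) (z a) (G a)) := by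
  unfold nmA
  fun_prop

@[fun_prop]
theorem dpt_piW {l : α → ℕ} (hA : PTRing A) (hr : DPT r) (hrb : PBd r) (hz : DPT z)
    (hB : DPT B) (hl : DPT l) : DPT (fun a => piW (r a) (z a) (B a) (l a)) := by
  unfold piW
  fun_prop

@[fun_prop]
theorem dpt_cstr {v p : ∀ a, (A a)[X]} {N : α → ℕ} (hA : PTRing A) (hQ : DPT Q) (hv : DPT v)
    (hN : DPT N) (hNb : PBd N) (hp : DPT p) :
    DPT (fun a => cstr (divAny (Q a)) (v a) (N a) (p a)) := by
  unfold cstr
  fun_prop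

@[fun_prop]
theorem dpt_condM {T c : α → ℕ} {i : α → ℕ × ℕ × ℕ} {H : ∀ a, (A a)[X][X][X]} (hA : PTRing A)
    (hQ : DPT Q) (hr : DPT r) (hrb : PBd r) (hnu : DPT nu) (hnub : PBd nu) (hf : DPT f)
    (hx : DPT x) (hz : DPT z) (hu : DPT u) (hB : DPT B) (hT : DPT T) (hTb : PBd T) (hc : DPT c)
    (hcb : PBd c) (hi : DPT i) (hib : PBd (fun a => (i a).1)) (hH : DPT H) :
    DPT (fun a => condM (divAny (Q a)) (r a) (nu a) (f a) (x a) (z a) (u a) (B a) (T a) (c a)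
      (i a) (H a)) := by
  unfold condM
  fun_prop

theorem ptalg2 (hA : PTRing A) : PTAlg A (fun a => (A a)[X][X]) :=
  PTAlg.poly hA.poly (PTAlg.poly hA (PTAlg.self hA))

theorem ptalg3 (hA : PTRing A) : PTAlg A (fun a => (A a)[X][X][X]) :=
  PTAlg.poly hA.poly.poly (ptalg2 hA)

@[fun_prop]
theorem dpt_solM {T c : α → ℕ} (hA : PTRing A)
    (hQ : DPT Q) (hr : DPT r) (hrb : PBd r) (hnu : DPT nu) (hnub : PBd nu) (hf : DPT f)
    (hx : DPT x) (hz : DPT z) (hu : DPT u) (hB : DPT B) (hT : DPT T) (hTb : PBd T) (hc : DPT c)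
    (hcb : PBd c) :
    DPT (fun a => solM (Q a) (r a) (nu a) (f a) (x a) (z a) (u a) (B a) (T a) (c a)) :=
  dpt_kerI hA (by fun_prop) (ptalg3 hA) hQ (by fun_prop) (by fun_prop) (by fun_prop)

@[fun_prop]
theorem dpt_condR {rho : ∀ a, (A a)[X]} {i : α → ℕ × ℕ} {H : ∀ a, (A a)[X][X][X]} (hA : PTRing A)
    (hr : DPT r) (hrb : PBd r) (hf : DPT f) (hx : DPT x) (hz : DPT z) (hrho : DPT rho)
    (hi : DPT i) (hib : PBd (fun a => (i a).1)) (hH : DPT H) :
    DPT (fun a => condR (r a) (f a) (x a) (z a) (rho a) (i a) (H a)) := by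
  unfold condR
  fun_prop

@[fun_prop]
theorem dpt_testA {w : ∀ a, (A a)[X]} {H : ∀ a, (A a)[X][X][X]} (hA : PTRing A) (hQ : DPT Q)
    (hr : DPT r) (hrb : PBd r) (hf : DPT f) (hz : DPT z) (hw : DPT w) (hH : DPT H) :
    DPT (fun a => testA (Q a) (r a) (f a) (z a) (w a) (H a)) := by
  unfold testA
  fun_prop

@[fun_prop]
theorem dpt_candA {rho : ∀ a, (A a)[X]} {c : α → ℕ} (hA : PTRing A)
    (hQ : DPT Q) (hr : DPT r) (hrb : PBd r) (hnu : DPT nu) (hnub : PBd nu) (hf : DPT f)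
    (hx : DPT x) (hz : DPT z) (hu : DPT u) (hB : DPT B) (hrho : DPT rho) (hc : DPT c)
    (hcb : PBd c) :
    DPT (fun a => candA (Q a) (r a) (nu a) (f a) (x a) (z a) (u a) (B a) (rho a) (c a)) :=
  dpt_kerI hA (by fun_prop) (ptalg3 hA) hQ (by fun_prop) (by fun_prop) (by fun_prop)

@[fun_prop]
theorem dpt_stA {rho : ∀ a, ℕ → (A a)[X]} (hA : PTRing A)
    (hQ : DPT Q) (hr : DPT r) (hrb : PBd r) (hnu : DPT nu) (hnub : PBd nu) (hf : DPT f)
    (hx : DPT x) (hz : DPT z) (hg : DPT g) (hu : DPT u) (hB : DPT B)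
    (hrho : DPT (fun p : Σ a, {m // m ∈ List.range (r a)} => rho p.1 p.2.1)) :
    DPT (fun a => stA (Q a) (r a) (nu a) (f a) (x a) (z a) (g a) (u a) (B a) (rho a)) := by
  have h1 : DPT (fun p : Σ a, {i // i ∈ idx2 (r a) (r a * (r a * nu a) + 1)} => rho p.1 p.2.1.1) :=
    DPT.fnLt rho hrho (by fun_prop) (by fun_prop) fun p => (mem_idx2_pt.1 p.2.2).1
  have h2 : DPT (fun p : Σ a, {i // i ∈ idx2 (r a) (r a * (r a * nu a) + 1)} =>
      candA (Q p.1) (r p.1) (nu p.1) (f p.1) (x p.1) (z p.1) (u p.1) (B p.1) (rho p.1 p.2.1.1)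
        p.2.1.2) :=
    dpt_candA (by fun_prop) (by fun_prop) (by fun_prop) (by fun_prop) (by fun_prop) (by fun_prop)
      (by fun_prop) (by fun_prop) (by fun_prop) (by fun_prop) (by fun_prop) h1 (by fun_prop)
      (by fun_prop)
  exact dpt_pick (by fun_prop) (DPT.flatMap (by fun_prop) (DPT.map h2 (by fun_prop)))

@[fun_prop]
theorem dpt_condB {h0 h1 : ∀ a, (A a)[X][X]} {i : α → ℕ × ℕ} {H : ∀ a, (A a)[X][X][X]}
    (hA : PTRing A) (hr : DPT r) (hrb : PBd r) (hf : DPT f) (hz : DPT z) (hh0 : DPT h0)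
    (hh1 : DPT h1) (hi : DPT i) (hH : DPT H) :
    DPT (fun a => condB (r a) (f a) (z a) (h0 a) (h1 a) (i a) (H a)) := by
  unfold condB
  fun_prop

@[fun_prop]
theorem dpt_formB {h0 h1 : ∀ a, (A a)[X][X]} {c : α → ℕ} (hA : PTRing A)
    (hQ : DPT Q) (hr : DPT r) (hrb : PBd r) (hnu : DPT nu) (hnub : PBd nu) (hf : DPT f)
    (hx : DPT x) (hz : DPT z) (hu : DPT u) (hB : DPT B) (hh0 : DPT h0) (hh1 : DPT h1) (hc : DPT c)
    (hcb : PBd c) :
    DPT (fun a => formB (Q a) (r a) (nu a) (f a) (x a) (z a) (u a) (B a) (h0 a) (h1 a) (c a)) := by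
  have h : DPT (fun a => kerI (Q a) (idx2 (r a - 1) (r a)) (condB (r a) (f a) (z a) (h0 a) (h1 a))
      (solM (Q a) (r a) (nu a) (f a) (x a) (z a) (u a) (B a) (mB (r a) (nu a)) (c a))) :=
    dpt_kerI hA (by fun_prop) (ptalg3 hA) hQ (by fun_prop) (by fun_prop) (by fun_prop)
  exact dpt_form (by fun_prop) (DPT.map h (by fun_prop))

@[fun_prop]
theorem dpt_psB (hA : PTRing A) (hr : DPT r) (hrb : PBd r) (hf : DPT f) (hz : DPT z)
    (hB : DPT B) : DPT (fun a => psB (r a) (f a) (z a) (B a)) := by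
  unfold psB
  fun_prop

@[fun_prop]
theorem dpt_uB (hA : PTRing A) (hQ : DPT Q) (hr : DPT r) (hrb : PBd r) (hnu : DPT nu)
    (hnub : PBd nu) (hf : DPT f) (hz : DPT z) (hB : DPT B) :
    DPT (fun a => uB (Q a) (r a) (nu a) (f a) (z a) (B a)) := by
  unfold uB
  fun_prop

@[fun_prop]
theorem dpt_testB (hA : PTRing A) (hQ : DPT Q) (hr : DPT r) (hrb : PBd r) (hnu : DPT nu)
    (hnub : PBd nu) (hf : DPT f) (hz : DPT z) (hB : DPT B) :
    DPT (fun a => testB (Q a) (r a) (nu a) (f a) (z a) (B a)) := by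
  unfold testB
  fun_prop

@[fun_prop]
theorem dpt_stB {h0 h1 : ∀ a, (A a)[X][X]} (hA : PTRing A)
    (hQ : DPT Q) (hr : DPT r) (hrb : PBd r) (hnu : DPT nu) (hnub : PBd nu) (hf : DPT f)
    (hx : DPT x) (hz : DPT z) (hu : DPT u) (hB : DPT B) (hh0 : DPT h0) (hh1 : DPT h1) :
    DPT (fun a => stB (Q a) (r a) (nu a) (f a) (x a) (z a) (u a) (B a) (h0 a) (h1 a)) := by
  unfold stB
  fun_prop

@[fun_prop]
theorem dpt_cf {M j l : α → ℕ} (hM : DPT M) (hj : DPT j) (hjb : PBd j) (hl : DPT l)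
    (hlb : PBd l) : DPT (fun a => Cv.cf (M a) (j a) (l a)) := by
  unfold Cv.cf
  fun_prop

theorem cf_le (M j l : ℕ) : Cv.cf M j l ≤ M + 1 := by
  unfold Cv.cf
  rcases Nat.eq_zero_or_pos M with rfl | h
  · rcases l with _ | l <;> simp
  · exact (Nat.mod_lt _ h).le.trans (Nat.le_succ _)

@[fun_prop]
theorem pbd_cf {M j l : α → ℕ} (hM : PBd M) : PBd (fun a => Cv.cf (M a) (j a) (l a)) :=
  (hM.add (PBd.const 1)).mono fun _ => cf_le _ _ _

@[fun_prop]
theorem dpt_cs {M j : α → ℕ} (hM : DPT M) (hj : DPT j) (hjb : PBd j) :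
    DPT (fun a => Cv.cs (M a) (j a)) := by
  unfold Cv.cs
  fun_prop

@[fun_prop]
theorem pbd_cs {M j : α → ℕ} (hM : PBd M) (hj : DPT j) (hjb : PBd j) :
    PBd (fun a => Cv.cs (M a) (j a)) := by
  unfold Cv.cs
  fun_prop

@[fun_prop]
theorem dpt_formW {M j : α → ℕ} (hA : PTRing A) (hM : DPT M) (hMb : PBd M) (hz : DPT z)
    (hB : DPT B) (hj : DPT j) (hjb : PBd j) : DPT (fun a => formW (M a) (z a) (B a) (j a)) := by
  unfold formW
  fun_prop

@[fun_prop]
theorem dpt_formT (hA : PTRing A) (hr : DPT r) (hrb : PBd r) (hz : DPT z) (hB : DPT B) :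
    DPT (fun a => formT (r a) (z a) (B a)) := by
  unfold formT
  fun_prop

@[fun_prop]
theorem dpt_condF {d m : α → ℕ} {i : α → ℕ × ℕ} {G : ∀ a, (A a)[X][X]} (hA : PTRing A)
    (hQ : DPT Q) (hr : DPT r) (hrb : PBd r) (hnu : DPT nu) (hf : DPT f) (hu : DPT u) (hB : DPT B)
    (hd : DPT d) (hdb : PBd d) (hm : DPT m) (hmb : PBd m) (hi : DPT i) (hG : DPT G) :
    DPT (fun a => condF (divAny (Q a)) (r a) (nu a) (f a) (u a) (B a) (d a) (m a) (i a) (G a)) := by
  unfold condF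
  fun_prop

@[fun_prop]
theorem dpt_solF {d m : α → ℕ} (hA : PTRing A) (hQ : DPT Q) (hr : DPT r) (hrb : PBd r)
    (hnu : DPT nu) (hf : DPT f) (hz : DPT z) (hu : DPT u) (hB : DPT B)
    (hd : DPT d) (hdb : PBd d) (hm : DPT m) (hmb : PBd m) :
    DPT (fun a => solF (Q a) (r a) (nu a) (f a) (z a) (u a) (B a) (d a) (m a)) :=
  dpt_kerI hA (by fun_prop) (ptalg2 hA) hQ (by fun_prop) (by fun_prop) (by fun_prop)

end Vale.Agent.P319.Crv
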