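import Vale.Agent.P319.Alg.TowerDef
import Vale.Agent.P319.Fin0
import Vale.Agent.P319.Alg.StepPT

/-!
P319: the splitting algorithm of `Alg/Curve` is computable in polynomial time.
-/

set_option linter.unusedSectionVars false
set_option maxSynthPendingDepth 6

open Polynomial

namespace Vale.Agent.P319.Crv

open Vale.Agent.Lib.PolyTime hiding C P
open Vale.Agent.Lib.Dep Gen

variable {α : Type} [Enc α] {A : α → Type} [∀ a, CommRing (A a)] [∀ a, Code (A a)]
  [∀ a, HtZero (A a)] {Q r nu e : α → ℕ} {f : ∀ a, (A a)[X]} {x z g : ∀ a, A a}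

@[fun_prop]
theorem dpt_rootPoly {w : ∀ a, (A a)[X]} (hA : PTRing A) (hQ : DPT Q) (hr : DPT r) (hrb : PBd r)
    (hf : DPT f) (hg : DPT g) (hw : DPT w) :
    DPT (fun a => rootPoly (Q a) (r a) (f a) (g a) (w a)) := by
  unfold rootPoly
  fun_prop

@[fun_prop]
theorem dpt_trA {y : ∀ a, AdjoinRoot (mon (f a))} (hA : PTRing A) (hf : DPT f) (hy : DPT y) :
    DPT (fun a => trA (f a) (y a)) := by
  unfold trA
  fun_prop

@[fun_prop]
theorem dpt_nrm3 {B : ∀ a, (AdjoinRoot (mon (f a)))[X][X][X]} (hA : PTRing A) (hQ : DPT Q)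
    (hf : DPT f) (hB : DPT B) : DPT (fun a => nrm3 (Q a) (f a) (B a)) := by
  unfold nrm3
  fun_prop

@[fun_prop]
theorem dpt_stA' {s : ∀ a, (A a)[X] × (A a)[X][X][X]} (hA : PTRing A) (hQ : DPT Q) (hr : DPT r)
    (hrb : PBd r) (hn : DPT nu) (hnb : PBd nu) (hf : DPT f) (hx : DPT x) (hz : DPT z) (hg : DPT g)
    (hs : DPT s) : DPT (fun a => stA' (Q a) (r a) (nu a) (f a) (x a) (z a) (g a) (s a)) := by
  unfold stA'
  fun_prop

@[fun_prop]
theorem dpt_step {s : ∀ a, (A a)[X] × (A a)[X][X][X]} (hA : PTRing A) (hQ : DPT Q) (hr : DPT r)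
    (hrb : PBd r) (hn : DPT nu) (hnb : PBd nu) (hf : DPT f) (hx : DPT x) (hz : DPT z) (hg : DPT g)
    (hs : DPT s) : DPT (fun a => step (Q a) (r a) (nu a) (f a) (x a) (z a) (g a) (s a)) := by
  unfold step
  fun_prop

@[fun_prop]
theorem dpt_chain {j : α → ℕ} (hA : PTRing A) (hQ : DPT Q) (hr : DPT r)
    (hrb : PBd r) (hn : DPT nu) (hnb : PBd nu) (hf : DPT f) (hx : DPT x) (hz : DPT z) (hg : DPT g)
    (hj : DPT j) (hjb : PBd j) :
    DPT (fun a => chain (Q a) (r a) (nu a) (f a) (x a) (z a) (g a) (j a)) :=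
  DPT.foldl_inv (by fun_prop) (by fun_prop) (by fun_prop) (by fun_prop)
    (b := fun a => max (ht (init (r a) (nu a) (x a))) (htB (r a) (nu a))) (by fun_prop)
    (fun _ => le_max_left _ _) fun _ _ _ _ _ => (ht_stB_le ..).trans (le_max_right _ _)

@[fun_prop]
theorem dpt_chainU (hA : PTRing A) (hQ : DPT Q) (hr : DPT r) (hrb : PBd r) (hn : DPT nu)
    (hnb : PBd nu) (he : DPT e) (heb : PBd e) (hf : DPT f) (hz : DPT z) (hg : DPT g) :
    DPT (fun a => chainU (Q a) (r a) (nu a) (e a) (f a) (z a) (g a)) := by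
  unfold chainU
  fun_prop

@[fun_prop]
theorem dpt_finU (hA : PTRing A) (hQ : DPT Q) (hr : DPT r) (hrb : PBd r) (hn : DPT nu)
    (hnb : PBd nu) (he : DPT e) (heb : PBd e) (hf : DPT f) (hz : DPT z) (hg : DPT g) :
    DPT (fun a => finU (Q a) (r a) (nu a) (e a) (f a) (z a) (g a)) := by
  unfold finU
  fun_prop

@[fun_prop]
theorem dpt_finS (hA : PTRing A) (hQ : DPT Q) (hr : DPT r) (hrb : PBd r) (hn : DPT nu)
    (hnb : PBd nu) (he : DPT e) (heb : PBd e) (hf : DPT f) (hz : DPT z) (hg : DPT g) :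
    DPT (fun a => finS (Q a) (r a) (nu a) (e a) (f a) (z a) (g a)) := by
  unfold finS
  fun_prop

@[fun_prop]
theorem dpt_finD (hr : DPT r) (hn : DPT nu) (he : DPT e) (heb : PBd e) :
    DPT (fun a => finD (r a) (nu a) (e a)) := by
  unfold finD
  fun_prop

@[fun_prop]
theorem pbd_finD (hr : PBd r) (hn : PBd nu) : PBd (fun a => finD (r a) (nu a) (e a)) := by
  unfold finD
  fun_prop

@[fun_prop]
theorem dpt_finM (hr : DPT r) (hn : DPT nu) (he : DPT e) (heb : PBd e) :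
    DPT (fun a => finM (r a) (nu a) (e a)) := by
  unfold finM
  fun_prop

@[fun_prop]
theorem pbd_finM (hr : PBd r) (hn : PBd nu) : PBd (fun a => finM (r a) (nu a) (e a)) := by
  unfold finM
  fun_prop

@[fun_prop]
theorem dpt_vals {U : ∀ a, (A a)[X]} {E : α → ℕ} {G : ∀ a, (A a)[X][X]} (hA : PTRing A)
    (hQ : DPT Q) (hf : DPT f) (hU : DPT U) (hE : DPT E) (hEb : PBd E) (hG : DPT G) :
    DPT (fun a => vals (Q a) (f a) (U a) (E a) (G a)) := by
  unfold vals
  fun_prop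

@[fun_prop]
theorem dpt_candV {h : ∀ a, AdjoinRoot (mon (f a))} (hA : PTRing A) (hQ : DPT Q) (hr : DPT r)
    (hrb : PBd r) (hf : DPT f) (hz : DPT z) (hg : DPT g) (hh : DPT h) :
    DPT (fun a => candV (Q a) (r a) (f a) (z a) (g a) (h a)) := by
  unfold candV
  fun_prop

@[fun_prop]
theorem dpt_final {U : ∀ a, (A a)[X]} {S : ∀ a, (A a)[X][X][X]} {d m : α → ℕ} (hA : PTRing A)
    (hQ : DPT Q) (hr : DPT r) (hrb : PBd r) (hn : DPT nu) (hnb : PBd nu) (he : DPT e) (heb : PBd e)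
    (hre : PBd fun a => r a ^ e a) (hf : DPT f) (hz : DPT z) (hg : DPT g) (hU : DPT U) (hS : DPT S)
    (hd : DPT d) (hdb : PBd d) (hm : DPT m) (hmb : PBd m) :
    DPT (fun a => final (Q a) (r a) (nu a) (e a) (f a) (z a) (g a) (U a) (S a) (d a) (m a)) := by
  obtain ⟨M, hM⟩ : ∃ M : α → ℕ, ∀ a, r a ^ e a = M a := ⟨_, fun _ => rfl⟩
  have h1 : DPT M := (DPT.natPow hr he heb).congr hM
  have h2 : PBd M := hre.mono fun a => (hM a).ge
  simp only [final, hM]
  fun_prop

@[fun_prop]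
theorem dpt_curve (hA : PTRing A) (hQ : DPT Q) (hr : DPT r) (hrb : PBd r) (hn : DPT nu)
    (hnb : PBd nu) (he : DPT e) (heb : PBd e) (hre : PBd fun a => r a ^ e a) (hf : DPT f)
    (hz : DPT z) (hg : DPT g) :
    DPT (fun a => curve (Q a) (r a) (nu a) (e a) (f a) (z a) (g a)) :=
  dpt_final hA hQ hr hrb hn hnb he heb hre hf hz hg (by fun_prop) (by fun_prop) (by fun_prop)
    (by fun_prop) (by fun_prop) (by fun_prop)

/-! ### The tower -/

@[fun_prop]
theorem dpt_coords {h : ∀ a, (A a)[X]} {c : ∀ a, (AdjoinRoot (mon (h a)))[X]} (hA : PTRing A)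
    (hh : DPT h) (hc : DPT c) : DPT (fun a => coords (h a) (c a)) := by
  unfold coords
  fun_prop

@[fun_prop]
theorem dpt_kum {M : α → ℕ} {h w : ∀ a, (A a)[X]} (hA : PTRing A) (hM : DPT M) (hMb : PBd M)
    (hh : DPT h) (hw : DPT w) : DPT (fun a => kum (M a) (h a) (w a)) := by
  unfold kum
  fun_prop

theorem dpt_curveT {h w m : ∀ a, (A a)[X]} (hA : PTRing A) (hQ : DPT Q) (hr : DPT r) (hrb : PBd r)
    (he : DPT e) (heb : PBd e) (hre : PBd fun a => r a ^ e a) (hh : DPT h) (hw : DPT w)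
    (hm : DPT m) : DPT (fun a => curveT (Q a) (r a) (e a) (h a) (w a) (m a)) := by
  have h1 : DPT fun a => kum (r a ^ e a) (h a) (w a) := dpt_kum hA (by fun_prop) hre hh hw
  have h2 : DPT fun a => (Q a ^ (h a).natDegree) ^ r a ^ e a :=
    DPT.natPow (by fun_prop) (by fun_prop) hre
  have key : ∀ k : ∀ a, (AdjoinRoot (mon (h a)))[X], DPT k → DPT fun a =>
      curve ((Q a ^ (h a).natDegree) ^ r a ^ e a) (r a) ((m a).natDegree / r a) (e a)
        (((m a).map (AdjoinRoot.of (mon (h a)))).map (AdjoinRoot.of (mon (k a))))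
        (AdjoinRoot.of (mon (k a)) (AdjoinRoot.root (mon (h a)))) (AdjoinRoot.root (mon (k a))) :=
    fun k hk => dpt_curve (by fun_prop) h2 hr hrb (by fun_prop) (by fun_prop) he heb hre
      (by fun_prop) (by fun_prop) (by fun_prop)
  exact key _ h1

theorem pow_padicValNat_le (r n : ℕ) : r ^ padicValNat r n ≤ n + 1 := by
  rcases Nat.eq_zero_or_pos n with h | h
  · simp [h]
  · exact (Nat.le_of_dvd h pow_padicValNat_dvd).trans (Nat.le_succ _)

@[fun_prop]
theorem dpt_curveP {h w m : ∀ a, (A a)[X]} (hA : PTRing A) (hQ : DPT Q) (hr : DPT r) (hrb : PBd r)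
    (hh : DPT h) (hw : DPT w) (hm : DPT m) :
    DPT (fun a => curveP (Q a) (r a) (h a) (w a) (m a)) := by
  have hre : PBd fun a => r a ^ padicValNat (r a) (m a).natDegree :=
    ((pbd_natDegree hm).add (PBd.const 1)).mono fun _ => pow_padicValNat_le _ _
  have h1 : DPT fun a => kum (r a ^ padicValNat (r a) (m a).natDegree) (h a) (w a) :=
    dpt_kum hA (by fun_prop) hre hh hw
  have h2 := dpt_curveT (e := fun a => padicValNat (r a) (m a).natDegree) hA hQ hr hrb
    (by fun_prop) (by fun_prop) hre hh hw hm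
  have key : ∀ (k : ∀ a, (AdjoinRoot (mon (h a)))[X]) (L : ∀ a, List (AdjoinRoot (mon (k a)))[X]),
      DPT k → DPT L → DPT fun a => ((L a).flatMap (coords (k a))).flatMap (coords (h a)) :=
    fun k L hk hL => by fun_prop
  exact key _ _ h1 h2

/-- The form used by the classical part. -/
theorem dpt_curveP_prime :
    DPT (fun x : Σ q : Pr, (ZMod q.1)[X] × (ZMod q.1)[X] × (ZMod q.1)[X] =>
      curveP x.1.1 x.2.2.2.natDegree.minFac x.2.1 x.2.2.1 x.2.2.2) := by
  fun_prop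

end Vale.Agent.P319.Crv
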