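import Vale.Agent.P319.Alg.Gen
import Mathlib.RingTheory.MvPolynomial.Symmetric.NewtonIdentities
import Mathlib.RingTheory.RootsOfUnity.PrimitiveRoots
import Mathlib.Algebra.Field.ZMod
import Mathlib.Data.List.GetD

/-!
P319: the meaning of the root extraction `Gen.root` and of `Gen.newton`.
-/

open Polynomial

namespace Vale.Agent.P319.Gen

namespace RootAux

variable {A k : Type} [CommRing A] [Field k] {Q : ℕ} {ψ : A →+* k}

theorem pick_cons {M : Type} [CommRing M] (c : M × M) (l : List (M × M)) :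
    pick (c :: l) = c.1 * c.2 + (1 - c.1) * pick l := by
  simp [pick, List.foldl_append]

theorem pick_some (l : List (A × A)) (h01 : ∀ c ∈ l, ψ c.1 = 0 ∨ ψ c.1 = 1)
    (hex : ∃ c ∈ l, ψ c.1 = 1) : ∃ c ∈ l, ψ c.1 = 1 ∧ ψ (pick l) = ψ c.2 := by
  induction l with
  | nil => simp at hex
  | cons c l ih =>
    rcases h01 c (by simp) with h0 | h1
    · obtain ⟨d, hd, hd1⟩ := hex
      have hdl : d ∈ l := by
        rcases List.mem_cons.1 hd with rfl | h
        · rw [h0] at hd1; exact absurd hd1 zero_ne_one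
        · exact h
      obtain ⟨e, he, he1, he2⟩ := ih (fun x hx => h01 x (List.mem_cons_of_mem _ hx)) ⟨d, hdl, hd1⟩
      exact ⟨e, List.mem_cons_of_mem _ he, he1, by simp [pick_cons, h0, he2]⟩
    · exact ⟨c, by simp, h1, by simp [pick_cons, h1]⟩

theorem pow_pred (h : Comp Q ψ) {x : A} (hx : ψ x ≠ 0) : ψ x ^ (Q - 1) = 1 := by
  have h3 := h.three
  have h1 := h.fix x
  obtain ⟨n, rfl⟩ : ∃ n, Q = n + 1 := ⟨Q - 1, by omega⟩
  rw [pow_succ] at h1
  simpa using mul_right_cancel₀ hx (h1.trans (one_mul _).symm)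

theorem one_sub_ind (h : Comp Q ψ) (x : A) :
    (ψ x = 0 ∧ ψ (1 - ind Q x) = 1) ∨ (ψ x ≠ 0 ∧ ψ (1 - ind Q x) = 0) := by
  have h3 := h.three
  by_cases hx : ψ x = 0
  · left
    refine ⟨hx, ?_⟩
    have : Q - 1 ≠ 0 := by omega
    simp [ind, hx, this]
  · right
    exact ⟨hx, by simp [ind, pow_pred h hx]⟩

theorem rv_ro {r : ℕ} (Q : ℕ) : r ^ rv Q r * ro Q r = Q - 1 :=
  Nat.mul_div_cancel' pow_padicValNat_dvd

theorem rv_pos {r : ℕ} (hQ : 3 ≤ Q) (hr : r.Prime) (hd : r ∣ Q - 1) : 1 ≤ rv Q r := by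
  have := Fact.mk hr
  exact one_le_padicValNat_of_dvd (by omega) hd

theorem not_dvd_ro {r : ℕ} (hQ : 3 ≤ Q) (hr : r.Prime) : ¬ r ∣ ro Q r := by
  have := Fact.mk hr
  intro hd
  apply pow_succ_padicValNat_not_dvd (p := r) (n := Q - 1) (by omega)
  have h1 : r ^ rv Q r * r ∣ r ^ rv Q r * ro Q r := Nat.mul_dvd_mul_left _ hd
  rw [rv_ro] at h1
  rw [pow_succ]
  exact h1

theorem dvd_rc {r : ℕ} (hQ : 3 ≤ Q) (hr : r.Prime) : r ∣ 1 + rc Q r * ro Q r := by
  have := Fact.mk hr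
  have hex : ∃ c ∈ List.range r, (1 + c * ro Q r) % r = 0 := by
    have ho : ((ro Q r : ℕ) : ZMod r) ≠ 0 := by
      rw [Ne, ZMod.natCast_eq_zero_iff]; exact not_dvd_ro hQ hr
    refine ⟨(-((ro Q r : ℕ) : ZMod r)⁻¹).val, List.mem_range.2 (ZMod.val_lt _), ?_⟩
    rw [← Nat.dvd_iff_mod_eq_zero, ← ZMod.natCast_eq_zero_iff]
    push_cast
    rw [ZMod.natCast_zmod_val, neg_mul, inv_mul_cancel₀ ho]; simp
  unfold rc
  rcases hf : (List.range r).find? (fun c => (1 + c * ro Q r) % r = 0) with _ | c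
  · rw [List.find?_eq_none] at hf
    obtain ⟨c, hc, hc'⟩ := hex
    exact absurd (by simpa using hc') (hf c hc)
  · have := List.find?_some hf
    simp only [Option.getD_some]
    exact Nat.dvd_of_mod_eq_zero (by simpa using this)

theorem div_eq {r : ℕ} (hQ : 3 ≤ Q) (hr : r.Prime) (hd : r ∣ Q - 1) :
    (Q - 1) / r = ro Q r * r ^ (rv Q r - 1) := by
  have h1 := rv_pos hQ hr hd
  rw [← rv_ro (r := r) Q]
  obtain ⟨n, hn⟩ : ∃ n, rv Q r = n + 1 := ⟨rv Q r - 1, by omega⟩
  rw [hn, Nat.add_sub_cancel, pow_succ, mul_right_comm, Nat.mul_div_cancel _ hr.pos, mul_comm]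

/-- one step -/
theorem rootFac_spec (h : Comp Q ψ) {r v i : ℕ} (hr : r.Prime) (hi : i + 2 ≤ v) {G w : A}
    (hG : IsPrimitiveRoot (ψ G ^ r ^ (v - 1)) r) (hw : ψ w ^ r ^ (v - 1 - i) = 1) :
    (ψ w * ψ (rootFac Q r v G w i) ^ r) ^ r ^ (v - 1 - (i + 1)) = 1 := by
  have : NeZero r := ⟨hr.ne_zero⟩
  have e1 : v - 1 - (i + 1) = v - 2 - i := by omega
  have e2 : v - 1 - i = v - 2 - i + 1 := by omega
  have e3 : v - 1 = i + 1 + (v - 2 - i) := by omega
  rw [e1]
  have hu : ((ψ w ^ r ^ (v - 2 - i))⁻¹) ^ r = 1 := by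
    rw [inv_pow, ← pow_mul, ← pow_succ, ← e2, hw, inv_one]
  have hu0 : ψ w ^ r ^ (v - 2 - i) ≠ 0 := by
    intro h0
    rw [h0, inv_zero, zero_pow hr.ne_zero] at hu
    exact zero_ne_one hu
  obtain ⟨c, hc, hc'⟩ := hG.eq_pow_of_pow_eq_one hu
  obtain ⟨d, hd, hd1, hd2⟩ := pick_some (ψ := ψ) ((List.range r).map fun c =>
      (1 - ind Q ((w * G ^ (c * r ^ (i + 1))) ^ (r ^ (v - 2 - i)) - 1), G ^ (c * r ^ i)))
    (by
      intro x hx
      obtain ⟨c, -, rfl⟩ := List.mem_map.1 hx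
      rcases one_sub_ind h ((w * G ^ (c * r ^ (i + 1))) ^ (r ^ (v - 2 - i)) - 1) with h1 | h1
      · exact Or.inr h1.2
      · exact Or.inl h1.2)
    (by
      refine ⟨_, List.mem_map.2 ⟨c, List.mem_range.2 hc, rfl⟩, ?_⟩
      rcases one_sub_ind h ((w * G ^ (c * r ^ (i + 1))) ^ (r ^ (v - 2 - i)) - 1) with h1 | h1
      · exact h1.2
      · exfalso
        apply h1.1
        rw [map_sub, map_one, map_pow, map_mul, map_pow, mul_pow, ← pow_mul, mul_assoc, ← pow_add,
          ← e3, mul_comm c, pow_mul, hc', mul_inv_cancel₀ hu0, sub_self])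
  obtain ⟨c', -, rfl⟩ := List.mem_map.1 hd
  rcases one_sub_ind h ((w * G ^ (c' * r ^ (i + 1))) ^ (r ^ (v - 2 - i)) - 1) with h1 | h1
  · have h2 := h1.1
    rw [map_sub, map_one, map_pow, map_mul, map_pow, sub_eq_zero] at h2
    unfold rootFac
    rw [hd2, map_pow, ← pow_mul, mul_assoc, ← pow_succ]
    exact h2
  · rw [h1.2] at hd1
    exact absurd hd1 zero_ne_one

theorem foldl_range_inv {S : Type} (F : S → ℕ → S) (P : ℕ → S → Prop) (s : S) (n : ℕ)
    (h0 : P 0 s) (hs : ∀ i < n, ∀ t, P i t → P (i + 1) (F t i)) :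
    P n ((List.range n).foldl F s) := by
  induction n with
  | zero => simpa using h0
  | succ n ih =>
    rw [List.range_succ, List.foldl_append]
    exact hs n (by omega) _ (ih fun i hi => hs i (by omega))

end RootAux

open RootAux

variable {A k : Type} [CommRing A] [Field k] {Q : ℕ} {ψ : A →+* k}

/-- root extraction, for elements satisfying Euler's criterion -/
theorem root_spec_of_pow (h : Comp Q ψ) {r : ℕ} (hr : r.Prime) (hd : r ∣ Q - 1) {g z : A}
    (hg0 : ψ g ≠ 0) (hg : ψ g ^ ((Q - 1) / r) ≠ 1) (hz : ψ z ^ ((Q - 1) / r) = 1) :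
    ψ (root Q r g z) ^ r = ψ z := by
  have := Fact.mk hr
  have h3 := h.three
  have hv := rv_pos h3 hr hd
  have hG : IsPrimitiveRoot (ψ (g ^ ro Q r) ^ r ^ (rv Q r - 1)) r := by
    rw [map_pow, ← pow_mul, ← div_eq h3 hr hd, IsPrimitiveRoot.iff_orderOf]
    refine orderOf_eq_prime ?_ hg
    rw [← pow_mul, Nat.div_mul_cancel hd]
    exact pow_pred h hg0
  have key := foldl_range_inv (fun (s : A × A) i =>
      (s.1 * rootFac Q r (rv Q r) (g ^ ro Q r) s.2 i,
        s.2 * rootFac Q r (rv Q r) (g ^ ro Q r) s.2 i ^ r))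
    (fun i s => ψ s.1 ^ r = ψ z * ψ s.2 ∧ ψ s.2 ^ r ^ (rv Q r - 1 - i) = 1)
    (z ^ ((1 + rc Q r * ro Q r) / r), z ^ (rc Q r * ro Q r)) (rv Q r - 1)
    (by
      constructor
      · rw [map_pow, map_pow, ← pow_mul, Nat.div_mul_cancel (dvd_rc h3 hr), pow_add, pow_one]
      · rw [map_pow, ← pow_mul, Nat.sub_zero, mul_assoc, ← div_eq h3 hr hd, mul_comm, pow_mul, hz,
          one_pow])
    (by
      intro i hi t ht
      constructor
      · simp only [map_mul, map_pow, mul_pow, ht.1, mul_assoc]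
      · simp only [map_mul, map_pow]
        exact rootFac_spec h hr (by omega) hG ht.2)
  unfold root
  rw [key.1]
  have h2 := key.2
  rw [Nat.sub_self, pow_zero, pow_one] at h2
  rw [h2, mul_one]

/-- the root of zero is zero -/
theorem root_zero {B : Type} [CommRing B] {φ : A →+* B} (hQ : 3 ≤ Q) {r : ℕ} (hr : r.Prime)
    (g : A) {z : A} (hz : φ z = 0) : φ (root Q r g z) = 0 := by
  unfold root
  refine foldl_range_inv (fun (s : A × A) i =>
      (s.1 * rootFac Q r (rv Q r) (g ^ ro Q r) s.2 i,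
        s.2 * rootFac Q r (rv Q r) (g ^ ro Q r) s.2 i ^ r))
    (fun _ s => φ s.1 = 0) _ _ ?_ ?_
  · have : (1 + rc Q r * ro Q r) / r ≠ 0 :=
      (Nat.div_pos (Nat.le_of_dvd (by omega) (dvd_rc hQ hr)) hr.pos).ne'
    simp [hz, this]
  · intro i _ t ht
    simp [ht]

/-- root extraction: if `z` is the `r`-th power of an element of the field with `Q` elements -/
theorem root_spec (h : Comp Q ψ) {r : ℕ} (hr : r.Prime) (hd : r ∣ Q - 1) {g z : A}
    (hg0 : ψ g ≠ 0) (hg : ψ g ^ ((Q - 1) / r) ≠ 1) {θ : k} (hθ : θ ^ Q = θ) (hz : ψ z = θ ^ r) :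
    ψ (root Q r g z) ^ r = ψ z := by
  have h3 := h.three
  by_cases h0 : θ = 0
  · have hz0 : ψ z = 0 := by rw [hz, h0, zero_pow hr.ne_zero]
    rw [root_zero h3 hr g hz0, hz0, zero_pow hr.ne_zero]
  · refine root_spec_of_pow h hr hd hg0 hg ?_
    rw [hz, ← pow_mul, Nat.mul_div_cancel' hd]
    obtain ⟨n, rfl⟩ : ∃ n, Q = n + 1 := ⟨Q - 1, by omega⟩
    rw [pow_succ] at hθ
    simpa using mul_right_cancel₀ h0 (hθ.trans (one_mul _).symm)

/-- some `g ^ m * x` with `m < r` satisfies Euler's criterion -/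
theorem exists_pow_mul {r : ℕ} (hr : r.Prime) (hd : r ∣ Q - 1) {g x : k}
    (hg0 : g ^ (Q - 1) = 1) (hg : g ^ ((Q - 1) / r) ≠ 1) (hx : x ^ (Q - 1) = 1) :
    ∃ m < r, (g ^ m * x) ^ ((Q - 1) / r) = 1 := by
  have := Fact.mk hr
  have hG : IsPrimitiveRoot (g ^ ((Q - 1) / r)) r := by
    rw [IsPrimitiveRoot.iff_orderOf]
    refine orderOf_eq_prime ?_ hg
    rw [← pow_mul, Nat.div_mul_cancel hd, hg0]
  have hu : ((x ^ ((Q - 1) / r))⁻¹) ^ r = 1 := by
    rw [inv_pow, ← pow_mul, Nat.div_mul_cancel hd, hx, inv_one]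
  have hu0 : x ^ ((Q - 1) / r) ≠ 0 := by
    intro h0
    rw [h0, inv_zero, zero_pow hr.ne_zero] at hu
    exact zero_ne_one hu
  obtain ⟨m, hm, hm'⟩ := hG.eq_pow_of_pow_eq_one hu
  refine ⟨m, hm, ?_⟩
  rw [mul_pow, ← pow_mul, mul_comm m, pow_mul, hm', inv_mul_cancel₀ hu0]

/-! ### Naturality -/

section Nat

variable {B : Type} [CommRing B] (φ : A →+* B)

theorem map_pick' (l : List (A × A)) : φ (pick l) = pick (l.map fun c => (φ c.1, φ c.2)) := by
  induction l with
  | nil => simp [pick]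
  | cons c l ih => simp [pick_cons, ih]

theorem map_rootFac (Q r v : ℕ) (G w : A) (i : ℕ) :
    φ (rootFac Q r v G w i) = rootFac Q r v (φ G) (φ w) i := by
  simp [rootFac, map_pick', ind, List.map_map, Function.comp_def]

theorem map_root (Q r : ℕ) (g z : A) : φ (root Q r g z) = root Q r (φ g) (φ z) := by
  unfold root
  have key : ∀ (l : List ℕ) (s : A × A), (φ (l.foldl (fun (s : A × A) i =>
      (s.1 * rootFac Q r (rv Q r) (g ^ ro Q r) s.2 i,
        s.2 * rootFac Q r (rv Q r) (g ^ ro Q r) s.2 i ^ r)) s).1) = (l.foldl (fun (s : B × B) i =>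
      (s.1 * rootFac Q r (rv Q r) (φ g ^ ro Q r) s.2 i,
        s.2 * rootFac Q r (rv Q r) (φ g ^ ro Q r) s.2 i ^ r)) (φ s.1, φ s.2)).1 := by
    intro l
    induction l with
    | nil => intro s; rfl
    | cons a l ih =>
      intro s
      rw [List.foldl_cons, List.foldl_cons, ih]
      simp [map_rootFac]
  rw [key]
  simp

theorem map_newton (iv ps : ℕ → A) (n : ℕ) :
    φ (newton iv ps n) = newton (fun j => φ (iv j)) (fun j => φ (ps j)) n := by
  unfold newton
  have hg : ∀ (es : List A) (j : ℕ), φ (es.getD j 0) = (es.map φ).getD j 0 := by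
    intro es j
    rw [← map_zero φ, List.getD_map]
  have key : ∀ (l : List ℕ) (s : List A), (l.foldl (fun (es : List A) j => es ++ [iv (j + 1) *
      ∑ i ∈ Finset.range (j + 1), (-1) ^ i * es.getD (j - i) 0 * ps (i + 1)]) s).map φ =
      l.foldl (fun (es : List B) j => es ++ [φ (iv (j + 1)) *
      ∑ i ∈ Finset.range (j + 1), (-1) ^ i * es.getD (j - i) 0 * φ (ps (i + 1))]) (s.map φ) := by
    intro l
    induction l with
    | nil => intro s; rfl
    | cons a l ih =>
      intro s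
      rw [List.foldl_cons, List.foldl_cons, ih]
      simp only [List.map_append, List.map_cons, List.map_nil, map_mul, map_sum, map_pow, map_neg,
        map_one, hg]
  rw [hg, key]
  simp

end Nat

/-! ### Newton's identities -/

section Newton

variable {M σ : Type} [CommRing M] [Fintype σ]

open MvPolynomial in
theorem newton_id (x : σ → M) (j : ℕ) :
    ((j + 1 : ℕ) : M) * aeval x (esymm σ ℤ (j + 1)) = ∑ i ∈ Finset.range (j + 1),
      (-1) ^ i * aeval x (esymm σ ℤ (j - i)) * ∑ s, x s ^ (i + 1) := by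
  have h := congrArg (MvPolynomial.aeval x) (mul_esymm_eq_sum σ ℤ (j + 1))
  simp only [map_mul, map_natCast, map_pow, map_neg, map_one, map_sum, psum,
    MvPolynomial.aeval_X] at h
  rw [h, Finset.sum_filter, Finset.Nat.sum_antidiagonal_eq_sum_range_succ_mk,
    Finset.sum_range_succ, if_neg (lt_irrefl _), add_zero, Finset.mul_sum,
    ← Finset.sum_range_reflect]
  refine Finset.sum_congr rfl fun i hi => ?_
  have hi' : i < j + 1 := Finset.mem_range.1 hi
  have e1 : j + 1 - 1 - i = j - i := by omega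
  have e2 : j + 1 - (j - i) = i + 1 := by omega
  simp only [e1, e2]
  rw [if_pos (by omega), ← mul_assoc, ← mul_assoc, ← pow_add]
  have e3 : j + 1 + 1 + (j - i) = i + 2 * (j - i + 1) := by omega
  rw [e3, pow_add, pow_mul]
  simp

open MvPolynomial in
theorem newton_esymm (x : σ → M) {iv ps : ℕ → M} (n : ℕ)
    (hiv : ∀ j, 1 ≤ j → j ≤ n → iv j * (j : M) = 1)
    (hps : ∀ j, 1 ≤ j → j ≤ n → ps j = ∑ s, x s ^ j) :
    newton iv ps n = aeval x (esymm σ ℤ n) := by
  have key := foldl_range_inv (fun (es : List M) j => es ++ [iv (j + 1) *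
      ∑ i ∈ Finset.range (j + 1), (-1) ^ i * es.getD (j - i) 0 * ps (i + 1)])
    (fun j es => es = (List.range (j + 1)).map fun i => aeval x (esymm σ ℤ i)) [1] n
    (by simp)
    (by
      intro j hj es hes
      rw [List.range_succ (n := j + 1), List.map_append, ← hes]
      congr 1
      simp only [List.map_cons, List.map_nil, List.cons.injEq, and_true]
      have h1 := hiv (j + 1) (by omega) (by omega)
      have h2 : ∑ i ∈ Finset.range (j + 1), (-1) ^ i * es.getD (j - i) 0 * ps (i + 1) =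
          ((j + 1 : ℕ) : M) * aeval x (esymm σ ℤ (j + 1)) := by
        rw [newton_id]
        refine Finset.sum_congr rfl fun i hi => ?_
        have hi' : i < j + 1 := Finset.mem_range.1 hi
        rw [hps (i + 1) (by omega) (by omega), hes, List.getD_eq_getElem _ _ (by simp)]
        simp
      rw [h2, ← mul_assoc, h1, one_mul])
  unfold newton
  rw [key, List.getD_eq_getElem _ _ (by simp)]
  simp

/-- `newton` computes the product from the power sums -/
theorem newton_spec (x : σ → M) {iv ps : ℕ → M} {n : ℕ} (hn : Fintype.card σ = n)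
    (hiv : ∀ j, 1 ≤ j → j ≤ n → iv j * (j : M) = 1)
    (hps : ∀ j, 1 ≤ j → j ≤ n → ps j = ∑ s, x s ^ j) : newton iv ps n = ∏ s, x s := by
  classical
  rw [newton_esymm x n hiv hps, MvPolynomial.esymm, ← hn, ← Finset.card_univ,
    Finset.powersetCard_self]
  simp

/-- the same for a finite set of indices -/
theorem newton_spec_finset {τ : Type} (S : Finset τ) (x : τ → M) {iv ps : ℕ → M} {n : ℕ}
    (hn : S.card = n) (hiv : ∀ j, 1 ≤ j → j ≤ n → iv j * (j : M) = 1)
    (hps : ∀ j, 1 ≤ j → j ≤ n → ps j = ∑ s ∈ S, x s ^ j) : newton iv ps n = ∏ s ∈ S, x s := by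
  rw [← Finset.prod_coe_sort]
  refine newton_spec (fun s : S => x s) (by simpa using hn) hiv fun j h1 h2 => ?_
  rw [hps j h1 h2, Finset.sum_coe_sort S fun s => x s ^ j]

/-- the same after applying a homomorphism -/
theorem map_newton_spec {τ N : Type} [CommRing N] (φ : M →+* N) (S : Finset τ) (x : τ → N)
    {iv ps : ℕ → M} {n : ℕ} (hn : S.card = n) (hiv : ∀ j, 1 ≤ j → j ≤ n → φ (iv j) * (j : N) = 1)
    (hps : ∀ j, 1 ≤ j → j ≤ n → φ (ps j) = ∑ s ∈ S, x s ^ j) :
    φ (newton iv ps n) = ∏ s ∈ S, x s := by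
  rw [map_newton]
  exact newton_spec_finset S x hn hiv hps

end Newton

end Vale.Agent.P319.Gen
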