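import Mathlib.RingTheory.Polynomial.Cyclotomic.Roots
import Mathlib.RingTheory.RootsOfUnity.Lemmas
import Mathlib.Algebra.CharP.Lemmas
import Mathlib.Algebra.Polynomial.AlgebraMap
import Mathlib.Data.ZMod.Basic

/-!
P319: modules over `ℤ[ζ_r]`.  An endomorphism which fixes a generator `p0` and the elements killed
by `π = 1 - t` acts unipotently on the elements which `π ^ m` sends into `ℤ[t] p0`.
-/

open Polynomial Finset

namespace Vale.Agent.P319.Alg

/-- `1 + X + ⋯ + X ^ (r - 1)` divides the integral polynomials vanishing at a primitive root -/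
theorem geom_dvd_of_root {r : ℕ} (hr : r.Prime) {c : ℤ[X]}
    (hc : ∀ ζ : ℂ, IsPrimitiveRoot ζ r → aeval ζ c = 0) : (∑ l ∈ range r, (X : ℤ[X]) ^ l) ∣ c := by
  have : Fact r.Prime := ⟨hr⟩
  have hζ := Complex.isPrimitiveRoot_exp r hr.ne_zero
  rw [← cyclotomic_prime ℤ r, cyclotomic_eq_minpoly hζ hr.pos]
  exact minpoly.isIntegrallyClosed_dvd (hζ.isIntegral hr.pos) (hc _ hζ)

/-- `∏ (1 - X ^ a) ≡ r` modulo `1 + X + ⋯ + X ^ (r - 1)` -/
theorem geom_dvd_prod_sub {r : ℕ} (hr : r.Prime) : (∑ l ∈ range r, (X : ℤ[X]) ^ l) ∣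
    ∏ a ∈ range (r - 1), (1 - X ^ (a + 1)) - (r : ℤ[X]) := by
  refine geom_dvd_of_root hr fun ζ hζ => ?_
  obtain ⟨n, rfl⟩ : ∃ n, r = n + 1 := ⟨r - 1, by have := hr.pos; omega⟩
  have := hζ.prod_one_sub_pow_eq_order
  simp only [map_sub, map_prod, map_one, map_pow, aeval_X, map_natCast, Nat.add_sub_cancel, this]
  push_cast
  ring

/-- `r ≡ (1 - X) ^ (r - 1) ε` modulo `1 + X + ⋯ + X ^ (r - 1)` -/
theorem exists_eps {r : ℕ} (hr : r.Prime) : ∃ ε : ℤ[X],
    (∑ l ∈ range r, (X : ℤ[X]) ^ l) ∣ (1 - X) ^ (r - 1) * ε - (r : ℤ[X]) := by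
  refine ⟨∏ a ∈ range (r - 1), ∑ l ∈ range (a + 1), X ^ l, ?_⟩
  have h : ((1 : ℤ[X]) - X) ^ (r - 1) = ∏ _a ∈ range (r - 1), (1 - X) := by
    rw [prod_const, card_range]
  rw [h, ← prod_mul_distrib]
  simp only [mul_neg_geom_sum]
  exact geom_dvd_prod_sub hr

/-- `(1 - X) ^ (r - 1)` lies in the ideal of `r` and `1 + X + ⋯ + X ^ (r - 1)` -/
theorem exists_pi_pow {r : ℕ} (hr : r.Prime) : ∃ A : ℤ[X],
    (∑ l ∈ range r, (X : ℤ[X]) ^ l) ∣ (1 - X) ^ (r - 1) - (r : ℤ[X]) * A := by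
  obtain ⟨s, hs⟩ := exists_add_pow_prime_eq hr (X : ℤ[X]) (1 - X)
  have hX : ((1 : ℤ[X]) - X) ≠ 0 := fun h => by
    have := congrArg (eval 0) h
    simp at this
  refine ⟨-(X * s), ⟨1, mul_left_cancel₀ hX ?_⟩⟩
  obtain ⟨n, rfl⟩ : ∃ n, r = n + 1 := ⟨r - 1, by have := hr.pos; omega⟩
  rw [mul_one, mul_neg_geom_sum, Nat.add_sub_cancel]
  rw [add_sub_cancel, one_pow] at hs
  linear_combination -hs

variable {Q : Type} [AddCommGroup Q]

theorem aeval_eq_of_dvd {r : ℕ} {t : Module.End ℤ Q} (ht : ∑ l ∈ range r, t ^ l = 0)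
    {a b : ℤ[X]} (h : (∑ l ∈ range r, (X : ℤ[X]) ^ l) ∣ a - b) : aeval t a = aeval t b := by
  obtain ⟨c, hc⟩ := h
  rw [← sub_eq_zero, ← map_sub, hc, map_mul, map_sum]
  simp only [map_pow, aeval_X, ht, zero_mul]

theorem pow_r_eq_one {r : ℕ} {t : Module.End ℤ Q} (ht : ∑ l ∈ range r, t ^ l = 0) :
    t ^ r = 1 := by
  have := mul_neg_geom_sum t r
  rw [ht, mul_zero] at this
  exact (sub_eq_zero.1 this.symm).symm

/-- `∏ (1 - t ^ a) = r` -/
theorem aeval_prod_one_sub {r : ℕ} (hr : r.Prime) {t : Module.End ℤ Q}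
    (ht : ∑ l ∈ range r, t ^ l = 0) :
    aeval t (∏ a ∈ range (r - 1), ((1 : ℤ[X]) - X ^ (a + 1))) = (r : Module.End ℤ Q) := by
  rw [aeval_eq_of_dvd ht (geom_dvd_prod_sub hr), map_natCast]

theorem exists_r_eq {r : ℕ} (hr : r.Prime) {t : Module.End ℤ Q} (ht : ∑ l ∈ range r, t ^ l = 0) :
    ∃ ε : ℤ[X], (r : Module.End ℤ Q) = aeval t ε * (1 - t) ^ (r - 1) := by
  obtain ⟨ε, h⟩ := exists_eps hr
  refine ⟨ε, ?_⟩
  have := aeval_eq_of_dvd ht h
  rw [map_natCast, mul_comm, map_mul, map_pow, map_sub, map_one, aeval_X] at this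
  exact this.symm

theorem exists_pi_pow_eq {r : ℕ} (hr : r.Prime) {t : Module.End ℤ Q}
    (ht : ∑ l ∈ range r, t ^ l = 0) :
    ∃ A : ℤ[X], (1 - t) ^ (r - 1) = aeval t A * (r : Module.End ℤ Q) := by
  obtain ⟨A, h⟩ := exists_pi_pow hr
  refine ⟨A, ?_⟩
  have := aeval_eq_of_dvd ht h
  rw [mul_comm, map_mul, map_natCast, map_pow, map_sub, map_one, aeval_X] at this
  exact this

/-- an element killed by `r ^ e` is killed by `(1 - t) ^ (e (r - 1))` -/
theorem pi_pow_kill {r : ℕ} (hr : r.Prime) {t : Module.End ℤ Q} (ht : ∑ l ∈ range r, t ^ l = 0)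
    (e : ℕ) {x : Q} (hx : r ^ e • x = 0) : ((1 - t) ^ (e * (r - 1))) x = 0 := by
  obtain ⟨A, hA⟩ := exists_pi_pow_eq hr ht
  rw [mul_comm, pow_mul, hA, (Nat.commute_cast _ _).mul_pow, Module.End.mul_apply,
    ← Nat.cast_pow, Module.End.natCast_apply, hx, map_zero]

theorem commute_aeval {t φ : Module.End ℤ Q} (h : Commute φ t) (c : ℤ[X]) :
    Commute φ (aeval t c) := by
  induction c using Polynomial.induction_on' with
  | add a b ha hb => rw [map_add]; exact ha.add_right hb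
  | monomial n a =>
    rw [aeval_monomial, algebraMap_int_eq, eq_intCast]
    exact (Int.commute_cast _ _).mul_right (h.pow_right n)

theorem commute_pi {t φ : Module.End ℤ Q} (h : Commute φ t) (m : ℕ) :
    Commute φ ((1 - t) ^ m) := ((Commute.one_right φ).sub_right h).pow_right m

/-- `(1 - t) ^ m x` lies in `ℤ[t] p0` -/
def Lev (t : Module.End ℤ Q) (p0 : Q) (m : ℕ) (x : Q) : Prop :=
  ∃ c : ℤ[X], ((1 - t) ^ m) x = aeval t c p0

namespace Lev

variable {t : Module.End ℤ Q} {p0 : Q}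

theorem of_eq_zero {m : ℕ} {x : Q} (h : ((1 - t) ^ m) x = 0) : Lev t p0 m x :=
  ⟨0, by rw [h, map_zero, LinearMap.zero_apply]⟩

theorem aeval_mul {m : ℕ} {x : Q} (h : Lev t p0 m x) (a : ℤ[X]) :
    Lev t p0 m (aeval t a x) := by
  obtain ⟨c, hc⟩ := h
  refine ⟨a * c, ?_⟩
  rw [map_mul, Module.End.mul_apply, ← hc, ← Module.End.mul_apply, ← Module.End.mul_apply,
    (commute_pi (commute_aeval (Commute.refl t) a).symm m).eq]

theorem succ_iff {m : ℕ} {x : Q} : Lev t p0 (m + 1) x ↔ Lev t p0 m ((1 - t) x) := by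
  unfold Lev
  rw [pow_succ, Module.End.mul_apply]

theorem add_iff {m a : ℕ} {x : Q} : Lev t p0 (m + a) x ↔ Lev t p0 m (((1 - t) ^ a) x) := by
  unfold Lev
  rw [pow_add, Module.End.mul_apply]

theorem succ {m : ℕ} {x : Q} (h : Lev t p0 m x) : Lev t p0 (m + 1) x := by
  rw [succ_iff]
  have := h.aeval_mul (1 - X)
  rwa [map_sub, map_one, aeval_X] at this

theorem mono {m m' : ℕ} {x : Q} (h : Lev t p0 m x) (hm : m ≤ m') : Lev t p0 m' x := by
  induction hm with
  | refl => exact h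
  | step _ ih => exact ih.succ

theorem add {m : ℕ} {x y : Q} (h : Lev t p0 m x) (h' : Lev t p0 m y) : Lev t p0 m (x + y) := by
  obtain ⟨c, hc⟩ := h
  obtain ⟨d, hd⟩ := h'
  exact ⟨c + d, by rw [map_add, hc, hd, map_add, LinearMap.add_apply]⟩

theorem neg {m : ℕ} {x : Q} (h : Lev t p0 m x) : Lev t p0 m (-x) := by
  obtain ⟨c, hc⟩ := h
  exact ⟨-c, by rw [map_neg, hc, map_neg, LinearMap.neg_apply]⟩

theorem sub {m : ℕ} {x y : Q} (h : Lev t p0 m x) (h' : Lev t p0 m y) : Lev t p0 m (x - y) := by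
  rw [sub_eq_add_neg]
  exact h.add h'.neg

theorem zsmul {m : ℕ} {x : Q} (h : Lev t p0 m x) (n : ℤ) : Lev t p0 m (n • x) := by
  simpa using h.aeval_mul (C n)

theorem self (m : ℕ) : Lev t p0 m p0 :=
  Lev.mono (m := 0) ⟨1, by simp⟩ m.zero_le

/-- fixed elements have level one -/
theorem of_fixed {x : Q} (h : t x = x) : Lev t p0 1 x :=
  of_eq_zero (by rw [pow_one, LinearMap.sub_apply, Module.End.one_apply, h, sub_self])

/-- division by `1 - t` raises the level by one -/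
theorem of_div_one {m : ℕ} {i x : Q} (h : Lev t p0 m i) (hx : i + x - t x = 0) :
    Lev t p0 (m + 1) x := by
  rw [succ_iff]
  have : (1 - t) x = -i := by
    rw [LinearMap.sub_apply, Module.End.one_apply, eq_neg_iff_add_eq_zero, ← hx]
    abel
  rw [this]
  exact h.neg

/-- division by `1 - t ^ a` raises the level by one -/
theorem of_div {r : ℕ} (hr : r.Prime) (ht : ∑ l ∈ range r, t ^ l = 0) {a : ℕ} (ha : ¬ r ∣ a)
    {m : ℕ} {i x : Q} (h : Lev t p0 m i) (hx : i + x - (t ^ a) x = 0) : Lev t p0 (m + 1) x := by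
  obtain ⟨b, hb⟩ := Nat.exists_mul_mod_eq_one_of_coprime
    ((Nat.Prime.coprime_iff_not_dvd hr).2 ha).symm hr.one_lt
  have hb := hb.2
  have h1 : (t ^ a) ^ b = t := by
    rw [← pow_mul, ← Nat.div_add_mod (a * b) r, hb, pow_add, pow_mul, pow_r_eq_one ht, one_pow,
      one_mul, pow_one]
  have h2 : (1 - t ^ a) x = -i := by
    rw [LinearMap.sub_apply, Module.End.one_apply, eq_neg_iff_add_eq_zero, ← hx]
    abel
  rw [succ_iff]
  have h3 : (1 - t) x = aeval t (∑ l ∈ range b, ((X : ℤ[X]) ^ a) ^ l) (-i) := by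
    rw [← h2, ← Module.End.mul_apply, map_sum]
    simp only [map_pow, aeval_X]
    rw [geom_sum_mul_neg, h1]
  rw [h3]
  exact h.neg.aeval_mul _

end Lev

/-- `N` lowers the level by `a`, all the way to zero -/
def Low (t : Module.End ℤ Q) (p0 : Q) (N : Module.End ℤ Q) (a : ℕ) : Prop :=
  ∀ m x, Lev t p0 (m + a) x → ((1 - t) ^ m) (N x) = 0

namespace Low

variable {t : Module.End ℤ Q} {p0 : Q}

theorem mono {N : Module.End ℤ Q} {a b : ℕ} (h : Low t p0 N a) (hb : b ≤ a) : Low t p0 N b :=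
  fun m x hx => h m x (hx.mono (by omega))

theorem add {N M : Module.End ℤ Q} {a : ℕ} (h : Low t p0 N a) (h' : Low t p0 M a) :
    Low t p0 (N + M) a := fun m x hx => by
  rw [LinearMap.add_apply, map_add, h m x hx, h' m x hx, add_zero]

theorem mul {N M : Module.End ℤ Q} {a b : ℕ} (h : Low t p0 N a) (h' : Low t p0 M b) :
    Low t p0 (N * M) (a + b) := fun m x hx =>
  h m _ (Lev.of_eq_zero (h' (m + a) x (by rwa [add_assoc])))

theorem pow {N : Module.End ℤ Q} {a : ℕ} (h : Low t p0 N a) (j : ℕ) :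
    Low t p0 (N ^ (j + 1)) ((j + 1) * a) := by
  induction j with
  | zero => simpa using h
  | succ j ih =>
    rw [pow_succ, add_mul (j + 1), one_mul]
    exact ih.mul h

theorem left {N M : Module.End ℤ Q} {a : ℕ} (h : Low t p0 N a) (hM : Commute M t) :
    Low t p0 (M * N) a := fun m x hx => by
  rw [Module.End.mul_apply, ← Module.End.mul_apply, ← (commute_pi hM m).eq,
    Module.End.mul_apply, h m x hx, map_zero]

theorem r_mul {r : ℕ} (hr : r.Prime) (ht : ∑ l ∈ range r, t ^ l = 0) {N : Module.End ℤ Q}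
    {a : ℕ} (h : Low t p0 N a) : Low t p0 ((r : Module.End ℤ Q) * N) (a + (r - 1)) := by
  obtain ⟨ε, hε⟩ := exists_r_eq hr ht
  rw [hε, mul_assoc]
  refine Low.left (fun m x hx => ?_) (commute_aeval (Commute.refl t) ε).symm
  rw [Module.End.mul_apply, ← Module.End.mul_apply, ← pow_add]
  exact h _ x (by rwa [add_assoc, add_comm (r - 1)])

/-- the `r`-th power of `1 + N` -/
theorem step {r : ℕ} (hr : r.Prime) (ht : ∑ l ∈ range r, t ^ l = 0) {φ : Module.End ℤ Q}
    (hφ : Commute φ t) {a : ℕ} (ha : 1 ≤ a) (h : Low t p0 (φ - 1) a) :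
    Low t p0 (φ ^ r - 1) (a + (r - 1)) := by
  have hN : Commute (φ - 1) t := hφ.sub_left (Commute.one_left t)
  have h1 := (Commute.one_right (φ - 1)).add_pow_prime_eq hr
  rw [sub_add_cancel, one_pow, mul_one] at h1
  set S := ∑ k ∈ Ioo 0 r, (φ - 1) ^ (k - 1) * 1 ^ (r - k - 1) *
    ((r.choose k / r : ℕ) : Module.End ℤ Q) with hS
  have hS1 : Commute S t := Commute.sum_left _ _ _ fun k _ =>
    ((hN.pow_left _).mul_left ((Commute.one_left t).pow_left _)).mul_left (Nat.cast_commute _ _)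
  have hS2 : Commute S (φ - 1) := Commute.sum_left _ _ _ fun k _ =>
    (((Commute.refl _).pow_left _).mul_left ((Commute.one_left _).pow_left _)).mul_left
      (Nat.cast_commute _ _)
  have h2 : φ ^ r - 1 = (φ - 1) ^ r + S * ((r : Module.End ℤ Q) * (φ - 1)) := by
    rw [h1, ← mul_assoc, (Nat.commute_cast S r).eq, mul_assoc, mul_assoc, hS2.eq]
    abel
  rw [h2]
  refine Low.add ?_ ((h.r_mul hr ht).left hS1)
  obtain ⟨n, rfl⟩ : ∃ n, r = n + 1 := ⟨r - 1, by have := hr.pos; omega⟩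
  refine (h.pow n).mono ?_
  rw [Nat.add_sub_cancel]
  nlinarith

end Low

theorem deg_aeval {r : ℕ} {t : Module.End ℤ Q} (deg : Q →+ ZMod r)
    (hdeg : ∀ x, deg (t x) = deg x) (c : ℤ[X]) (x : Q) :
    deg (aeval t c x) = (c.eval 1 : ℤ) * deg x := by
  induction c using Polynomial.induction_on' with
  | add a b ha hb => rw [map_add, LinearMap.add_apply, map_add, ha, hb, eval_add]; push_cast; ring
  | monomial n a =>
    have h : ∀ n : ℕ, deg ((t ^ n) x) = deg x := fun n => by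
      induction n with
      | zero => simp
      | succ n ih => rw [pow_succ', Module.End.mul_apply, hdeg, ih]
    rw [aeval_monomial, algebraMap_int_eq, eq_intCast, Module.End.mul_apply,
      Module.End.intCast_apply, map_zsmul, h, eval_monomial, one_pow, mul_one, zsmul_eq_mul]

/-- an element of level one is the sum of a fixed element and an element of `ℤ[t] p0` -/
theorem Lev.exists_fixed {r : ℕ} (hr : r.Prime) {t : Module.End ℤ Q}
    (ht : ∑ l ∈ range r, t ^ l = 0) (deg : Q →+ ZMod r) (hdeg : ∀ x, deg (t x) = deg x) {p0 : Q}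
    (hp0 : deg p0 = 1) {x : Q} (hx : Lev t p0 1 x) :
    ∃ c : ℤ[X], t (x - aeval t c p0) = x - aeval t c p0 := by
  obtain ⟨c, hc⟩ := hx
  rw [pow_one] at hc
  have h1 : ((c.eval 1 : ℤ) : ZMod r) = 0 := by
    have := deg_aeval deg hdeg c p0
    rw [hp0, mul_one, ← hc, LinearMap.sub_apply, map_sub, hdeg, Module.End.one_apply,
      sub_self] at this
    exact this.symm
  obtain ⟨j, hj⟩ := (ZMod.intCast_zmod_eq_zero_iff_dvd _ _).1 h1
  obtain ⟨d, hd⟩ := X_sub_C_dvd_sub_C_eval (p := c) (a := 1)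
  obtain ⟨ε, hε⟩ := exists_eps hr
  obtain ⟨n, hn⟩ : ∃ n, r - 1 = n + 1 := ⟨r - 2, by have := hr.two_le; omega⟩
  refine ⟨C j * (1 - X) ^ n * ε - d, ?_⟩
  have h2 : aeval t c = aeval t ((1 - X) * (C j * (1 - X) ^ n * ε - d)) := by
    refine aeval_eq_of_dvd ht ?_
    have h3 : c - (1 - X) * (C j * (1 - X) ^ n * ε - d) =
        -C j * ((1 - X) ^ (r - 1) * ε - (r : ℤ[X])) := by
      rw [hn]
      rw [hj, C_mul, map_natCast, C_1] at hd
      linear_combination hd
    rw [h3]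
    exact hε.mul_left _
  rw [h2, map_mul, map_sub, map_one, aeval_X, Module.End.mul_apply, ← sub_eq_zero,
    ← map_sub, LinearMap.sub_apply, Module.End.one_apply, sub_eq_zero] at hc
  exact hc.symm

/-- FROB: if `φ` commutes with `t`, fixes `p0` and the elements fixed by `t`, then `φ ^ r ^ e` fixes
the elements of level at most `1 + e (r - 1)`. -/
theorem frob {r : ℕ} (hr : r.Prime) {t φ : Module.End ℤ Q} (ht : ∑ l ∈ range r, t ^ l = 0)
    (deg : Q →+ ZMod r) (hdeg : ∀ x, deg (t x) = deg x) {p0 : Q} (hp0 : deg p0 = 1)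
    (hφ : Commute φ t) (hφ0 : φ p0 = p0) (hker : ∀ x, t x = x → φ x = x) (e : ℕ) {m : ℕ}
    (hm : m ≤ 1 + e * (r - 1)) {x : Q} (hx : Lev t p0 m x) : (φ ^ r ^ e) x = x := by
  have h0 : Low t p0 (φ - 1) 1 := fun m x hx => by
    rw [add_comm, Lev.add_iff] at hx
    obtain ⟨c, hc⟩ := hx.exists_fixed hr ht deg hdeg hp0
    have h1 := hker _ hc
    rw [map_sub, ← Module.End.mul_apply φ (aeval t c), (commute_aeval hφ c).eq,
      Module.End.mul_apply, hφ0, sub_left_inj] at h1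
    rw [← Module.End.mul_apply, ← (commute_pi (hφ.sub_left (Commute.one_left t)) m).eq,
      Module.End.mul_apply, LinearMap.sub_apply, h1, Module.End.one_apply, sub_self]
  have h1 : ∀ e : ℕ, Low t p0 (φ ^ r ^ e - 1) (1 + e * (r - 1)) := fun e => by
    induction e with
    | zero => simpa using h0
    | succ e ih =>
      have := ih.step hr ht (hφ.pow_left _) (by omega)
      rwa [← pow_mul, ← pow_succ, add_assoc, ← add_one_mul] at this
  have h2 := h1 e 0 x (hx.mono (by omega))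
  rwa [pow_zero, Module.End.one_apply, LinearMap.sub_apply, Module.End.one_apply,
    sub_eq_zero] at h2

end Vale.Agent.P319.Alg
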