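import Vale.Agent.P319.Alg.NrmSpec
import Vale.Agent.P319.Alg.CondSpec
import Vale.Agent.P319.Alg.RootSpec
import Vale.Agent.P319.Cv.Chain
import Vale.Agent.P319.Cv.Mem
import Vale.Agent.P319.Cv.Cont

/-!
P319: the meaning of the final stage.
-/

open Polynomial

namespace Vale.Agent.P319.Crv

open Gen Vale.Agent.Lib.Dep

variable {A k : Type} [CommRing A] [Field k] {Q : ℕ} {ψ : A →+* k}

variable {C : Cv k}

namespace FinAux

theorem ev_tw (Z : C.Mu) (G : k[X][X]) : C.ev (tw Z.val G) = C.tau Z (C.ev G) := by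
  have : C.ev.comp (twH Z.val) = (C.tau Z : C.K →+* C.K).comp C.ev := by
    refine Polynomial.ringHom_ext (fun u => ?_) ?_
    · simp [twH_apply, tw]
    · simp [twH_apply, tw, Cv.pol_C]
  exact DFunLike.congr_fun this G

theorem map_ev_twW (Z : C.Mu) (B : k[X][X][X]) :
    (twW Z.val B).map C.ev = (B.map C.ev).map (C.tau Z : C.K →+* C.K) := by
  ext1 i
  rw [coeff_map, coeff_twW, FinAux.ev_tw, coeff_map, coeff_map]
  rfl

theorem Wj_nonneg (Z : C.Mu) (M j : ℕ) {W : C.Div} (hW : 0 ≤ W) : 0 ≤ C.Wj Z M j W :=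
  Finset.sum_nonneg fun _ _ => nsmul_nonneg (Cv.tD_nonneg _ hW) _

theorem Wj_ram (Z : C.Mu) (M j : ℕ) (W : C.Div) {P : C.Pt} (hP : P.IsRam) :
    C.Wj Z M j W P = (Cv.cs M j : ℕ) * W P := by
  rw [Cv.Wj, Finsupp.finsetSum_apply, Cv.cs, Nat.cast_sum, Finset.sum_mul]
  refine Finset.sum_congr rfl fun l _ => ?_
  rw [Finsupp.smul_apply, Cv.tD_apply, hP.smul_eq, nsmul_eq_mul]

theorem nD_tD {Z : C.Mu} (hZ : Z ≠ 1) (w : C.Mu) (W : C.Div) : C.nD Z (C.tD w W) = C.nD Z W := by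
  rw [← Cv.tD_nD hZ w W, Cv.nD_eq hZ, Cv.nD_eq hZ, map_sum]
  refine Finset.sum_congr rfl fun x _ => ?_
  rw [Cv.tD_tD, Cv.tD_tD, mul_comm]

theorem nD_Wj {Z : C.Mu} (hZ : Z ≠ 1) (M j : ℕ) (W : C.Div) :
    C.nD Z (C.Wj Z M j W) = Cv.cs M j • C.nD Z W := by
  rw [Cv.cs, Finset.sum_smul]
  have h1 : ∀ l ∈ Finset.range (j + 1), Cv.cf M j l • C.nD Z W =
      ∑ x, C.tD x (Cv.cf M j l • C.tD (Z ^ l) W) := fun l _ => by
    rw [← nD_tD hZ (Z ^ l) W, Cv.nD_eq hZ, Finset.smul_sum]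
    simp only [map_nsmul]
  rw [Finset.sum_congr rfl h1, Finset.sum_comm, Cv.nD_eq hZ]
  simp only [Cv.Wj, map_sum]

variable [IsAlgClosed k]

theorem cont_formW (Z : C.Mu) (M j : ℕ) {W : C.Div} {S : k[X][X][X]} {m : ℕ}
    (hS : C.Cont (S.map C.ev) ((m : ℤ) • C.H - W)) :
    C.Cont ((formW M Z.val S j).map C.ev) (((Cv.cs M j * m : ℕ) : ℤ) • C.H - C.Wj Z M j W) := by
  have h1 := Cv.Cont.prod (Finset.range (j + 1))
    (fun l _ => (hS.tau (Z ^ l)).pow (Cv.cf M j l))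
  have e1 : (formW M Z.val S j).map C.ev = ∏ l ∈ Finset.range (j + 1),
      ((S.map C.ev).map (C.tau (Z ^ l) : C.K →+* C.K)) ^ Cv.cf M j l := by
    rw [formW, Polynomial.map_prod]
    refine Finset.prod_congr rfl fun l _ => ?_
    rw [Polynomial.map_pow, ← Cv.Mu.val_pow, FinAux.map_ev_twW]
  have e2 : ((Cv.cs M j * m : ℕ) : ℤ) • C.H - C.Wj Z M j W = ∑ l ∈ Finset.range (j + 1),
      Cv.cf M j l • C.tD (Z ^ l) ((m : ℤ) • C.H - W) := by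
    simp only [map_sub, map_zsmul, Cv.tD_H, smul_sub, Finset.sum_sub_distrib, Cv.Wj]
    rw [← Finset.sum_smul, Nat.cast_mul, mul_smul, natCast_zsmul]
    rfl
  rw [e1, e2]
  exact h1

theorem mult_eq {Z : C.Mu} {W : C.Div} {U : k[X]} {d : ℕ}
    (hU : C.div (C.pol U) + (d : ℤ) • C.H = C.nD Z W) (a : Rt C) :
    (U.rootMultiplicity a.1 : ℤ) = W (Cv.ram a.1 a.2) := by
  have hP := Cv.isRam_ram (c := C) a.1 a.2
  have h1 := congrArg (fun D : C.Div => D (Cv.ram a.1 a.2)) hU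
  simp only [Finsupp.add_apply, Finsupp.smul_apply, Cv.div_apply, Cv.nD] at h1
  rw [Cv.H_ram hP, Cv.sD_ram _ _ _ hP, Cv.Pt.ord_pol hP.not_inf, hP.e_eq, smul_zero, add_zero,
    Cv.x0_ram] at h1
  exact mul_left_cancel₀ (Int.natCast_ne_zero.2 C.hr.ne_zero) h1

omit [IsAlgClosed k] in
theorem mult_fac {V : k[X]} (hV : V ≠ 0) (E : ℕ) (a : Rt C) :
    (C.F ^ E * V).rootMultiplicity a.1 = E + V.rootMultiplicity a.1 := by
  have hm : C.F.rootMultiplicity a.1 = 1 :=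
    le_antisymm (rootMultiplicity_le_one_of_separable C.hsep a.1)
      ((rootMultiplicity_pos C.F_ne).2 a.2)
  induction E with
  | zero => simp
  | succ E ih =>
    rw [pow_succ', mul_assoc, rootMultiplicity_mul
      (mul_ne_zero C.F_ne (mul_ne_zero (pow_ne_zero _ C.F_ne) hV)), ih, hm]
    omega

theorem exists_fac (hF : C.F.Monic) {U : k[X]} (hU : U ≠ 0) :
    ∃ (a : Rt C) (V : k[X]), U = C.F ^ U.rootMultiplicity a.1 * V ∧ V.eval a.1 ≠ 0 ∧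
      ∀ b : Rt C, V.eval b.1 ≠ 0 → U.rootMultiplicity b.1 = U.rootMultiplicity a.1 := by
  have hne : Nonempty (Rt C) := by
    rw [← Fintype.card_pos_iff, card_Rt hF]
    exact C.n_pos
  obtain ⟨a, -, ha⟩ := Finset.exists_min_image Finset.univ
    (fun a : Rt C => U.rootMultiplicity a.1) Finset.univ_nonempty
  have hd : C.F ^ U.rootMultiplicity a.1 ∣ U := by
    rw [congrArg (· ^ U.rootMultiplicity a.1) (F_eq_prod hF), ← Finset.prod_pow]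
    refine Finset.prod_dvd_of_coprime (fun x _ y _ hxy => ?_) fun b _ => ?_
    · exact (pairwise_coprime_X_sub_C Subtype.val_injective hxy).pow
    · exact (pow_dvd_pow _ (ha b (Finset.mem_univ _))).trans (pow_rootMultiplicity_dvd U b.1)
  obtain ⟨V, hV⟩ := hd
  have hV0 : V ≠ 0 := by rintro rfl; exact hU (by rw [hV, mul_zero])
  have key : ∀ b : Rt C, U.rootMultiplicity b.1 =
      U.rootMultiplicity a.1 + V.rootMultiplicity b.1 := fun b => by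
    rw [← mult_fac hV0, ← hV]
  refine ⟨a, V, hV, fun h0 => ?_, fun b hb => ?_⟩
  · have h1 := (rootMultiplicity_pos hV0).2 h0
    have h2 := key a
    omega
  · rw [key b, rootMultiplicity_eq_zero hb, add_zero]

variable {f : A[X]} {z : A} {Z : C.Mu}

theorem candV_spec (h : Dat C Q ψ f z Z) {g : A} {e : ℕ} {σ : k ≃+* k} (hA : Ari C Q e σ (ψ g))
    (x : AdjoinRoot (mon f)) {κ : k} (hκ : κ ≠ 0) (h1 : ∀ a : Rt C, h.cmp a x ^ C.r = κ)
    {a b : Rt C} (hab : h.cmp a x ≠ h.cmp b x) :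
    ∃ c ∈ candV Q C.r f z g x, (c.map ψ).eval a.1 = 0 ∧ (c.map ψ).eval b.1 ≠ 0 := by
  have h3 := h.comp.three
  have hg0 : ψ g ≠ 0 := fun h0 => by
    have := hA.g_pow
    rw [h0, zero_pow (by omega)] at this
    exact zero_ne_one this
  have e1 : ∀ c : Rt C, h.cmp c (root Q C.r (AdjoinRoot.of (mon f) g) (x ^ C.r)) =
      root Q C.r (ψ g) κ := fun c => by rw [map_root, h.cmp_of, map_pow, h1]
  have e2 : root Q C.r (ψ g) κ ^ C.r = κ := by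
    have := root_spec (h.comp_cmp hA a) C.hr hA.dvd (g := AdjoinRoot.of (mon f) g) (z := x ^ C.r)
      (by rwa [h.cmp_of]) (by rw [h.cmp_of]; exact hA.g_ne) ((h.comp_cmp hA a).fix x) (map_pow _ _ _)
    rwa [e1, map_pow, h1] at this
  have e3 : root Q C.r (ψ g) κ ≠ 0 := fun h0 => hκ (by rw [← e2, h0, zero_pow C.hr.ne_zero])
  obtain ⟨m, hm, hm'⟩ := h.prim.eq_pow_of_pow_eq_one (ξ := h.cmp a x / root Q C.r (ψ g) κ)
    (by rw [div_pow, h1, e2, div_self hκ])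
  have e4 : Z.val ^ m * root Q C.r (ψ g) κ = h.cmp a x := by rw [hm', div_mul_cancel₀ _ e3]
  refine ⟨_, List.mem_map.2 ⟨m, List.mem_range.2 hm, rfl⟩, ?_, ?_⟩
  · rw [h.eval_map_rep, map_sub, map_mul, e1, h.cmp_of, map_pow, h.mapz, e4, sub_self]
  · rw [h.eval_map_rep, map_sub, map_mul, e1, h.cmp_of, map_pow, h.mapz, e4]
    exact sub_ne_zero.2 hab.symm

omit [IsAlgClosed k] in
theorem map_div_pow (h : Dat C Q ψ f z Z) (p : A[X]) (E : ℕ) :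
    (p /ₘ f ^ E).map ψ = p.map ψ /ₘ C.F ^ E := by
  rw [map_divByMonic _ (h.monic.pow E), Polynomial.map_pow, h.mapf]

theorem vals_spec (h : Dat C Q ψ f z Z) {g : k} {e : ℕ} {σ : k ≃+* k} (hA : Ari C Q e σ g)
    {U : A[X]} {E : ℕ} {V : k[X]} (hU : U.map ψ = C.F ^ E * V)
    (hV : ∀ a, C.F.eval a = 0 → V.eval a ≠ 0) {G : A[X][X]}
    (hG : (G.map (mapRingHom ψ)).natDegree < C.r)
    (hm : ∀ P : C.Pt, P.IsRam → evA C ψ G / C.pol (U.map ψ) ∈ P.V 0) (a : Rt C) :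
    h.cmp a (vals Q f U E G) = (Cv.ram a.1 a.2).lc 0 (evA C ψ G / C.pol (U.map ψ)) := by
  have hE := h.F_monic.pow E
  rw [hU] at hm ⊢
  have h1 := (Cv.lc_ram_div hG hV hm).2 a.1 a.2
  refine Eq.trans ?_ h1.symm
  rw [vals, map_mul, (h.comp_cmp hA a).map_pinv, h.cmp_mk, h.cmp_mk, map_div_pow h, map_div_pow h,
    hU, mul_divByMonic_cancel_left _ hE, divByMonic_eq_div _ hE, coeff_map, div_eq_mul_inv]
  rfl

theorem solF_aux (h : Dat C Q ψ f z Z) {W : C.Div} (hW : 0 ≤ W) {U : A[X]} {S : A[X][X][X]}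
    {d m : ℕ} (hU0 : U.map ψ ≠ 0) (hU : C.div (C.pol (U.map ψ)) + (d : ℤ) • C.H = C.nD Z W)
    (hS : C.Cont ((m3 ψ S).map C.ev) ((m : ℤ) • C.H - W)) :
    (∀ G ∈ solF Q C.r C.nu f z U S d m, (G.map (mapRingHom ψ)).natDegree < C.r ∧
      (evA C ψ G ≠ 0 → C.div (evA C ψ G / C.pol (U.map ψ)) = W - C.tD Z W)) ∧
    ((∃ s : C.K, s ≠ 0 ∧ C.div s = W - C.tD Z W) →
      ∃ G ∈ solF Q C.r C.nu f z U S d m, evA C ψ G ≠ 0) := by
  have hp := C.pol_ne hU0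
  constructor
  · intro G hG
    obtain ⟨k1, -, k3⟩ := (solF_spanL h hU0 hU hS _).1 (mem_spanL hG)
    refine ⟨k1, fun h0 => ?_⟩
    rw [← neg_sub]
    exact Cv.div_eq_of_mem (by simp) (div_ne_zero h0 hp) k3
  · rintro ⟨s, hs, hd⟩
    have h1 : s * C.pol (U.map ψ) ∈ C.L ((d : ℤ) • C.H) := by
      rw [Cv.mem_L_iff (mul_ne_zero hs hp), Cv.div_mul hs hp, add_assoc, hU, hd, sub_add,
        sub_nonneg]
      exact (sub_nonpos.2 (Cv.tD_le_nD (Cv.Mu.ne_one_of_prim h.prim) Z hW)).trans hW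
    obtain ⟨G, k1, k2⟩ := exists_ev_of_mem_L d h1
    have h2 := (solF_spanL h hU0 hU hS G).2 ⟨k1, k2 ▸ h1, by
      rw [k2, mul_div_cancel_right₀ _ hp, ← neg_sub, ← hd]
      exact Cv.mem_L_div s⟩
    by_contra hc
    have h3 : spanL k (mapRingHom (mapRingHom ψ)) (solF Q C.r C.nu f z U S d m) ≤
        LinearMap.ker C.evL := spanL_le.2 fun v hv => by_contra fun h0 => hc ⟨v, hv, h0⟩
    exact mul_ne_zero hs hp (k2.symm.trans (h3 h2))

end FinAux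

open FinAux

variable [IsAlgClosed k] {f : A[X]} {z : A} {Z : C.Mu}

theorem final_spec (h : Dat C Q ψ f z Z) {g : A} {e : ℕ} {σ : k ≃+* k} (hA : Ari C Q e σ (ψ g))
    {W : C.Div} (hW : 0 ≤ W) {U : A[X]} {S : A[X][X][X]} {d m : ℕ} (hU0 : U.map ψ ≠ 0)
    (hU : C.div (C.pol (U.map ψ)) + (d : ℤ) • C.H = C.nD Z W)
    (hS : C.Cont ((m3 ψ S).map C.ev) ((m : ℤ) • C.H - W))
    (hb : ∀ P : C.Pt, P.IsRam → W P ≤ (C.r * mu C.r C.nu : ℕ))
    (h1 : C.Triv (C.r ^ e • W)) (h2 : ¬ (C.r : ℤ) ∣ C.deg W) :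
    ∃ c ∈ final Q C.r C.nu e f z g U S d m, ∃ a a' : k, C.F.eval a = 0 ∧ C.F.eval a' = 0 ∧
      (c.map ψ).eval a = 0 ∧ (c.map ψ).eval a' ≠ 0 := by
  obtain ⟨a0, V, hV, hV0, hV1⟩ := exists_fac h.F_monic hU0
  set E := (U.map ψ).rootMultiplicity a0.1 with hE
  have hEb : E < C.r * mu C.r C.nu + 1 := by
    have h3 := hb _ (Cv.isRam_ram a0.1 a0.2)
    rw [← mult_eq hU a0] at h3
    exact Nat.lt_succ_of_le (by exact_mod_cast h3)
  by_cases hc : ∃ a, C.F.eval a = 0 ∧ V.eval a = 0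
  · obtain ⟨a, ha, ha'⟩ := hc
    have e1 : (U /ₘ f ^ E).map ψ = V := by
      rw [map_div_pow h, hV, mul_divByMonic_cancel_left _ (h.F_monic.pow E)]
    exact ⟨U /ₘ f ^ E, List.mem_append_left _ (List.mem_map.2 ⟨E, List.mem_range.2 hEb, rfl⟩),
      a, a0.1, ha, a0.2, by rw [e1, ha'], by rwa [e1]⟩
  have hc' : ∀ a, C.F.eval a = 0 → V.eval a ≠ 0 := fun a ha ha' => hc ⟨a, ha, ha'⟩
  have hWE : ∀ P : C.Pt, P.IsRam → W P = E := fun P hP => by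
    rw [hP.eq_ram, ← mult_eq hU ⟨P.x0, hP.eval⟩, hV1 ⟨P.x0, hP.eval⟩ (hc' _ hP.eval)]
  have hZ := Cv.Mu.ne_one_of_prim h.prim
  obtain ⟨j, hj, hnt, hex⟩ := Cv.final_idx h.prim h1 h2
  set c := Cv.cs (C.r ^ e) j with hcs
  have hU0' : (U ^ c).map ψ ≠ 0 := by rw [Polynomial.map_pow]; exact pow_ne_zero _ hU0
  have hU' : C.div (C.pol ((U ^ c).map ψ)) + ((c * d : ℕ) : ℤ) • C.H =
      C.nD Z (C.Wj Z (C.r ^ e) j W) := by
    rw [nD_Wj hZ, ← hU, Polynomial.map_pow, map_pow, Cv.div_pow, smul_add, Nat.cast_mul, mul_smul,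
      natCast_zsmul]
  have hS' : C.Cont ((m3 ψ (formW (C.r ^ e) z S j)).map C.ev)
      (((c * m : ℕ) : ℤ) • C.H - C.Wj Z (C.r ^ e) j W) := by
    have := FinAux.cont_formW Z (C.r ^ e) j hS
    rwa [← h.mapz, coe_mapRingHom, ← map_formW] at this
  obtain ⟨k1, k2⟩ := solF_aux h (Wj_nonneg Z (C.r ^ e) j hW) hU0' hU' hS'
  obtain ⟨G, hG, hG0⟩ := k2 hex
  obtain ⟨hG1, hG2⟩ := k1 G hG
  have hd := hG2 hG0
  have hs0 : evA C ψ G / C.pol ((U ^ c).map ψ) ≠ 0 := div_ne_zero hG0 (C.pol_ne hU0')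
  obtain ⟨⟨κ, hκ, hκ'⟩, P, P', hP, hP', hne⟩ := Cv.final_vals h.prim (e0 := c * E)
    (fun P hP => by rw [Wj_ram _ _ _ _ hP, hWE P hP]) hnt hs0 hd
  have hval := vals_spec h hA (U := U ^ c) (E := c * E) (V := V ^ c)
    (by rw [Polynomial.map_pow, hV, mul_pow, ← pow_mul, mul_comm E])
    (fun a ha => by rw [eval_pow]; exact pow_ne_zero _ (hc' a ha)) hG1
    (fun P hP => by
      rw [Cv.Pt.mem_V_iff_le hs0, ← Cv.div_apply, hd, Finsupp.sub_apply, Cv.tD_apply, hP.smul_eq,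
        sub_self])
  obtain ⟨x, hx, hx1, hx2⟩ := candV_spec h hA (vals Q f (U ^ c) (c * E) G) hκ
    (fun a => by rw [hval]; exact hκ' _ (Cv.isRam_ram _ _))
    (a := ⟨P.x0, hP.eval⟩) (b := ⟨P'.x0, hP'.eval⟩)
    (by rw [hval, hval, ← hP.eq_ram, ← hP'.eq_ram]; exact hne)
  refine ⟨x, List.mem_append_right _ (List.mem_flatMap.2 ⟨(j, E), mem_idx2.2 ⟨hj, hEb⟩,
    List.mem_flatMap.2 ⟨G, hG, hx⟩⟩), P.x0, P'.x0, hP.eval, hP'.eval, hx1, hx2⟩

end Vale.Agent.P319.Crv
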