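import Vale.Agent.P319.Alg.ChainSpec
import Vale.Agent.P319.Alg.Final

/-!
P319: specification of the splitting algorithm.
-/

open Polynomial

namespace Vale.Agent.P319.Crv

open Gen Cv Vale.Agent.Lib.Dep

variable {A k : Type} [CommRing A] [Field k] [IsAlgClosed k] {Q : ℕ} {ψ : A →+* k} {C : Cv k}
  {f : A[X]} {z : A} {Z : C.Mu}

namespace CS

omit [IsAlgClosed k] in
theorem eq_ram {P : C.Pt} (h : P.IsRam) : ∃ a ha, P = ram a ha := by
  cases P with
  | aff x0 y0 e =>
    have : y0 = 0 := h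
    subst this
    exact ⟨x0, by rw [← e, zero_pow C.hr.ne_zero], rfl⟩
  | inf w e => exact h.elim

omit [IsAlgClosed k] in
theorem ram_inj {a b : k} {ha hb} (h : (ram a ha : C.Pt) = ram b hb) : a = b := by
  injection h

theorem R_eq : C.R = ∑ a : Rt C, Finsupp.single (ram a.1 a.2) (1 : ℤ) := by
  classical
  ext P
  rw [Finsupp.finsetSum_apply]
  by_cases hP : P.IsRam
  · obtain ⟨a, ha, rfl⟩ := eq_ram hP
    rw [R_ram hP, Finset.sum_eq_single ⟨a, ha⟩]
    · simp
    · intro b _ hb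
      exact Finsupp.single_eq_of_ne fun e => hb (Subtype.ext (ram_inj e).symm)
    · simp
  · rw [R_unram hP, Finset.sum_eq_zero]
    intro b _
    exact Finsupp.single_eq_of_ne fun e => hP (e ▸ isRam_ram _ _)

omit [IsAlgClosed k] in
theorem nD_sum {ι : Type} (s : Finset ι) (D : ι → C.Div) :
    C.nD Z (∑ i ∈ s, D i) = ∑ i ∈ s, C.nD Z (D i) := by
  simp only [nD, sD, map_sum]
  exact Finset.sum_comm

end CS

open CS

theorem curve_spec (h : Dat C Q ψ f z Z) (hp : ∀ j : ℕ, 1 ≤ j → j ≤ C.r * C.nu → (j : k) ≠ 0)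
    {g : A} {e n' : ℕ} (hn : C.r * C.nu = C.r ^ e * n')
    (hn' : ¬ C.r ∣ n') {σ : k ≃+* k} (hA : Ari C Q e σ (ψ g)) :
    ∃ c ∈ curve Q C.r C.nu e f z g, ∃ a a' : k, C.F.eval a = 0 ∧ C.F.eval a' = 0 ∧
      (c.map ψ).eval a = 0 ∧ (c.map ψ).eval a' ≠ 0 := by
  classical
  have hF := h.F_monic
  have hZ : Z ≠ 1 := by
    rintro rfl
    exact h.prim.ne_one C.hr.one_lt rfl
  have hr := C.hr.two_le
  have hq : C.r * C.nu / C.r ^ e = n' := by
    rw [hn, Nat.mul_div_cancel_left _ (pow_pos C.r_pos e)]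
  have key : ∀ a : Rt C, ∃ D : C.Div, C.Pres a.1 (mu C.r C.nu) (mB C.r C.nu) D
      ((chainU Q C.r C.nu e f z g).1.map (h.cmp a)) (m3 (h.cmp a) (chainU Q C.r C.nu e f z g).2) ∧
      C.Triv (C.r ^ e • D - (Finsupp.single (C.Pone hF) 1 - Finsupp.single (ram a.1 a.2) 1)) := by
    intro a
    have ha : C.F.eval (h.cmp a (AdjoinRoot.root (mon f))) = 0 := by rw [h.cmp_root]; exact a.2
    obtain ⟨D, h1, h2⟩ := chain_spec (h.univ hA a) hF ha (g := AdjoinRoot.of (mon f) g)
      (by rw [h.cmp_of]; exact hA) (le_refl (e * (C.r - 1)))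
    have h3 := inv_end h.prim h2
    have e1 : h.cmp a (AdjoinRoot.root (mon f)) = a.1 := h.cmp_root a
    refine ⟨D, e1 ▸ h1, ?_⟩
    convert h3 using 5
    exact e1.symm
  choose D hD hT using key
  have hinf : (C.Pone hF).IsInf := trivial
  have hH : C.nD Z (Finsupp.single (C.Pone hF) 1) = C.H := (H_eq_nD hZ hinf).symm
  have hHP : (0 : C.Div) ≤ C.H - Finsupp.single (C.Pone hF) 1 := by
    intro P
    rw [Finsupp.sub_apply, Finsupp.single_apply]
    split_ifs with e1
    · rw [← e1, H_inf hinf]; simp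
    · simpa using H_nonneg P
  have hcard : (Finset.univ : Finset (Rt C)).card = C.r * C.nu := card_Rt hF
  obtain ⟨r1, hr1⟩ : ∃ r1, C.r = r1 + 1 := ⟨C.r - 1, by omega⟩
  have hr2 : ((C.r - 1 : ℕ) : ℤ) = C.r - 1 := by rw [hr1]; simp
  refine final_spec h hA (W := ∑ a, D a + (n' : ℤ) • (C.H - Finsupp.single (C.Pone hF) 1))
    (add_nonneg (Finset.sum_nonneg fun a _ => (hD a).nonneg) (smul_nonneg (by simp) hHP))
    ?_ ?_ ?_ ?_ ?_ ?_
  · rw [finU, h.map_nrm1 hp]
    exact Finset.prod_ne_zero_iff.2 fun a _ => (hD a).u_ne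
  · rw [finU, h.map_nrm1 hp, map_prod, div_prod _ _ fun a _ =>
      C.pol_ne (hD a).u_ne, nD, sD_add, sD_zsmul, sD_sub, sD_H, ← nD, ← nD, nD_sum, hH]
    simp only [← fun a => (hD a).norm Z h.prim]
    rw [Finset.sum_add_distrib, Finset.sum_const, hcard, finD, hq]
    push_cast [hr2]
    module
  · have h1 := Cont.prod Finset.univ fun a _ => (hD a).cont
    have h2 := (cont_piW (B := formInf k C.nu) (cont_Pone hF) Z (l := 1) (by omega)).pow n'
    have h3 := h1.mul h2
    convert h3 using 1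
    · rw [finS, map_mul, map_pow, h.map_nrm3 hp, hq, Polynomial.map_mul, Polynomial.map_pow,
        Polynomial.map_prod, coe_mapRingHom, map_piW, map_formInf, h.mapz]
    · rw [nD, sD_sub, sD_zsmul, sD_H, ← nD, hH, sD_one, Finset.sum_sub_distrib, Finset.sum_const,
        hcard, finM, hq]
      push_cast [hr2]
      module
  · intro P hP
    obtain ⟨b, hb, rfl⟩ := eq_ram hP
    rw [Finsupp.add_apply, Finsupp.smul_apply, Finsupp.sub_apply, H_ram hP,
      Finsupp.single_eq_of_ne (by intro e1; cases e1), Finsupp.finsetSum_apply,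
      Finset.sum_eq_single ⟨b, hb⟩ (fun a _ ha => (hD a).ram b hb fun e1 =>
        ha (Subtype.ext e1.symm)) (by simp), ← (hD ⟨b, hb⟩).deg]
    simpa using le_deg (hD ⟨b, hb⟩).nonneg _
  · have h1 := ((Triv.sum (s := Finset.univ) fun a _ => hT a).add
      (triv_H.nsmul (C.r * C.nu))).sub triv_R
    refine h1.congr ?_
    rw [R_eq, Finset.sum_sub_distrib, Finset.sum_sub_distrib, Finset.sum_const, hcard,
      ← Finset.smul_sum, hn]
    module
  · rw [map_add, map_sum, map_zsmul, map_sub, deg_H, deg_single,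
      Finset.sum_congr rfl fun a _ => (hD a).deg, Finset.sum_const, hcard]
    intro h1
    have h2 : (C.r : ℤ) ∣ n' := by
      have h3 : (C.r : ℤ) ∣ (C.r * C.nu) • ((C.r * mu C.r C.nu : ℕ) : ℤ) + n' * C.r :=
        dvd_add (by simp [mul_assoc]) (dvd_mul_left _ _)
      have := dvd_sub h3 h1
      rwa [smul_eq_mul, show ∀ a b c : ℤ, a + b * c - (a + b * (c - 1)) = b from by intros; ring]
        at this
    exact hn' (by exact_mod_cast h2)

end Vale.Agent.P319.Crv
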