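import Vale.Agent.P319.Alg.Tourn

/-!
P319: the routine for split squarefree polynomials, from the tournament and the curve algorithm.
-/

open Polynomial Finset

namespace Vale.Agent.P319.Alg

variable {p : ℕ} [Fact p.Prime]

/-- the specification of the curve algorithm -/
def CurveSpec (c0 : ℕ) (cv : ℕ → (ZMod p)[X] → (ZMod p)[X] → (ZMod p)[X] → List (ZMod p)[X]) :
    Prop :=
  ∀ (r : ℕ) (h g m : (ZMod p)[X]), r.Prime → Odd r → Good r h g → m.Monic → m ∣ X ^ p - X →
    r ∣ m.natDegree → 0 < m.natDegree → (m.natDegree + 2) ^ c0 ≤ p → ∃ c ∈ cv r h g m, Sep m c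

/-- the candidates for a split squarefree polynomial -/
noncomputable def splitR (c0 : ℕ)
    (cv : ℕ → (ZMod p)[X] → (ZMod p)[X] → (ZMod p)[X] → List (ZMod p)[X])
    (tab : List ((ZMod p)[X] × (ZMod p)[X])) (m : (ZMod p)[X]) : List (ZMod p)[X] :=
  ((List.range ((m.natDegree + 2) ^ (c0 + 1))).map fun c : ℕ => X - C (c : ZMod p)) ++
    (tourn p ((tab.getD 2 0).2.eval (-1)) m ++
      cv m.natDegree.minFac (tab.getD m.natDegree.minFac 0).1 (tab.getD m.natDegree.minFac 0).2 m)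

theorem Good.not_sq {h g : (ZMod p)[X]} (hg : Good 2 h g) (b : ZMod p) :
    b ^ 2 ≠ g.eval (-1) := by
  intro hb
  obtain ⟨-, -, h3, h4⟩ := hg
  refine h4 (C b) (h3.trans ?_)
  have : ∑ i ∈ range 2, (X : (ZMod p)[X]) ^ i = X - C (-1) := by
    simp [sum_range_succ, add_comm]
  rw [this, dvd_iff_isRoot, IsRoot.def, eval_sub, eval_pow, eval_C, hb, sub_self]

theorem splitR_spec {c0 : ℕ}
    {cv : ℕ → (ZMod p)[X] → (ZMod p)[X] → (ZMod p)[X] → List (ZMod p)[X]} (hcv : CurveSpec c0 cv)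
    (tab : List ((ZMod p)[X] × (ZMod p)[X])) (N : ℕ) (htab : TabOk tab N) :
    SplitSpec (splitR c0 cv tab) N := by
  intro m hm hd h2 hN
  rcases le_or_gt p ((m.natDegree + 2) ^ (c0 + 1)) with hp | hp
  · obtain ⟨s, -, hn, hr⟩ := exists_nodal hm hd
    obtain ⟨a, ha, b, hb, hab⟩ := one_lt_card.1 (hn ▸ h2 : 1 < s.card)
    refine ⟨X - C a, List.mem_append_left _ (List.mem_map.2 ⟨a.val,
      List.mem_range.2 ((ZMod.val_lt a).trans_le hp), by rw [ZMod.natCast_zmod_val]⟩), a, b,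
      (hr a).2 ha, (hr b).2 hb, root_X_sub_C.2 rfl, fun h => hab (root_X_sub_C.1 h)⟩
  · have h1 : m.natDegree + 2 ≤ (m.natDegree + 2) ^ (c0 + 1) := Nat.le_self_pow (by omega) _
    have h3 : (m.natDegree + 2) ^ c0 ≤ (m.natDegree + 2) ^ (c0 + 1) :=
      Nat.pow_le_pow_right (by omega) (by omega)
    rcases Nat.even_or_odd m.natDegree with hev | hodd
    · obtain ⟨c, hc, hc'⟩ := tourn_spec (htab 2 (by omega) Nat.prime_two (by omega)).not_sq hm hd
        (by omega) hev (by omega)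
      exact ⟨c, List.mem_append_right _ (List.mem_append_left _ hc), hc'⟩
    · have hr := Nat.minFac_prime (n := m.natDegree) (by omega)
      have hle := Nat.minFac_le (n := m.natDegree) (by omega)
      obtain ⟨c, hc, hc'⟩ := hcv _ _ _ m hr (hodd.of_dvd_nat (Nat.minFac_dvd _))
        (htab _ (by omega) hr (by omega)) hm hd (Nat.minFac_dvd _) (by omega) (by omega)
      exact ⟨c, List.mem_append_right _ (List.mem_append_right _ hc), hc'⟩

end Vale.Agent.P319.Alg
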