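import Vale.Agent.P319.Alg.TowerDef
import Vale.Agent.P319.Alg.Split
import Vale.Agent.P319.Alg.GenSpec

/-!
P319: the curve algorithm over the prime field meets its specification.
-/

open Polynomial

namespace Vale.Agent.P319.Crv

open Gen Vale.Agent.Lib.Dep

/-- the statement about the curve algorithm in a component -/
def CurveSt : Prop :=
  ∀ (A k : Type) [CommRing A] [Field k] (Q : ℕ) (ψ : A →+* k) [IsAlgClosed k]
    (C : Cv k) (f : A[X]) (z : A) (Z : C.Mu), Dat C Q ψ f z Z →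
    (∀ j : ℕ, 1 ≤ j → j ≤ C.r * C.nu → (j : k) ≠ 0) →
    ∀ (g : A) (e n' : ℕ), C.r * C.nu = C.r ^ e * n' → ¬ C.r ∣ n' →
    ∀ σ : k ≃+* k, Ari C Q e σ (ψ g) →
    ∃ c ∈ curve Q C.r C.nu e f z g, ∃ a a' : k, C.F.eval a = 0 ∧ C.F.eval a' = 0 ∧
      (c.map ψ).eval a = 0 ∧ (c.map ψ).eval a' ≠ 0

namespace Tower

variable {R : Type} [CommRing R]

theorem rep_zero (h : R[X]) : rep (0 : AdjoinRoot (mon h)) = 0 := by
  rw [rep_eq (mon_monic h), map_zero]

theorem eval_coord (h : R[X]) (c : (AdjoinRoot (mon h))[X]) (a : R) (i : ℕ) :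
    (mapc (fun x => (rep x).coeff i) c).eval a =
      (rep (c.eval (AdjoinRoot.of (mon h) a))).coeff i := by
  rw [mapc, eval_finsetSum, eval_eq_sum_range, rep_eq (mon_monic h), map_sum, finsetSum_coeff]
  refine Finset.sum_congr rfl fun j _ => ?_
  have e : c.coeff j * AdjoinRoot.of (mon h) a ^ j = a ^ j • c.coeff j := by
    rw [Algebra.smul_def, map_pow, mul_comm]
    rfl
  rw [eval_monomial, e, map_smul, coeff_smul, smul_eq_mul, mul_comm, rep_eq (mon_monic h)]

/-- a polynomial vanishes at a point of the ground ring iff all its coordinates do -/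
theorem coords_spec (h : R[X]) (c : (AdjoinRoot (mon h))[X]) (a : R) :
    c.eval (AdjoinRoot.of (mon h) a) = 0 ↔ ∀ d ∈ coords h c, d.eval a = 0 := by
  constructor
  · intro h0 d hd
    obtain ⟨i, -, rfl⟩ := List.mem_map.1 hd
    rw [eval_coord, h0, rep_zero, coeff_zero]
  · intro hd
    apply rep_injective
    rw [rep_zero]
    nontriviality R
    ext i
    rw [coeff_zero]
    by_cases hi : i < h.natDegree
    · rw [← eval_coord]
      exact hd _ (List.mem_map.2 ⟨i, List.mem_range.2 hi, rfl⟩)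
    · refine coeff_eq_zero_of_degree_lt ((degree_rep_lt (mon_monic h) _).trans_le ?_)
      rw [degree_eq_natDegree (mon_monic h).ne_zero, natDegree_mon]
      exact_mod_cast not_lt.1 hi

theorem pow_iter {k : Type} [Field k] (σ : k ≃+* k) {q : ℕ} (hσ : ∀ x, σ x = x ^ q) (N : ℕ)
    (x : k) : (σ ^ N) x = x ^ q ^ N := by
  induction N generalizing x with
  | zero => simp
  | succ N ih =>
    rw [pow_succ, pow_succ']
    change (σ ^ N) (σ x) = _
    rw [ih, hσ, ← pow_mul]

/-- the curve algorithm over a finite field `K` which contains the prime field, a primitive `r`-th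
root of unity `z` of a subfield with `p ^ d` elements, and a non-residue `g` -/
theorem field_spec (H : CurveSt) {p : ℕ} [Fact p.Prime] {K : Type} [Field K] [Fintype K] (ι : ZMod p →+* K)
    {r d e : ℕ} (hr : r.Prime) (hodd : Odd r) {m : (ZMod p)[X]} (hm : m.Monic)
    (hmd : m ∣ X ^ p - X) (hrm : r ∣ m.natDegree) (h0 : 0 < m.natDegree) (hp : m.natDegree < p)
    (he : e = padicValNat r m.natDegree) (hd : r ∣ p ^ d - 1)
    (hcard : Fintype.card K = (p ^ d) ^ r ^ e) {z g : K}
    (hz : ∑ i ∈ Finset.range r, z ^ i = 0) (hg : ∀ b : K, b ^ r ≠ g) :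
    ∃ c ∈ curve ((p ^ d) ^ r ^ e) r (m.natDegree / r) e (m.map ι) z g, ∃ a a' : ZMod p,
      m.IsRoot a ∧ m.IsRoot a' ∧ c.eval (ι a) = 0 ∧ c.eval (ι a') ≠ 0 := by
  have hpp : p.Prime := Fact.out
  have : Fact r.Prime := ⟨hr⟩
  have : CharP K p := charP_of_injective_ringHom ι.injective p
  let k := AlgebraicClosure K
  let ψ : K →+* k := algebraMap K k
  have : CharP k p := charP_of_injective_ringHom ψ.injective p
  have hrle : r ≤ m.natDegree := Nat.le_of_dvd h0 hrm
  have hj : ∀ j : ℕ, 1 ≤ j → j ≤ m.natDegree → (j : k) ≠ 0 := fun j h1 h2 h3 => by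
    have := Nat.le_of_dvd h1 ((CharP.cast_eq_zero_iff k p j).1 h3)
    omega
  have hn : r * (m.natDegree / r) = m.natDegree := Nat.mul_div_cancel' hrm
  let C : Cv k :=
    { r := r
      nu := m.natDegree / r
      F := (m.map ι).map ψ
      hr := hr
      hodd := hodd
      hrk := hj r hr.pos hrle
      hnu := Nat.div_pos hrle hr.pos
      hdeg := by rw [natDegree_map, natDegree_map, hn]
      hsep := (Alg.separable_of_dvd hmd).map.map }
  have hzp : IsPrimitiveRoot z r := Alg.prim_root (p := p) hr (by omega) hz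
  have hzk : IsPrimitiveRoot (ψ z) r := hzp.map_of_injective ψ.injective
  have : NeZero r := ⟨hr.ne_zero⟩
  let Z : C.Mu := rootsOfUnity.mkOfPowEq (ψ z) hzk.pow_eq_one
  have hZ : Z.val = ψ z := rootsOfUnity.coe_mkOfPowEq _
  have hQr : r ∣ Fintype.card K - 1 := Alg.dvd_card_sub_one hr.ne_zero hzp
  have h3 : 3 ≤ Fintype.card K := by
    have h1 := Fintype.one_lt_card (α := K)
    have h2 := Nat.le_of_dvd (by omega) hQr
    have h4 := hr.two_le
    omega
  have hdat : Dat C ((p ^ d) ^ r ^ e) ψ (m.map ι) z Z :=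
    { comp := ⟨hcard ▸ h3, fun x => by rw [← map_pow, ← hcard, FiniteField.pow_card]⟩
      monic := hm.map ι
      mapf := rfl
      mapz := hZ.symm
      prim := hZ ▸ hzk }
  have hroot : ∀ a : k, C.F.eval a = 0 → ∃ b : ZMod p, m.IsRoot b ∧ ψ (ι b) = a := by
    intro a ha
    have h1 : (m.map (ψ.comp ι)).IsRoot a := by rw [← map_map]; exact ha
    obtain ⟨b, rfl⟩ := (Alg.splits_of_dvd hmd).mem_range_of_isRoot hm.ne_zero h1
    exact ⟨b, (isRoot_map_iff (ψ.comp ι).injective).1 h1, rfl⟩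
  let σ : k ≃+* k := iterateFrobeniusEquiv k p d
  have hσ : ∀ x, σ x = x ^ p ^ d := fun x => iterateFrobeniusEquiv_def k p d x
  have hσι : ∀ b : ZMod p, σ (ψ (ι b)) = ψ (ι b) := fun b => by
    rw [hσ, ← map_pow, ← map_pow, ZMod.pow_card_pow]
  have hg0 : g ≠ 0 := Alg.ne_zero_of_not_pow hr.ne_zero hg
  have hari : Ari C ((p ^ d) ^ r ^ e) e σ (ψ g) :=
    { fix :=
        { mapF := by
            ext i
            change (((m.map ι).map ψ).map _).coeff i = ((m.map ι).map ψ).coeff i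
            rw [coeff_map, coeff_map, coeff_map]
            exact hσι _
          root := fun a ha => by
            obtain ⟨b, -, rfl⟩ := hroot a ha
            exact hσι b
          mu := fun w => by
            obtain ⟨t, ht⟩ := hd
            have h1 : p ^ d = r * t + 1 := by
              have := Nat.pow_pos (n := d) hpp.pos
              omega
            have h2 : w.val ^ r = 1 := w.val_pow_r
            rw [hσ, h1, pow_succ, pow_mul, h2, one_pow, one_mul] }
      frob := pow_iter σ hσ _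
      dvd := hcard ▸ hQr
      g_pow := by rw [← map_pow, ← hcard, FiniteField.pow_card_sub_one_eq_one g hg0, map_one]
      g_ne := fun h => Alg.pow_div_ne_one hQr hg (ψ.injective (by
        rw [map_pow, map_one, hcard]
        exact h)) }
  obtain ⟨n', hn'⟩ : r ^ e ∣ m.natDegree := he ▸ pow_padicValNat_dvd
  have hnd : ¬ r ∣ n' := fun h => pow_succ_padicValNat_not_dvd (p := r) h0.ne' (by
    rw [← he, pow_succ, hn']
    exact Nat.mul_dvd_mul_left _ h)
  obtain ⟨c, hc, a, a', ha, ha', h1, h2⟩ := H K k _ ψ C _ z Z hdat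
    (fun j h1 h2 => hj j h1 (hn ▸ h2)) g e n' (hn.trans hn') hnd σ hari
  obtain ⟨b, hb, rfl⟩ := hroot a ha
  obtain ⟨b', hb', rfl⟩ := hroot a' ha'
  rw [eval_map_apply] at h1 h2
  exact ⟨c, hc, b, b', hb, hb', ψ.injective (h1.trans (map_zero ψ).symm),
    fun h => h2 (by rw [h, map_zero])⟩

end Tower

open Tower

theorem curveP_spec (H : CurveSt) {p : ℕ} [Fact p.Prime] : Alg.CurveSpec (p := p) 1 (curveP p) := by
  intro r h g m hr hodd ⟨h1, h2, h3, h4⟩ hm hmd hrm h0 hp
  have hp' : m.natDegree < p := by rw [pow_one] at hp; omega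
  have e1 : mon h = h := mon_eq h1
  have : Fact (Irreducible (mon h)) := ⟨e1.symm ▸ h2⟩
  have : Finite (AdjoinRoot (mon h)) := Alg.finite_adjoinRoot (mon_monic h).ne_zero
  let _ : Fintype (AdjoinRoot (mon h)) := Fintype.ofFinite _
  have hc0 : Fintype.card (AdjoinRoot (mon h)) = p ^ h.natDegree := by
    rw [Alg.card_adjoinRoot (mon_monic h).ne_zero, ZMod.card, natDegree_mon]
  have hγ : ∀ b : AdjoinRoot (mon h), b ^ r ≠ AdjoinRoot.mk (mon h) g := by
    intro b hb
    obtain ⟨b, rfl⟩ := AdjoinRoot.mk_surjective b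
    rw [← map_pow, AdjoinRoot.mk_eq_mk, e1] at hb
    exact h4 b hb
  have hz : ∑ i ∈ Finset.range r, AdjoinRoot.root (mon h) ^ i = 0 := by
    have : AdjoinRoot.mk (mon h) (∑ i ∈ Finset.range r, X ^ i) = 0 :=
      AdjoinRoot.mk_eq_zero.2 (e1.symm ▸ h3)
    simpa using this
  have : CharP (AdjoinRoot (mon h)) p :=
    charP_of_injective_ringHom (AdjoinRoot.of (mon h)).injective p
  have hrle : r ≤ m.natDegree := Nat.le_of_dvd h0 hrm
  have hd : r ∣ p ^ h.natDegree - 1 :=
    hc0 ▸ Alg.dvd_card_sub_one hr.ne_zero (Alg.prim_root (p := p) hr (by omega) hz)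
  generalize he : padicValNat r m.natDegree = e
  have hk : (kum (r ^ e) h g).Monic := monic_X_pow_sub_C _ (pow_ne_zero e hr.ne_zero)
  have e2 : mon (kum (r ^ e) h g) = X ^ r ^ e - C (AdjoinRoot.mk (mon h) g) := mon_eq hk
  have : Fact (Irreducible (mon (kum (r ^ e) h g))) := ⟨e2.symm ▸ Alg.kummer_irred hr hodd hγ e⟩
  have : Finite (AdjoinRoot (mon (kum (r ^ e) h g))) :=
    Alg.finite_adjoinRoot (mon_monic _).ne_zero
  let _ : Fintype (AdjoinRoot (mon (kum (r ^ e) h g))) := Fintype.ofFinite _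
  have hc1 : Fintype.card (AdjoinRoot (mon (kum (r ^ e) h g))) = (p ^ h.natDegree) ^ r ^ e := by
    rw [Alg.card_adjoinRoot (mon_monic _).ne_zero, hc0, e2, natDegree_X_pow_sub_C]
  obtain ⟨c, hc, a, a', ha, ha', k1, k2⟩ := field_spec H
    ((AdjoinRoot.of (mon (kum (r ^ e) h g))).comp (AdjoinRoot.of (mon h))) hr hodd hm hmd hrm h0 hp'
    he.symm hd hc1 (z := AdjoinRoot.of _ (AdjoinRoot.root (mon h))) (g := AdjoinRoot.root _)
    (by simpa using congrArg (AdjoinRoot.of (mon (kum (r ^ e) h g))) hz)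
    (Alg.kummer_not_pow hr hodd hγ e e2)
  rw [RingHom.comp_apply, coords_spec] at k1
  rw [RingHom.comp_apply, Ne, coords_spec] at k2
  push Not at k2
  obtain ⟨d, hd1, hd2⟩ := k2
  rw [Ne, coords_spec] at hd2
  push Not at hd2
  obtain ⟨d', hd3, hd4⟩ := hd2
  refine ⟨d', ?_, a, a', ha, ha', (coords_spec h d a).1 (k1 d hd1) d' hd3, hd4⟩
  rw [curveP, he]
  refine List.mem_flatMap.2 ⟨d, List.mem_flatMap.2 ⟨c, ?_, hd1⟩, hd3⟩
  rw [curveT, map_map]
  exact hc

end Vale.Agent.P319.Crv
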