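import Vale.Agent.P319.Alg.Final
import Vale.Agent.P319.Alg.ChainSpec
import Vale.Agent.P319.Alg.Tower
import Vale.Agent.P319.Cv.Triv

/-!
P319: the curve algorithm in a component.
-/

open Polynomial

namespace Vale.Agent.P319.Crv

open Gen Vale.Agent.Lib.Dep

variable {A k : Type} [CommRing A] [Field k] {Q : ℕ} {ψ : A →+* k} [IsAlgClosed k] {C : Cv k}
  {f : A[X]} {z : A} {Z : C.Mu}

namespace CSB

omit [IsAlgClosed k] in
theorem nD_sum (Z : C.Mu) {ι : Type} (s : Finset ι) (D : ι → C.Div) :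
    C.nD Z (∑ i ∈ s, D i) = ∑ i ∈ s, C.nD Z (D i) := by
  simp only [Cv.nD, Cv.sD, map_sum]
  exact Finset.sum_comm

theorem sum_ram : ∑ a : Rt C, Finsupp.single (Cv.ram a.1 a.2 : C.Pt) (1 : ℤ) = C.R := by
  classical
  ext P
  rw [Finsupp.finsetSum_apply]
  by_cases hP : P.IsRam
  · rw [Cv.R_ram hP, Finset.sum_eq_single ⟨P.x0, hP.eval⟩]
    · rw [← hP.eq_ram, Finsupp.single_eq_same]
    · intro b _ hb
      exact Finsupp.single_eq_of_ne fun h => hb (Subtype.ext (congrArg Cv.Pt.x0 h).symm)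
    · simp
  · rw [Cv.R_unram hP]
    refine Finset.sum_eq_zero fun b _ => Finsupp.single_eq_of_ne fun h => hP ?_
    rw [h]
    exact Cv.isRam_ram _ _

end CSB

open CSB

theorem curve_specB (h : Dat C Q ψ f z Z) (hp : ∀ j : ℕ, 1 ≤ j → j ≤ C.r * C.nu → (j : k) ≠ 0)
    {g : A} {e n' : ℕ} (hn : C.r * C.nu = C.r ^ e * n')
    (hn' : ¬ C.r ∣ n') {σ : k ≃+* k} (hA : Ari C Q e σ (ψ g)) :
    ∃ c ∈ curve Q C.r C.nu e f z g, ∃ a a' : k, C.F.eval a = 0 ∧ C.F.eval a' = 0 ∧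
      (c.map ψ).eval a = 0 ∧ (c.map ψ).eval a' ≠ 0 := by
  classical
  have hF := h.F_monic
  have key : ∀ a : Rt C, ∃ D : C.Div, C.Pres a.1 (mu C.r C.nu) (mB C.r C.nu) D
      ((chainU Q C.r C.nu e f z g).1.map (h.cmp a)) (m3 (h.cmp a) (chainU Q C.r C.nu e f z g).2) ∧
      Cv.Inv hF Z (Cv.ram a.1 a.2) (e * (C.r - 1)) D := by
    intro a
    have h1 : C.F.eval (h.cmp a (AdjoinRoot.root (mon f))) = 0 := by rw [h.cmp_root]; exact a.2
    have := chain_spec (h.univ hA a) hF h1 (g := AdjoinRoot.of (mon f) g) (e := e) (σ := σ)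
      (by rwa [h.cmp_of]) le_rfl
    simpa only [h.cmp_root, chainU] using this
  choose D hD hI using key
  have hdiv : C.r * C.nu / C.r ^ e = n' := by
    rw [hn, Nat.mul_div_cancel_left _ (pow_pos C.r_pos e)]
  have hI1 : (C.Pone hF).IsInf := Cv.isInf_inf
  have hH : C.nD Z (Finsupp.single (C.Pone hF) 1) = C.H :=
    (Cv.H_eq_nD (Cv.Mu.ne_one_of_prim h.prim) hI1).symm
  have c3 : ((C.r - 1 : ℕ) : ℤ) = C.r - 1 := by rw [Nat.cast_sub C.r_pos]; simp
  have hcard := card_Rt hF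
  have hT : (0 : C.Div) ≤ C.H - Finsupp.single (C.Pone hF) 1 := fun P => by
    rw [Finsupp.sub_apply, Finsupp.single_apply]
    split_ifs with hP
    · rw [← hP, Cv.H_inf hI1]
      exact le_rfl
    · rw [sub_zero]
      exact Cv.H_nonneg P
  have hU : (finU Q C.r C.nu e f z g).map ψ =
      ∏ a : Rt C, (chainU Q C.r C.nu e f z g).1.map (h.cmp a) := h.map_nrm1 hp _
  refine final_spec h hA
    (W := ∑ a : Rt C, D a + (n' : ℤ) • (C.H - Finsupp.single (C.Pone hF) 1)) ?_ ?_ ?_ ?_ ?_ ?_ ?_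
  · exact add_nonneg (Finset.sum_nonneg fun a _ => (hD a).nonneg)
      (zsmul_nonneg hT (Int.natCast_nonneg _))
  · rw [hU]
    exact Finset.prod_ne_zero_iff.2 fun a _ => (hD a).u_ne
  · rw [hU, map_prod, Cv.div_prod _ _ fun a _ => C.pol_ne (hD a).u_ne, Cv.nD, Cv.sD_add,
      Cv.sD_zsmul, Cv.sD_sub, Cv.sD_H, ← Cv.nD, ← Cv.nD, hH, nD_sum,
      ← Finset.sum_congr rfl fun a _ => (hD a).norm Z h.prim, Finset.sum_add_distrib,
      Finset.sum_const, Finset.card_univ, hcard, finD, hdiv]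
    push_cast [c3]
    module
  · have h1 := Cv.Cont.prod Finset.univ fun a _ => (hD a).cont
    have h2 := (cont_piW (Cv.cont_Pone hF) Z (l := 1) C.r_pos).pow n'
    have h3 := h1.mul h2
    rw [finS, map_mul, h.map_nrm3 hp, map_pow, hdiv, coe_mapRingHom, map_piW, map_formInf, h.mapz,
      Polynomial.map_mul, Polynomial.map_pow, Polynomial.map_prod]
    convert h3 using 1
    · rfl
    rw [Cv.sD_one, Cv.nD, Cv.sD_sub, Cv.sD_zsmul, Cv.sD_H, ← Cv.nD, hH, Finset.sum_sub_distrib,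
      Finset.sum_const, Finset.card_univ, hcard, finM, hdiv]
    push_cast [c3]
    module
  · intro P hP
    have hne : P ≠ C.Pone hF := fun e => hI1.not_ram (e ▸ hP)
    rw [Finsupp.add_apply, Finsupp.smul_apply, Finsupp.sub_apply, Cv.H_ram hP,
      Finsupp.single_eq_of_ne hne, Finsupp.finsetSum_apply,
      Finset.sum_eq_single ⟨P.x0, hP.eval⟩]
    · rw [← (hD ⟨P.x0, hP.eval⟩).deg]
      simpa using Cv.le_deg (hD ⟨P.x0, hP.eval⟩).nonneg P
    · intro b _ hb
      rw [hP.eq_ram]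
      exact (hD b).ram _ _ fun e => hb (Subtype.ext e.symm)
    · simp
  · have h1 := Cv.Triv.sum (s := Finset.univ) fun a _ => Cv.inv_end h.prim (hI a)
    refine ((h1.sub Cv.triv_R).add (Cv.triv_H.nsmul (C.r ^ e * n'))).congr ?_
    rw [Finset.sum_sub_distrib, Finset.sum_sub_distrib, sum_ram, Finset.sum_const,
      Finset.card_univ, hcard, hn, ← Finset.smul_sum]
    module
  · rw [map_add, map_sum, Finset.sum_congr rfl fun a _ => (hD a).deg, map_zsmul, map_sub,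
      Cv.deg_H, Cv.deg_single, Finset.sum_const, smul_eq_mul, nsmul_eq_mul]
    intro hd
    have h1 : (C.r : ℤ) ∣ n' := by
      have h2 : (C.r : ℤ) ∣ ((Finset.univ : Finset (Rt C)).card : ℤ) * (C.r * mu C.r C.nu : ℕ) +
          n' * C.r := by
        push_cast
        exact dvd_add (Dvd.dvd.mul_left (dvd_mul_right _ _) _) (dvd_mul_left _ _)
      have := dvd_sub h2 hd
      rwa [add_sub_add_left_eq_sub, ← mul_sub, sub_sub_cancel, mul_one] at this
    exact hn' (Int.natCast_dvd_natCast.1 h1)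

theorem curveSt : CurveSt :=
  fun _ _ _ _ _ _ _ _ _ _ _ h hp _ _ _ hn hn' _ hA => curve_specB h hp hn hn' hA

end Vale.Agent.P319.Crv
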