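import Mathlib.NumberTheory.JacobiSum.Basic
import Mathlib.FieldTheory.IsAlgClosed.AlgebraicClosure
import Mathlib.RingTheory.RootsOfUnity.AlgebraicallyClosed
import Mathlib.FieldTheory.KummerExtension
import Mathlib.RingTheory.Norm.Basic

/-!
P319: an explicit element which is not an `r`-th power (the `r`-th power of a Gauss sum, computed
as a product of Jacobi sums), and the Kummer extension it defines.
-/

open Polynomial Finset

namespace Vale.Agent.P319.Alg

/-- the character modulo `l` of order `r` which takes the value `ζ` at `p` -/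
def chi {K : Type} [CommRing K] (l r p : ℕ) (ζ : K) (a : ℕ) : K :=
  ∑ i ∈ range r, if a ^ ((l - 1) / r) % l = p ^ ((l - 1) / r * i) % l then ζ ^ i else 0

/-- the `r`-th power of the Gauss sum of this character -/
def gam {K : Type} [CommRing K] (l r p : ℕ) (ζ : K) : K :=
  chi l r p ζ (l - 1) * l *
    ∏ i ∈ range (r - 2), ∑ x ∈ range l, chi l r p ζ x * chi l r p ζ (l + 1 - x) ^ (i + 1)

theorem map_chi {K K' : Type} [CommRing K] [CommRing K'] (f : K →+* K') (l r p : ℕ) (ζ : K)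
    (a : ℕ) : f (chi l r p ζ a) = chi l r p (f ζ) a := by
  simp only [chi, map_sum, apply_ite f, map_pow, map_zero]

theorem map_gam {K K' : Type} [CommRing K] [CommRing K'] (f : K →+* K') (l r p : ℕ) (ζ : K) :
    f (gam l r p ζ) = gam l r p (f ζ) := by
  simp only [gam, map_mul, map_prod, map_sum, map_pow, map_chi, map_natCast]

section Char

variable {K : Type} [Field K] {l r p : ℕ} [Fact l.Prime]

open Classical in
/-- the character as a function on residues -/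
noncomputable def chiZ (l r p : ℕ) (ζ : K) (a : ZMod l) : K :=
  ∑ i ∈ range r, if a ^ ((l - 1) / r) = ((p : ZMod l) ^ ((l - 1) / r)) ^ i then ζ ^ i else 0

theorem chi_eq (ζ : K) (a : ℕ) : chi l r p ζ a = chiZ l r p ζ (a : ZMod l) := by
  refine sum_congr rfl fun i _ => if_congr ?_ rfl rfl
  rw [← pow_mul, ← Nat.cast_pow, ← Nat.cast_pow, ZMod.natCast_eq_natCast_iff']

theorem chiZ_of_eq {ζ : K} (hζ : ζ ^ r = 1) (hr : 0 < r)
    (hg : IsPrimitiveRoot ((p : ZMod l) ^ ((l - 1) / r)) r) {a : ZMod l} {j : ℕ}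
    (h : a ^ ((l - 1) / r) = ((p : ZMod l) ^ ((l - 1) / r)) ^ j) : chiZ l r p ζ a = ζ ^ j := by
  rw [chiZ, sum_eq_single (j % r)]
  · rw [if_pos (by rw [h, ← pow_eq_pow_mod _ hg.pow_eq_one]), ← pow_eq_pow_mod _ hζ]
  · intro i hi hij
    refine if_neg fun h' => hij ?_
    rw [h, pow_eq_pow_mod _ hg.pow_eq_one] at h'
    exact (hg.pow_inj (Nat.mod_lt _ hr) (mem_range.1 hi) h').symm
  · intro h'
    exact absurd (mem_range.2 (Nat.mod_lt _ hr)) h'

theorem div_pos' (hr : 0 < r) (hd : r ∣ l - 1) : 0 < (l - 1) / r :=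
  Nat.div_pos (Nat.le_of_dvd (by have := (Fact.out : l.Prime).two_le; omega) hd) hr

theorem chiZ_zero (ζ : K) (hr : 0 < r) (hd : r ∣ l - 1)
    (hg : IsPrimitiveRoot ((p : ZMod l) ^ ((l - 1) / r)) r) : chiZ l r p ζ 0 = 0 := by
  refine sum_eq_zero fun i _ => if_neg ?_
  rw [zero_pow (div_pos' hr hd).ne']
  exact (pow_ne_zero _ (hg.ne_zero hr.ne')).symm

theorem exists_ind (hr : 0 < r) (hd : r ∣ l - 1)
    (hg : IsPrimitiveRoot ((p : ZMod l) ^ ((l - 1) / r)) r) {a : ZMod l} (ha : a ≠ 0) :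
    ∃ j, a ^ ((l - 1) / r) = ((p : ZMod l) ^ ((l - 1) / r)) ^ j := by
  have : NeZero r := ⟨hr.ne'⟩
  obtain ⟨j, -, hj⟩ := hg.eq_pow_of_pow_eq_one (ξ := a ^ ((l - 1) / r)) (by
    rw [← pow_mul, Nat.div_mul_cancel hd, ZMod.pow_card_sub_one_eq_one ha])
  exact ⟨j, hj.symm⟩

/-- the character -/
noncomputable def chiM {ζ : K} (hζ : ζ ^ r = 1) (hr : 0 < r) (hd : r ∣ l - 1)
    (hg : IsPrimitiveRoot ((p : ZMod l) ^ ((l - 1) / r)) r) : MulChar (ZMod l) K where
  toFun := chiZ l r p ζ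
  map_one' := by rw [chiZ_of_eq hζ hr hg (j := 0) (by simp), pow_zero]
  map_mul' a b := by
    by_cases ha : a = 0
    · rw [ha, zero_mul, chiZ_zero ζ hr hd hg, zero_mul]
    by_cases hb : b = 0
    · rw [hb, mul_zero, chiZ_zero ζ hr hd hg, mul_zero]
    obtain ⟨i, hi⟩ := exists_ind hr hd hg ha
    obtain ⟨j, hj⟩ := exists_ind hr hd hg hb
    rw [chiZ_of_eq hζ hr hg hi, chiZ_of_eq hζ hr hg hj,
      chiZ_of_eq hζ hr hg (j := i + j) (by rw [mul_pow, hi, hj, pow_add]), pow_add]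
  map_nonunit' a ha := by
    rw [isUnit_iff_ne_zero, not_not] at ha
    rw [ha]
    exact chiZ_zero ζ hr hd hg

theorem sum_zmod {M : Type} [AddCommMonoid M] (l : ℕ) [NeZero l] (f : ZMod l → M) :
    ∑ x : ZMod l, f x = ∑ x ∈ range l, f (x : ZMod l) := by
  refine (sum_bij (s := range l) (fun x _ => ((x : ℕ) : ZMod l)) (fun _ _ => mem_univ _) (fun a ha b hb h => ?_)
    (fun b _ => ⟨b.val, mem_range.2 (ZMod.val_lt b), ZMod.natCast_zmod_val b⟩)
    fun _ _ => rfl).symm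
  rw [ZMod.natCast_eq_natCast_iff', Nat.mod_eq_of_lt (mem_range.1 ha),
    Nat.mod_eq_of_lt (mem_range.1 hb)] at h
  exact h

end Char

/-- In an algebraically closed field, `gam` is the `r`-th power of an element `G ≠ 0` with
`ζ ^ d G ^ p ^ d = G` whenever `p ^ d ≡ 1` modulo `r`. -/
theorem exists_gauss {K : Type} [Field K] [IsAlgClosed K] {l r p : ℕ} [Fact p.Prime] [CharP K p]
    (hr : r.Prime) (hl : l.Prime) (hlp : l ≠ p) (hd : r ∣ l - 1)
    (hne : (p : ZMod l) ^ ((l - 1) / r) ≠ 1) {ζ : K} (hζ : IsPrimitiveRoot ζ r) :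
    ∃ G : K, G ≠ 0 ∧ G ^ r = gam l r p ζ ∧
      ∀ d : ℕ, r ∣ p ^ d - 1 → ζ ^ d * G ^ p ^ d = G := by
  have : Fact l.Prime := ⟨hl⟩
  have : Fact r.Prime := ⟨hr⟩
  have hp : p.Prime := Fact.out
  have hp0 : (p : ZMod l) ≠ 0 := by
    rw [Ne, ZMod.natCast_eq_zero_iff, Nat.prime_dvd_prime_iff_eq hl hp]
    exact hlp
  have hl0 : (l : K) ≠ 0 := by
    rw [Ne, CharP.cast_eq_zero_iff K p, Nat.prime_dvd_prime_iff_eq hp hl]
    exact hlp.symm
  have hg : IsPrimitiveRoot ((p : ZMod l) ^ ((l - 1) / r)) r := by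
    have := orderOf_eq_prime (x := (p : ZMod l) ^ ((l - 1) / r)) (p := r) (by
      rw [← pow_mul, Nat.div_mul_cancel hd, ZMod.pow_card_sub_one_eq_one hp0]) hne
    conv_rhs => rw [← this]
    exact IsPrimitiveRoot.orderOf _
  set χ : MulChar (ZMod l) K := chiM hζ.pow_eq_one hr.pos hd hg with hχdef
  have hχ : ∀ a, χ a = chiZ l r p ζ a := fun a => rfl
  have hχp : χ p = ζ := by rw [hχ, chiZ_of_eq hζ.pow_eq_one hr.pos hg (j := 1) (by simp), pow_one]
  have hχr : χ ^ r = 1 := by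
    ext a
    obtain ⟨j, hj⟩ := exists_ind hr.pos hd hg a.ne_zero
    rw [MulChar.pow_apply_coe, hχ, chiZ_of_eq hζ.pow_eq_one hr.pos hg hj, ← pow_mul, mul_comm,
      pow_mul, hζ.pow_eq_one, one_pow, MulChar.one_apply_coe]
  have hχ1 : χ ≠ 1 := fun h => hζ.ne_one hr.one_lt (by
    rw [← hχp, h, MulChar.one_apply (isUnit_iff_ne_zero.2 hp0)])
  have hord : orderOf χ = r := orderOf_eq_prime hχr hχ1
  have : NeZero (l : K) := ⟨hl0⟩
  obtain ⟨η, hη⟩ := HasEnoughRootsOfUnity.exists_primitiveRoot K l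
  set ψ := AddChar.zmodChar l ((IsPrimitiveRoot.iff_def η l).mp hη).left
  have hψ : ψ.IsPrimitive := AddChar.zmodChar_primitive_of_primitive_root l hη
  refine ⟨gaussSum χ ψ, gaussSum_ne_zero_of_nontrivial (by rwa [ZMod.card]) hχ1 hψ, ?_, ?_⟩
  · have h1 := gaussSum_pow_eq_prod_jacobiSum (hord.symm ▸ hr.two_le) hψ
    rw [hord, ZMod.card] at h1
    rw [h1, gam, chi_eq, Nat.cast_sub hl.one_le, ZMod.natCast_self, Nat.cast_one, zero_sub, ← hχ,
      prod_Ico_eq_prod_range]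
    congr 1
    refine prod_congr rfl fun i _ => ?_
    rw [jacobiSum, sum_zmod]
    refine sum_congr rfl fun x hx => ?_
    rw [chi_eq, chi_eq, MulChar.pow_apply' _ (by omega), hχ, hχ, add_comm 1 i,
      Nat.cast_sub (by have := mem_range.1 hx; omega), Nat.cast_add, ZMod.natCast_self,
      Nat.cast_one, zero_add]
  · intro d hd'
    have h1 : ∀ d : ℕ, gaussSum χ ψ ^ p ^ d = gaussSum (χ ^ p ^ d) (ψ ^ p ^ d) := fun d => by
      induction d with
      | zero => simp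
      | succ d ih => rw [pow_succ, pow_mul, ih, gaussSum_frob, ← pow_mul, ← pow_mul]
    have h2 : χ ^ p ^ d = χ := by
      obtain ⟨c, hc⟩ := hd'
      have : p ^ d = r * c + 1 := by have := Nat.pos_of_ne_zero (pow_ne_zero d hp.ne_zero); omega
      rw [this, pow_succ, pow_mul, hχr, one_pow, one_mul]
    have h3 := gaussSum_mulShift χ ψ (Units.mk0 ((p : ZMod l) ^ d) (pow_ne_zero _ hp0))
    rw [Units.val_mk0, map_pow, hχp] at h3
    rw [h1, h2, AddChar.pow_mulShift, Nat.cast_pow, h3]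

theorem dvd_card_sub_one {K : Type} [Field K] [Fintype K] {r : ℕ} (hr : r ≠ 0) {ζ : K}
    (hζ : IsPrimitiveRoot ζ r) : r ∣ Fintype.card K - 1 :=
  hζ.dvd_of_pow_eq_one _ (FiniteField.pow_card_sub_one_eq_one ζ (hζ.ne_zero hr))

/-- the element `gam` of a finite field is not an `r`-th power -/
theorem gam_spec {K : Type} [Field K] [Fintype K] {l r p d : ℕ} [Fact p.Prime] [CharP K p]
    (hr : r.Prime) (hl : l.Prime) (hlp : l ≠ p) (hd : r ∣ l - 1)
    (hne : (p : ZMod l) ^ ((l - 1) / r) ≠ 1) {ζ : K} (hζ : IsPrimitiveRoot ζ r)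
    (hcard : Fintype.card K = p ^ d) (hrd : ¬ r ∣ d) (b : K) : b ^ r ≠ gam l r p ζ := by
  intro hb
  let ι := algebraMap K (AlgebraicClosure K)
  have hζ' : IsPrimitiveRoot (ι ζ) r := hζ.map_of_injective ι.injective
  obtain ⟨G, hG0, hG1, hG2⟩ := exists_gauss hr hl hlp hd hne hζ'
  have hdv : r ∣ p ^ d - 1 := hcard ▸ dvd_card_sub_one hr.ne_zero hζ
  have h1 : ι b ^ r = G ^ r := by rw [hG1, ← map_gam, ← hb, map_pow]
  have hb0 : b ≠ 0 := by
    rintro rfl
    rw [map_zero, zero_pow hr.ne_zero] at h1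
    exact pow_ne_zero _ hG0 h1.symm
  obtain ⟨c, hc⟩ := hdv
  have hq : p ^ d = r * c + 1 := by
    have := Nat.pos_of_ne_zero (pow_ne_zero d (Fact.out : p.Prime).ne_zero)
    omega
  have h2 : G ^ (r * c) = 1 := by
    rw [pow_mul, ← h1, ← pow_mul, ← hc, ← hcard, ← map_pow,
      FiniteField.pow_card_sub_one_eq_one b hb0, map_one]
  have h3 := hG2 d ⟨c, hc⟩
  rw [hq, pow_succ, h2, one_mul, mul_eq_right₀ hG0] at h3
  exact hrd (hζ'.dvd_of_pow_eq_one _ h3)

/-- Euler's criterion for `r`-th powers -/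
theorem pow_div_ne_one {K : Type} [Field K] [Fintype K] {r : ℕ} (hr : r ∣ Fintype.card K - 1)
    {g : K} (hg : ∀ b : K, b ^ r ≠ g) : g ^ ((Fintype.card K - 1) / r) ≠ 1 := by
  classical
  intro h
  have hc : 0 < Fintype.card K - 1 := by have := Fintype.one_lt_card (α := K); omega
  have hr0 : 0 < r := Nat.pos_of_dvd_of_pos hr hc
  have hg0 : g ≠ 0 := by
    rintro rfl
    exact hg 0 (zero_pow hr0.ne')
  obtain ⟨u, hu⟩ := IsCyclic.exists_monoid_generator (α := Kˣ)
  obtain ⟨m, hm⟩ := hu (Units.mk0 g hg0)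
  have hou : orderOf u = Fintype.card K - 1 := by
    rw [orderOf_eq_card_of_forall_mem_powers hu, Nat.card_eq_fintype_card, Fintype.card_units]
  have h1 : u ^ (m * ((Fintype.card K - 1) / r)) = 1 := by
    change u ^ m = _ at hm
    rw [pow_mul, hm]
    exact Units.ext (by simpa using h)
  rw [← orderOf_dvd_iff_pow_eq_one, hou] at h1
  obtain ⟨c, hc'⟩ := hr
  have hc0 : 0 < c := Nat.pos_of_mul_pos_left (hc' ▸ hc)
  rw [hc', Nat.mul_div_cancel_left _ hr0] at h1
  obtain ⟨j, rfl⟩ := Nat.dvd_of_mul_dvd_mul_right hc0 h1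
  refine hg ((u ^ j : Kˣ) : K) ?_
  change u ^ (r * j) = _ at hm
  rw [← Units.val_pow_eq_pow_val, ← pow_mul, mul_comm, hm, Units.val_mk0]

theorem ne_zero_of_not_pow {K : Type} [Field K] {r : ℕ} (hr : r ≠ 0) {g : K}
    (hg : ∀ b : K, b ^ r ≠ g) : g ≠ 0 := by
  rintro rfl
  exact hg 0 (zero_pow hr)

/-! ### The Kummer extension -/

theorem kummer_irred {K : Type} [Field K] {r : ℕ} (hr : r.Prime) (hodd : Odd r) {g : K}
    (hg : ∀ b : K, b ^ r ≠ g) (e : ℕ) : Irreducible (X ^ r ^ e - C g) :=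
  X_pow_sub_C_irreducible_of_prime_pow hr (by rintro rfl; exact absurd hodd (by decide)) e hg

/-- the adjoined root is not an `r`-th power -/
theorem kummer_not_pow {K : Type} [Field K] {r : ℕ} (hr : r.Prime) (hodd : Odd r) {g : K}
    (hg : ∀ b : K, b ^ r ≠ g) (e : ℕ) {f : K[X]} (hf : f = X ^ r ^ e - C g) (b : AdjoinRoot f) :
    b ^ r ≠ AdjoinRoot.root f := by
  intro hb
  have hm : f.Monic := hf ▸ monic_X_pow_sub_C g (pow_ne_zero e hr.ne_zero)
  have h1 := Algebra.PowerBasis.norm_gen_eq_coeff_zero_minpoly (AdjoinRoot.powerBasis hm.ne_zero)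
  rw [AdjoinRoot.minpoly_powerBasis_gen_of_monic hm, AdjoinRoot.powerBasis_gen,
    AdjoinRoot.powerBasis_dim, ← hb, map_pow] at h1
  refine hg (Algebra.norm K b) ?_
  rw [h1, hf, natDegree_X_pow_sub_C, (hodd.pow (n := e)).neg_one_pow, coeff_sub, coeff_X_pow,
    if_neg (pow_ne_zero e hr.ne_zero).symm, coeff_C_zero]
  ring

/-- the number of elements of a simple extension of a finite field -/
theorem card_adjoinRoot {K : Type} [Field K] [Fintype K] {f : K[X]} (hf : f ≠ 0)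
    [Fintype (AdjoinRoot f)] : Fintype.card (AdjoinRoot f) = Fintype.card K ^ f.natDegree := by
  have := (AdjoinRoot.powerBasis hf).finite
  rw [Module.card_eq_pow_finrank (K := K), (AdjoinRoot.powerBasis hf).finrank,
    AdjoinRoot.powerBasis_dim]

theorem finite_adjoinRoot {K : Type} [Field K] [Finite K] {f : K[X]} (hf : f ≠ 0) :
    Finite (AdjoinRoot f) :=
  have := (AdjoinRoot.powerBasis hf).finite
  Module.finite_of_finite K

end Vale.Agent.P319.Alg
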