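import Vale.Agent.P319.Alg.Proper
import Vale.Agent.P319.Alg.Gamma
import Vale.Agent.P319.NT.Defs
import Mathlib.Data.List.GetD

/-!
P319: complete factorization from a routine for split squarefree polynomials, and the table of
cyclotomic factors and elements which are not `r`-th powers.
-/

open Polynomial Finset

namespace Vale.Agent.P319.Alg

theorem find_cases {κ : Type} (L : List κ) (q : κ → Prop) [DecidablePred q] (d : κ) :
    ((L.find? fun x => decide (q x)).getD d = d ∧ ∀ x ∈ L, ¬ q x) ∨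
      ((L.find? fun x => decide (q x)).getD d ∈ L ∧ q ((L.find? fun x => decide (q x)).getD d)) := by
  rcases h : L.find? fun x => decide (q x) with _ | w
  · rw [List.find?_eq_none] at h
    exact Or.inl ⟨rfl, fun v hv => by simpa using h v hv⟩
  · exact Or.inr ⟨List.mem_of_find?_eq_some h, by simpa using List.find?_some h⟩

open Classical in
/-- the monic greatest common divisor -/
noncomputable def ngcd {F : Type} [Field F] (g c : F[X]) : F[X] := nrm (EuclideanDomain.gcd g c)

open Classical in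
theorem ngcd_dvd {F : Type} [Field F] (g c : F[X]) : ngcd g c ∣ g :=
  (nrm_dvd _).trans (EuclideanDomain.gcd_dvd_left g c)

theorem ngcd_monic {F : Type} [Field F] {g c : F[X]} (h : 0 < (ngcd g c).natDegree) :
    (ngcd g c).Monic := by
  refine nrm_monic fun h0 => ?_
  rw [ngcd, h0, natDegree_nrm] at h
  simp at h

theorem Cut.ngcd {F : Type} [Field F] {g c : F[X]} (hg : g ≠ 0) (h : Cut g c) :
    0 < (ngcd g c).natDegree ∧ (ngcd g c).natDegree < g.natDegree := by
  rw [Alg.ngcd, natDegree_nrm]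
  exact h.gcd hg

variable {p : ℕ} [Fact p.Prime]

/-- a proper monic divisor of `g`, or `1` -/
noncomputable def fdiv (sp : (ZMod p)[X] → List (ZMod p)[X]) (g : (ZMod p)[X]) : (ZMod p)[X] :=
  (((cands sp g).map fun c => ngcd g c).find?
    fun d => decide (0 < d.natDegree ∧ d.natDegree < g.natDegree)).getD 1

/-- one attempt to split `g` -/
noncomputable def split1 (sp : (ZMod p)[X] → List (ZMod p)[X]) (g : (ZMod p)[X]) :
    List (ZMod p)[X] :=
  if (fdiv sp g).natDegree = 0 then [g] else [fdiv sp g, g /ₘ fdiv sp g]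

/-- the work list after `j` rounds -/
noncomputable def work (sp : (ZMod p)[X] → List (ZMod p)[X]) (f : (ZMod p)[X]) (j : ℕ) :
    List (ZMod p)[X] :=
  (fun L => L.flatMap (split1 sp))^[j] (if f.natDegree = 0 then [] else [nrm f])

/-- the list of the monic irreducible factors -/
noncomputable def factor (sp : (ZMod p)[X] → List (ZMod p)[X]) (f : (ZMod p)[X]) :
    List (ZMod p)[X] := work sp f f.natDegree

theorem fdiv_cases (sp : (ZMod p)[X] → List (ZMod p)[X]) (g : (ZMod p)[X]) :
    (fdiv sp g = 1 ∧ (g ≠ 0 → ∀ c ∈ cands sp g, ¬ Cut g c)) ∨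
      ((fdiv sp g).Monic ∧ fdiv sp g ∣ g ∧ 0 < (fdiv sp g).natDegree ∧
        (fdiv sp g).natDegree < g.natDegree) := by
  rcases find_cases ((cands sp g).map fun c => ngcd g c)
    (fun d => 0 < d.natDegree ∧ d.natDegree < g.natDegree) 1 with ⟨h1, h2⟩ | ⟨h1, h2⟩
  · exact Or.inl ⟨h1, fun hg c hc hcut => h2 _ (List.mem_map_of_mem hc) (hcut.ngcd hg)⟩
  · change fdiv sp g ∈ _ at h1
    change 0 < (fdiv sp g).natDegree ∧ (fdiv sp g).natDegree < _ at h2
    obtain ⟨c, -, hc⟩ := List.mem_map.1 h1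
    rw [← hc] at h2 ⊢
    exact Or.inr ⟨ngcd_monic h2.1, ngcd_dvd g c, h2⟩

theorem split1_spec (sp : (ZMod p)[X] → List (ZMod p)[X]) {g : (ZMod p)[X]} (hg : g.Monic)
    (h0 : 0 < g.natDegree) :
    (split1 sp g).prod = g ∧ (∀ d ∈ split1 sp g, d.Monic ∧ 0 < d.natDegree) ∧
      1 ≤ (split1 sp g).length ∧ (Irreducible g → split1 sp g = [g]) ∧
      (SplitSpec sp g.natDegree → ¬ Irreducible g → 2 ≤ (split1 sp g).length) := by
  unfold split1
  rcases fdiv_cases sp g with ⟨h1, h2⟩ | ⟨h1, h2, h3, h4⟩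
  · rw [if_pos (by rw [h1, natDegree_one])]
    refine ⟨by simp, by simp [hg, h0], le_rfl, fun _ => rfl, fun hsp hirr => ?_⟩
    obtain ⟨c, hc, hc'⟩ := exists_cut hg hsp h0 hirr
    exact absurd hc' (h2 hg.ne_zero c hc)
  · rw [if_neg h3.ne']
    have h5 : fdiv sp g * (g /ₘ fdiv sp g) = g := by
      have := modByMonic_add_div g (fdiv sp g)
      rwa [(modByMonic_eq_zero_iff_dvd h1).2 h2, zero_add] at this
    refine ⟨by simpa using h5, ?_, by simp, fun hirr => ?_, fun _ _ => le_rfl⟩
    · intro d hd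
      rcases List.mem_pair.1 hd with rfl | rfl
      · exact ⟨h1, h3⟩
      · refine ⟨h1.of_mul_monic_left (h5.symm ▸ hg), ?_⟩
        rw [natDegree_divByMonic g h1]
        omega
    · exfalso
      rcases hirr.isUnit_or_isUnit h5.symm with h | h
      · exact h3.ne' (natDegree_eq_zero_of_isUnit h)
      · have := natDegree_eq_zero_of_isUnit h
        rw [natDegree_divByMonic g h1] at this
        omega

theorem length_le_natDegree {F : Type} [Field F] {L : List F[X]}
    (h : ∀ d ∈ L, d.Monic ∧ 0 < d.natDegree) :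
    L.prod.Monic ∧ L.length ≤ L.prod.natDegree ∧ ∀ d ∈ L, d.natDegree ≤ L.prod.natDegree := by
  induction L with
  | nil => simp
  | cons g L ih =>
    obtain ⟨h1, h2, h3⟩ := ih fun d hd => h d (List.mem_cons_of_mem _ hd)
    obtain ⟨h4, h5⟩ := h g List.mem_cons_self
    rw [List.prod_cons, h4.natDegree_mul h1, List.length_cons]
    refine ⟨h4.mul h1, by omega, fun d hd => ?_⟩
    rcases List.mem_cons.1 hd with rfl | hd
    · omega
    · have := h3 d hd
      omega

theorem round_spec (sp : (ZMod p)[X] → List (ZMod p)[X]) {L : List (ZMod p)[X]}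
    (h : ∀ d ∈ L, d.Monic ∧ 0 < d.natDegree) :
    (L.flatMap (split1 sp)).prod = L.prod ∧
      (∀ d ∈ L.flatMap (split1 sp), d.Monic ∧ 0 < d.natDegree) ∧
      L.length ≤ (L.flatMap (split1 sp)).length ∧
      ((∀ d ∈ L, Irreducible d) → L.flatMap (split1 sp) = L) ∧
      ((∀ d ∈ L, SplitSpec sp d.natDegree) → (∃ d ∈ L, ¬ Irreducible d) →
        L.length < (L.flatMap (split1 sp)).length) := by
  induction L with
  | nil => simp
  | cons g L ih =>
    obtain ⟨h1, h2, h3, h4, h5⟩ := ih fun d hd => h d (List.mem_cons_of_mem _ hd)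
    obtain ⟨k1, k2, k3, k4, k5⟩ :=
      split1_spec sp (h g List.mem_cons_self).1 (h g List.mem_cons_self).2
    rw [List.flatMap_cons, List.prod_append, List.length_append, List.length_cons, List.prod_cons,
      h1, k1]
    refine ⟨rfl, fun d hd => ?_, by omega, fun hi => ?_, fun hsp hd => ?_⟩
    · rcases List.mem_append.1 hd with hd | hd
      · exact k2 d hd
      · exact h2 d hd
    · rw [k4 (hi g List.mem_cons_self), h4 fun d hd => hi d (List.mem_cons_of_mem _ hd)]
      rfl
    · obtain ⟨d, hd, hd'⟩ := hd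
      rcases List.mem_cons.1 hd with rfl | hd
      · have := k5 (hsp d List.mem_cons_self) hd'
        omega
      · have := h5 (fun d hd => hsp d (List.mem_cons_of_mem _ hd)) ⟨d, hd, hd'⟩
        omega

theorem work_succ (sp : (ZMod p)[X] → List (ZMod p)[X]) (f : (ZMod p)[X]) (j : ℕ) :
    work sp f (j + 1) = (work sp f j).flatMap (split1 sp) := Function.iterate_succ_apply' _ _ _

theorem work_inv (sp : (ZMod p)[X] → List (ZMod p)[X]) (f : (ZMod p)[X]) (j : ℕ) :
    (∀ d ∈ work sp f j, d.Monic ∧ 0 < d.natDegree) ∧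
      (work sp f j).prod = if f.natDegree = 0 then 1 else nrm f := by
  induction j with
  | zero =>
    change (∀ d ∈ (if f.natDegree = 0 then [] else [nrm f]), _) ∧
      (if f.natDegree = 0 then [] else [nrm f]).prod = _
    split_ifs with h
    · simp
    · have h0 : f ≠ 0 := by rintro rfl; simp at h
      simp [nrm_monic h0, natDegree_nrm, Nat.pos_of_ne_zero h]
  | succ j ih =>
    obtain ⟨h1, h2, -⟩ := round_spec sp ih.1
    rw [work_succ, h1]
    exact ⟨h2, ih.2⟩

theorem natDegree_work_prod (sp : (ZMod p)[X] → List (ZMod p)[X]) (f : (ZMod p)[X]) (j : ℕ) :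
    (work sp f j).prod.natDegree = f.natDegree := by
  rw [(work_inv sp f j).2]
  split_ifs with h
  · rw [natDegree_one, h]
  · exact natDegree_nrm f

theorem work_bound (sp : (ZMod p)[X] → List (ZMod p)[X]) (f : (ZMod p)[X]) (j : ℕ) :
    (work sp f j).length ≤ f.natDegree ∧ ∀ d ∈ work sp f j, d.natDegree ≤ f.natDegree := by
  rw [← natDegree_work_prod sp f j]
  exact (length_le_natDegree (work_inv sp f j).1).2

theorem factor_prod (sp : (ZMod p)[X] → List (ZMod p)[X]) (f : (ZMod p)[X]) :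
    C f.leadingCoeff * (factor sp f).prod = f := by
  rw [factor, (work_inv sp f _).2]
  split_ifs with h
  · rw [mul_one, leadingCoeff, h, ← eq_C_of_natDegree_eq_zero h]
  · exact C_mul_nrm f

theorem factor_irred {sp : (ZMod p)[X] → List (ZMod p)[X]} {f : (ZMod p)[X]}
    (hsp : SplitSpec sp f.natDegree) : ∀ d ∈ factor sp f, d.Monic ∧ Irreducible d := by
  have key : ∀ j, (∀ d ∈ work sp f j, Irreducible d) ∨ j < (work sp f j).length := fun j => by
    induction j with
    | zero =>
      rcases h : work sp f 0 with _ | ⟨g, L⟩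
      · simp
      · simp
    | succ j ih =>
      obtain ⟨-, -, -, h4, h5⟩ := round_spec sp (work_inv sp f j).1
      rw [work_succ]
      by_cases h : ∀ d ∈ work sp f j, Irreducible d
      · rw [h4 h]
        exact Or.inl h
      · push Not at h
        have := h5 (fun d hd => hsp.mono ((work_bound sp f j).2 d hd)) h
        obtain ⟨d, hd, hd'⟩ := h
        rcases ih with ih | ih
        · exact absurd (ih d hd) hd'
        · exact Or.inr (by omega)
  intro d hd
  refine ⟨((work_inv sp f _).1 d hd).1, ?_⟩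
  rcases key f.natDegree with h | h
  · exact h d hd
  · exact absurd (work_bound sp f _).1 h.not_ge

/-! ### The table -/

/-- `h` is an irreducible factor of the `r`-th cyclotomic polynomial, and `g` is not an `r`-th power
modulo `h` -/
def Good (r : ℕ) (h g : (ZMod p)[X]) : Prop :=
  h.Monic ∧ Irreducible h ∧ h ∣ ∑ i ∈ range r, X ^ i ∧ ∀ b : (ZMod p)[X], ¬ h ∣ b ^ r - g

/-- the auxiliary prime -/
def ell (c r p : ℕ) : ℕ :=
  ((List.range ((r + Nat.size p) ^ c + 1)).find? fun l =>
    decide (l.Prime ∧ l ≠ p ∧ r ∣ l - 1 ∧ p ^ ((l - 1) / r) % l ≠ 1)).getD 0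

theorem ell_le (c r p : ℕ) : ell c r p ≤ (r + Nat.size p) ^ c := by
  unfold ell
  rcases h : (List.range ((r + Nat.size p) ^ c + 1)).find? fun l =>
    decide (l.Prime ∧ l ≠ p ∧ r ∣ l - 1 ∧ p ^ ((l - 1) / r) % l ≠ 1) with _ | l
  · exact Nat.zero_le _
  · exact Nat.le_of_lt_succ (List.mem_range.1 (List.mem_of_find?_eq_some h))

/-- the auxiliary primes are found with the exponent `c` -/
def EllOk (c : ℕ) : Prop := ∀ r p : ℕ, r.Prime → p.Prime →
  (ell c r p).Prime ∧ ell c r p ≠ p ∧ r ∣ ell c r p - 1 ∧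
    (p : ZMod (ell c r p)) ^ ((ell c r p - 1) / r) ≠ 1

theorem exists_ellOk (h : NT.SmallPrime) : ∃ c, EllOk c := by
  obtain ⟨c, hc⟩ := h
  have key : ∀ l q e : ℕ, l.Prime → ((q : ZMod l) ^ e ≠ 1 ↔ q ^ e % l ≠ 1) := fun l q e hl => by
    rw [← Nat.cast_pow, ← Nat.cast_one (R := ZMod l), Ne, ZMod.natCast_eq_natCast_iff',
      Nat.mod_eq_of_lt hl.one_lt]
  refine ⟨c, fun r q hr hq => ?_⟩
  obtain ⟨l, h1, h2, -, h4, h5, h6⟩ := hc r q hr hq
  unfold ell
  rcases h : (List.range ((r + Nat.size q) ^ c + 1)).find? fun l =>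
    decide (l.Prime ∧ l ≠ q ∧ r ∣ l - 1 ∧ q ^ ((l - 1) / r) % l ≠ 1) with _ | l'
  · rw [List.find?_eq_none] at h
    exact absurd (decide_eq_true ⟨h1, h4, (dvd_mul_left r 2).trans h5, (key l q _ h1).1 h6⟩)
      (h l (List.mem_range.2 (Nat.lt_succ_of_le h2)))
  · have h7 := List.find?_some h
    rw [decide_eq_true_eq] at h7
    exact ⟨h7.1, h7.2.1, h7.2.2.1, (key l' q _ h7.1).2 h7.2.2.2⟩

/-- the first factor of the `r`-th cyclotomic polynomial -/
noncomputable def cyc (sp : (ZMod p)[X] → List (ZMod p)[X]) (r : ℕ) : (ZMod p)[X] :=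
  (factor sp (∑ i ∈ range r, X ^ i)).headD 1

/-- the entry of the table for the prime `r` -/
noncomputable def entry (c : ℕ) (sp : (ZMod p)[X] → List (ZMod p)[X]) (r : ℕ) :
    (ZMod p)[X] × (ZMod p)[X] :=
  (cyc sp r, gam (ell c r p) r p X %ₘ cyc sp r)

theorem natDegree_geom (r : ℕ) : (∑ i ∈ range r, (X : (ZMod p)[X]) ^ i).natDegree ≤ r - 1 :=
  natDegree_sum_le_of_forall_le _ _ fun i hi => natDegree_X_pow_le i |>.trans (by
    have := mem_range.1 hi
    omega)

theorem cyc_bound (sp : (ZMod p)[X] → List (ZMod p)[X]) (r : ℕ) :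
    (cyc sp r).Monic ∧ (cyc sp r).natDegree ≤ r - 1 := by
  unfold cyc
  rcases h : factor sp (∑ i ∈ range r, (X : (ZMod p)[X]) ^ i) with _ | ⟨g, L⟩
  · simp
  · have hg : g ∈ factor sp (∑ i ∈ range r, (X : (ZMod p)[X]) ^ i) := h ▸ List.mem_cons_self
    exact ⟨((work_inv sp _ _).1 g hg).1, ((work_bound sp _ _).2 g hg).trans (natDegree_geom r)⟩

theorem prim_root {K : Type} [Field K] [CharP K p] {r : ℕ} (hr : r.Prime) (hrp : r ≠ p) {ζ : K}
    (h : ∑ i ∈ range r, ζ ^ i = 0) : IsPrimitiveRoot ζ r := by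
  have : Fact r.Prime := ⟨hr⟩
  have h1 : ζ ^ r = 1 := by
    have := mul_neg_geom_sum ζ r
    rw [h, mul_zero] at this
    exact (sub_eq_zero.1 this.symm).symm
  have h2 : ζ ≠ 1 := by
    rintro rfl
    simp only [one_pow, sum_const, card_range, nsmul_eq_mul, mul_one] at h
    rw [CharP.cast_eq_zero_iff K p, Nat.prime_dvd_prime_iff_eq Fact.out hr] at h
    exact hrp h.symm
  rw [← orderOf_eq_prime h1 h2]
  exact IsPrimitiveRoot.orderOf ζ

theorem entry_good {c : ℕ} (hc : EllOk c) {sp : (ZMod p)[X] → List (ZMod p)[X]} {r : ℕ}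
    (hr : r.Prime) (hrp : r ≠ p) (hsp : SplitSpec sp (r - 1)) :
    Good r (entry c sp r).1 (entry c sp r).2 := by
  have : Fact r.Prime := ⟨hr⟩
  have hΦ : (∑ i ∈ range r, (X : (ZMod p)[X]) ^ i).Monic := by
    rw [← cyclotomic_prime]
    exact cyclotomic.monic _ _
  have hΦd : (∑ i ∈ range r, (X : (ZMod p)[X]) ^ i).natDegree = r - 1 := by
    rw [← cyclotomic_prime, natDegree_cyclotomic, Nat.totient_prime hr]
  have h1 := factor_prod sp (∑ i ∈ range r, (X : (ZMod p)[X]) ^ i)
  rw [hΦ.leadingCoeff, C_1, one_mul] at h1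
  have hm : cyc sp r ∈ factor sp (∑ i ∈ range r, (X : (ZMod p)[X]) ^ i) := by
    unfold cyc
    rcases h : factor sp (∑ i ∈ range r, (X : (ZMod p)[X]) ^ i) with _ | ⟨g, L⟩
    · rw [h, List.prod_nil] at h1
      rw [← h1, natDegree_one] at hΦd
      have := hr.two_le
      omega
    · exact List.mem_cons_self
  obtain ⟨h2, h3⟩ := factor_irred (hΦd.symm ▸ hsp) _ hm
  have h4 : cyc sp r ∣ ∑ i ∈ range r, X ^ i := h1 ▸ List.dvd_prod hm
  refine ⟨h2, h3, h4, fun b hb => ?_⟩
  change cyc sp r ∣ b ^ r - gam (ell c r p) r p X %ₘ cyc sp r at hb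
  have : Fact (Irreducible (cyc sp r)) := ⟨h3⟩
  have := finite_adjoinRoot h2.ne_zero
  have := Fintype.ofFinite (AdjoinRoot (cyc sp r))
  have : CharP (AdjoinRoot (cyc sp r)) p :=
    charP_of_injective_algebraMap (algebraMap (ZMod p) _).injective p
  obtain ⟨k1, k2, k3, k4⟩ := hc r p hr Fact.out
  have hζ : IsPrimitiveRoot (AdjoinRoot.root (cyc sp r)) r := prim_root hr hrp (by
    have := AdjoinRoot.mk_eq_zero.2 h4
    simpa using this)
  refine gam_spec hr k1 k2 k3 k4 hζ (d := (cyc sp r).natDegree)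
    (by rw [card_adjoinRoot h2.ne_zero, ZMod.card]) (Nat.not_dvd_of_pos_of_lt h3.natDegree_pos
      (by have := (cyc_bound sp r).2; have := hr.pos; omega)) (AdjoinRoot.mk _ b) ?_
  rw [← map_pow, AdjoinRoot.mk_eq_mk.2 hb, ← AdjoinRoot.mk_X, ← map_gam, AdjoinRoot.mk_eq_mk]
  exact dvd_modByMonic_sub _ _

/-- the table with `N` entries -/
noncomputable def table (c : ℕ)
    (sp : List ((ZMod p)[X] × (ZMod p)[X]) → (ZMod p)[X] → List (ZMod p)[X]) (N : ℕ) :
    List ((ZMod p)[X] × (ZMod p)[X]) :=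
  (List.range N).foldl (fun tab r => tab ++ [entry c (sp tab) r]) []

/-- the entries for the primes `r ≤ N` below `p` are good -/
def TabOk (tab : List ((ZMod p)[X] × (ZMod p)[X])) (N : ℕ) : Prop :=
  ∀ r ≤ N, r.Prime → r < p → Good r (tab.getD r 0).1 (tab.getD r 0).2

theorem table_succ (c : ℕ)
    (sp : List ((ZMod p)[X] × (ZMod p)[X]) → (ZMod p)[X] → List (ZMod p)[X]) (N : ℕ) :
    table c sp (N + 1) = table c sp N ++ [entry c (sp (table c sp N)) N] := by
  rw [table, List.range_succ, List.foldl_append]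
  rfl

theorem length_table (c : ℕ)
    (sp : List ((ZMod p)[X] × (ZMod p)[X]) → (ZMod p)[X] → List (ZMod p)[X]) (N : ℕ) :
    (table c sp N).length = N := by
  induction N with
  | zero => rfl
  | succ N ih => rw [table_succ, List.length_append, ih, List.length_singleton]

theorem table_ok {c : ℕ} (hc : EllOk c)
    {sp : List ((ZMod p)[X] × (ZMod p)[X]) → (ZMod p)[X] → List (ZMod p)[X]}
    (hsp : ∀ tab N, TabOk tab N → SplitSpec (sp tab) N) (N : ℕ) :
    TabOk (table c sp (N + 1)) N := by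
  induction N with
  | zero => exact fun r h1 h2 _ => absurd h2.two_le (by omega)
  | succ N ih =>
    intro r h1 h2 h3
    rw [table_succ]
    rcases Nat.lt_or_ge r (N + 1) with h | h
    · rw [List.getD_append _ _ _ _ (by rwa [length_table])]
      exact ih r (by omega) h2 h3
    · obtain rfl : r = N + 1 := by omega
      rw [List.getD_append_right _ _ _ _ (by rw [length_table]), length_table, Nat.sub_self,
        List.getD_cons_zero]
      exact entry_good hc h2 h3.ne (hsp _ _ ih)

/-- the complete algorithm -/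
noncomputable def factorAll (c : ℕ)
    (sp : List ((ZMod p)[X] × (ZMod p)[X]) → (ZMod p)[X] → List (ZMod p)[X]) (f : (ZMod p)[X]) :
    List (ZMod p)[X] := factor (sp (table c sp (f.natDegree + 1))) f

theorem factorAll_spec {c : ℕ} (hc : EllOk c)
    {sp : List ((ZMod p)[X] × (ZMod p)[X]) → (ZMod p)[X] → List (ZMod p)[X]}
    (hsp : ∀ tab N, TabOk tab N → SplitSpec (sp tab) N) (f : (ZMod p)[X]) :
    C f.leadingCoeff * (factorAll c sp f).prod = f ∧
      ∀ g ∈ factorAll c sp f, g.Monic ∧ Irreducible g :=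
  ⟨factor_prod _ f, factor_irred (hsp _ _ (table_ok hc hsp _))⟩

end Vale.Agent.P319.Alg
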