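import Mathlib.Algebra.Polynomial.FieldDivision
import Mathlib.Algebra.Polynomial.Derivative
import Mathlib.NumberTheory.Padics.PadicVal.Basic

/-!
P319: branch free routines over a commutative ring (definitions). They are meant for finite
products of finite fields; their meaning is read off after applying a homomorphism to a field.
-/

open Polynomial

namespace Vale.Agent.P319.Gen

/-- a homomorphism to a field whose image lies in the field with `Q` elements -/
structure Comp {A k : Type} [CommRing A] [Field k] (Q : ℕ) (ψ : A →+* k) : Prop where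
  /-- the field is not too small -/
  three : 3 ≤ Q
  /-- the image is fixed by the Frobenius map -/
  fix : ∀ z, ψ z ^ Q = ψ z

variable {A M ι : Type} [CommRing A] [CommRing M]

/-- pseudo-inverse -/
def pinv (Q : ℕ) (z : A) : A := z ^ (Q - 2)

/-- indicator of `z ≠ 0` -/
def ind (Q : ℕ) (z : A) : A := z ^ (Q - 1)

/-- indicator that some member of the list is not zero -/
def nzL (Q : ℕ) (l : List A) : A := 1 - (l.map fun z => 1 - ind Q z).prod

/-- indicator of `p ≠ 0` -/
noncomputable def nz1 (Q : ℕ) (p : A[X]) : A :=
  nzL Q ((List.range (p.natDegree + 1)).map fun i => p.coeff i)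

/-- indicator of `p ≠ 0` -/
noncomputable def nz2 (Q : ℕ) (p : A[X][X]) : A :=
  nzL Q ((List.range (p.natDegree + 1)).map fun i => nz1 Q (p.coeff i))

/-- the second component of the first pair whose first component is `1` (the earlier ones being
`0`), and `0` if there is none -/
def pick (l : List (M × M)) : M := l.reverse.foldl (fun acc c => c.1 * c.2 + (1 - c.1) * acc) 0

/-- intersection of the span of `vs` with the kernel of a functional -/
def kerStep [Algebra A M] (Q : ℕ) (l : M → A) (vs : List M) : List M :=
  vs.map fun v => v - algebraMap A M (l v) *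
    pick (vs.map fun w => (algebraMap A M (ind Q (l w)), algebraMap A M (pinv Q (l w)) * w))

/-- intersection of the span of `vs` with the kernel of a map to polynomials -/
noncomputable def ker1 [Algebra A M] (Q : ℕ) (Φ : M → A[X]) (vs : List M) : List M :=
  (List.range ((vs.map fun v => (Φ v).natDegree).sum + 1)).foldl
    (fun ws d => kerStep Q (fun v => (Φ v).coeff d) ws) vs

/-- intersection of the span of `vs` with the kernels of a list of maps to polynomials -/
noncomputable def kerI [Algebra A M] (Q : ℕ) (is : List ι) (Φ : ι → M → A[X]) (vs : List M) :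
    List M :=
  is.foldl (fun ws i => ker1 Q (Φ i) ws) vs

/-- the monic polynomial of degree `d` attached to `v` -/
noncomputable def monz (Q : ℕ) (v : A[X]) (d : ℕ) : A[X] :=
  X ^ d + ∑ j ∈ Finset.range d, monomial j (v.coeff j * pinv Q (v.coeff d))

/-- quotient of polynomials -/
noncomputable def divAny (Q : ℕ) (p v : A[X]) : A[X] :=
  pick ((List.range (v.natDegree + 1)).reverse.map fun d =>
    (C (ind Q (v.coeff d)), C (pinv Q (v.coeff d)) * (p /ₘ monz Q v d)))

/-- remainder of polynomials (zero if the divisor is zero) -/
noncomputable def modAny (Q : ℕ) (p v : A[X]) : A[X] :=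
  pick ((List.range (v.natDegree + 1)).reverse.map fun d =>
    (C (ind Q (v.coeff d)), p %ₘ monz Q v d))

/-- one step of Euclid's algorithm -/
noncomputable def gcdStep (Q : ℕ) (s : A[X] × A[X]) : A[X] × A[X] :=
  (C (nz1 Q s.2) * s.2 + C (1 - nz1 Q s.2) * s.1, modAny Q s.1 s.2)

/-- a greatest common divisor -/
noncomputable def gcd2 (Q : ℕ) (a b : A[X]) : A[X] :=
  ((gcdStep Q)^[b.natDegree + 2] (a, b)).1

/-- a greatest common divisor of a list -/
noncomputable def gcdL (Q : ℕ) (l : List A[X]) : A[X] := l.foldl (gcd2 Q) 0

/-- one step of the extraction of `r`-th roots -/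
def rootFac (Q r v : ℕ) (G w : A) (i : ℕ) : A :=
  pick ((List.range r).map fun c =>
    (1 - ind Q ((w * G ^ (c * r ^ (i + 1))) ^ (r ^ (v - 2 - i)) - 1), G ^ (c * r ^ i)))

/-- the exponent of `r` in `Q - 1` -/
def rv (Q r : ℕ) : ℕ := padicValNat r (Q - 1)

/-- the part of `Q - 1` prime to `r` -/
def ro (Q r : ℕ) : ℕ := (Q - 1) / r ^ rv Q r

/-- a number `c` with `r ∣ 1 + c o` -/
def rc (Q r : ℕ) : ℕ := ((List.range r).find? fun c => (1 + c * ro Q r) % r = 0).getD 0

/-- an `r`-th root of `z`, given an element `g` which is not an `r`-th power -/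
def root (Q r : ℕ) (g z : A) : A :=
  ((List.range (rv Q r - 1)).foldl (fun (s : A × A) i =>
      (s.1 * rootFac Q r (rv Q r) (g ^ ro Q r) s.2 i,
        s.2 * rootFac Q r (rv Q r) (g ^ ro Q r) s.2 i ^ r))
    (z ^ ((1 + rc Q r * ro Q r) / r), z ^ (rc Q r * ro Q r))).1

/-- application of a map to all coefficients -/
noncomputable def mapc (f : A → M) (p : A[X]) : M[X] :=
  ∑ i ∈ Finset.range (p.natDegree + 1), monomial i (f (p.coeff i))

/-- the elementary symmetric function of degree `n` from the power sums (`iv j` is the inverse
of `j`) -/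
def newton (iv ps : ℕ → M) (n : ℕ) : M :=
  ((List.range n).foldl (fun (es : List M) j => es ++ [iv (j + 1) *
    ∑ i ∈ Finset.range (j + 1), (-1) ^ i * es.getD (j - i) 0 * ps (i + 1)]) [1]).getD n 0

/-- the form whose coefficients are the members of the list -/
noncomputable def form (l : List M) : M[X] := l.reverse.foldl (fun acc v => C v + X * acc) 0

end Vale.Agent.P319.Gen
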