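import Vale.Agent.P319.Alg.Gen
import Mathlib.LinearAlgebra.Span.Basic
import Mathlib.RingTheory.Ideal.Span
import Mathlib.Data.List.GetD
import Mathlib.RingTheory.Polynomial.Basic

/-!
P319: meaning of the branch free routines in a component (indicators, choice, kernels, division,
greatest common divisors).
-/

open Polynomial

namespace Vale.Agent.P319.Gen

variable {A M N ι k : Type} [CommRing A] [CommRing M] [CommRing N] [Field k]
  {Q : ℕ} {ψ : A →+* k}

/-! ### indicators -/

theorem Comp.pow_sub_one (h : Comp Q ψ) {z : A} (hz : ψ z ≠ 0) : ψ z ^ (Q - 1) = 1 := by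
  have h3 := h.three
  have := h.fix z
  have e : Q = (Q - 1) + 1 := by omega
  rw [e, pow_succ] at this
  exact mul_right_cancel₀ hz (by rw [this, one_mul])

theorem Comp.map_pinv (h : Comp Q ψ) (z : A) : ψ (pinv Q z) = (ψ z)⁻¹ := by
  have h3 := h.three
  rw [pinv, map_pow]
  by_cases hz : ψ z = 0
  · rw [hz, zero_pow (by omega), inv_zero]
  · have := h.pow_sub_one hz
    have e : Q - 1 = (Q - 2) + 1 := by omega
    rw [e, pow_succ] at this
    exact eq_inv_of_mul_eq_one_left this

open Classical in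
theorem Comp.map_ind (h : Comp Q ψ) (z : A) : ψ (ind Q z) = if ψ z = 0 then 0 else 1 := by
  have h3 := h.three
  rw [ind, map_pow]
  split_ifs with hz
  · rw [hz, zero_pow (by omega)]
  · exact h.pow_sub_one hz

theorem Comp.ind_of_eq (h : Comp Q ψ) {z : A} (hz : ψ z = 0) : ψ (ind Q z) = 0 := by
  rw [h.map_ind, if_pos hz]

theorem Comp.ind_of_ne (h : Comp Q ψ) {z : A} (hz : ψ z ≠ 0) : ψ (ind Q z) = 1 := by
  rw [h.map_ind, if_neg hz]

open Classical in
theorem Comp.map_nzL (h : Comp Q ψ) (l : List A) :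
    ψ (nzL Q l) = if ∀ z ∈ l, ψ z = 0 then 0 else 1 := by
  have key : ψ (l.map fun z => 1 - ind Q z).prod = if ∀ z ∈ l, ψ z = 0 then 1 else 0 := by
    induction l with
    | nil => simp
    | cons a l ih =>
      rw [List.map_cons, List.prod_cons, map_mul, ih, map_sub, map_one, h.map_ind]
      by_cases ha : ψ a = 0 <;> by_cases hl : ∀ z ∈ l, ψ z = 0 <;> simp [ha, hl]
  rw [nzL, map_sub, map_one, key]
  split_ifs <;> simp

open Classical in
theorem Comp.map_nz1 (h : Comp Q ψ) (p : A[X]) :
    ψ (nz1 Q p) = if p.map ψ = 0 then 0 else 1 := by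
  rw [nz1, h.map_nzL]
  refine if_congr ?_ rfl rfl
  constructor
  · intro hz
    ext i
    rw [coeff_map, coeff_zero]
    by_cases hi : i ≤ p.natDegree
    · exact hz _ (List.mem_map.2 ⟨i, List.mem_range.2 (by omega), rfl⟩)
    · rw [coeff_eq_zero_of_natDegree_lt (by omega), map_zero]
  · intro hp z hz
    obtain ⟨i, -, rfl⟩ := List.mem_map.1 hz
    rw [← coeff_map, hp, coeff_zero]

open Classical in
theorem Comp.map_nz2 (h : Comp Q ψ) (p : A[X][X]) :
    ψ (nz2 Q p) = if p.map (mapRingHom ψ) = 0 then 0 else 1 := by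
  rw [nz2, h.map_nzL]
  refine if_congr ?_ rfl rfl
  have e : ∀ q : A[X], ψ (nz1 Q q) = 0 ↔ q.map ψ = 0 := by
    intro q
    rw [h.map_nz1]
    split_ifs with hq <;> simp [hq]
  constructor
  · intro hz
    refine Polynomial.ext fun i => ?_
    rw [coeff_map, coeff_zero, coe_mapRingHom]
    by_cases hi : i ≤ p.natDegree
    · exact (e _).1 (hz _ (List.mem_map.2 ⟨i, List.mem_range.2 (by omega), rfl⟩))
    · rw [coeff_eq_zero_of_natDegree_lt (by omega), Polynomial.map_zero]
  · intro hp z hz
    obtain ⟨i, -, rfl⟩ := List.mem_map.1 hz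
    rw [e, ← coe_mapRingHom, ← coeff_map, hp, coeff_zero]

/-! ### choice -/

@[simp] theorem pick_nil : pick ([] : List (M × M)) = 0 := rfl

theorem pick_cons (c : M × M) (l : List (M × M)) :
    pick (c :: l) = c.1 * c.2 + (1 - c.1) * pick l := by
  simp [pick, List.foldl_append]

theorem map_pick (φ : M →+* N) (l : List (M × M)) :
    φ (pick l) = pick (l.map fun c => (φ c.1, φ c.2)) := by
  induction l with
  | nil => simp
  | cons c l ih => simp [pick_cons, ih]

/-- if no test succeeds the result is zero -/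
theorem pick_none (φ : M →+* N) {l : List (M × M)} (h : ∀ c ∈ l, φ c.1 = 0) : φ (pick l) = 0 := by
  induction l with
  | nil => simp
  | cons c l ih =>
    rw [pick_cons, map_add, map_mul, map_mul, h c (by simp), ih fun c hc => h c (by simp [hc])]
    simp

/-- the result is the value at the first successful test -/
theorem pick_first (φ : M →+* N) {l₁ l₂ : List (M × M)} {c : M × M} (h : ∀ c ∈ l₁, φ c.1 = 0)
    (hc : φ c.1 = 1) : φ (pick (l₁ ++ c :: l₂)) = φ c.2 := by
  induction l₁ with
  | nil => simp [pick_cons, hc]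
  | cons d l ih =>
    rw [List.cons_append, pick_cons, map_add, map_mul, map_mul, map_sub, h d (by simp),
      ih fun c hc => h c (by simp [hc])]
    simp

/-- choice along a list of indices -/
theorem pick_find (φ : M →+* N) (L : List ι) (a b : ι → M) (p : ι → Bool)
    (h : ∀ i ∈ L, φ (a i) = if p i then 1 else 0) :
    φ (pick (L.map fun i => (a i, b i))) = ((L.find? p).map fun i => φ (b i)).getD 0 := by
  induction L with
  | nil => simp
  | cons i L ih =>
    rw [List.map_cons, pick_cons, map_add, map_mul, map_mul, map_sub, h i (by simp),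
      ih fun j hj => h j (by simp [hj]), List.find?_cons]
    cases p i <;> simp

/-- if some test succeeds, the result is the value at a successful test -/
theorem pick_some (φ : M →+* N) {L : List ι} {a b : ι → M}
    (h : ∀ i ∈ L, φ (a i) = 0 ∨ φ (a i) = 1) (h1 : ∃ i ∈ L, φ (a i) = 1) :
    ∃ i ∈ L, φ (a i) = 1 ∧ φ (pick (L.map fun i => (a i, b i))) = φ (b i) := by
  induction L with
  | nil => simp at h1
  | cons i L ih =>
    by_cases hi : φ (a i) = 1
    · exact ⟨i, by simp, hi, by simp [pick_cons, hi]⟩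
    · have h0 := (h i (by simp)).resolve_right hi
      obtain ⟨j, hj, hj1⟩ := h1
      have hj' : j ∈ L := by
        rcases List.mem_cons.1 hj with rfl | hj
        · exact absurd hj1 hi
        · exact hj
      obtain ⟨j, hj, e1, e2⟩ := ih (fun j hj => h j (by simp [hj])) ⟨j, hj', hj1⟩
      refine ⟨j, by simp [hj], e1, ?_⟩
      rw [List.map_cons, pick_cons, map_add, map_mul, map_mul, map_sub, h0, e2]
      simp

/-- a relation that holds simultaneously for two choices with the same tests -/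
theorem pick_some₂ {M' N' : Type} [CommRing M'] [CommRing N'] (φ : M →+* N) (φ' : M' →+* N')
    {L : List ι} {a b : ι → M} {a' b' : ι → M'} (p : ι → Prop)
    (h1 : ∀ i ∈ L, p i → φ (a i) = 1 ∧ φ' (a' i) = 1)
    (h0 : ∀ i ∈ L, ¬ p i → φ (a i) = 0 ∧ φ' (a' i) = 0) (h : ∃ i ∈ L, p i) :
    ∃ i ∈ L, p i ∧ φ (pick (L.map fun i => (a i, b i))) = φ (b i) ∧
      φ' (pick (L.map fun i => (a' i, b' i))) = φ' (b' i) := by
  classical
  obtain ⟨i, hi, hp⟩ := h
  have hs : (L.find? fun i => decide (p i)).isSome := List.find?_isSome.2 ⟨i, hi, by simpa⟩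
  obtain ⟨j, hj⟩ := Option.isSome_iff_exists.1 hs
  refine ⟨j, List.mem_of_find?_eq_some hj, by simpa using List.find?_some hj, ?_, ?_⟩
  · rw [pick_find φ L a b (fun i => decide (p i)), hj]
    · rfl
    · intro i hi
      by_cases hp : p i
      · simp [hp, (h1 i hi hp).1]
      · simp [hp, (h0 i hi hp).1]
  · rw [pick_find φ' L a' b' (fun i => decide (p i)), hj]
    · rfl
    · intro i hi
      by_cases hp : p i
      · simp [hp, (h1 i hi hp).2]
      · simp [hp, (h0 i hi hp).2]

/-! ### kernels -/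

section Ker

variable [Algebra A M] [Algebra k N]

theorem length_kerStep (Q : ℕ) (l : M → A) (vs : List M) :
    (kerStep Q l vs).length = vs.length := by
  simp [kerStep]

theorem length_ker1 (Q : ℕ) (Φ : M → A[X]) (vs : List M) : (ker1 Q Φ vs).length = vs.length := by
  unfold ker1
  generalize List.range _ = L
  have : ∀ ws : List M, (L.foldl (fun ws d => kerStep Q (fun v => (Φ v).coeff d) ws) ws).length =
      ws.length := by
    induction L with
    | nil => simp
    | cons d L ih => intro ws; rw [List.foldl_cons, ih, length_kerStep]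
  exact this vs

theorem length_kerI (Q : ℕ) (is : List ι) (Φ : ι → M → A[X]) (vs : List M) :
    (kerI Q is Φ vs).length = vs.length := by
  unfold kerI
  induction is generalizing vs with
  | nil => simp
  | cons i is ih => rw [List.foldl_cons, ih, length_ker1]

/-- the span of the images of the members of a list -/
def spanL (k : Type) [Field k] [Algebra k N] (φ : M →+* N) (vs : List M) : Submodule k N :=
  Submodule.span k {x | ∃ v ∈ vs, φ v = x}

theorem mem_spanL (φ : M →+* N) {vs : List M} {v : M} (hv : v ∈ vs) : φ v ∈ spanL k φ vs :=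
  Submodule.subset_span ⟨v, hv, rfl⟩

theorem spanL_le (φ : M →+* N) {vs : List M} {S : Submodule k N} :
    spanL k φ vs ≤ S ↔ ∀ v ∈ vs, φ v ∈ S := by
  rw [spanL, Submodule.span_le]
  exact ⟨fun h v hv => h ⟨v, hv, rfl⟩, by rintro h _ ⟨v, hv, rfl⟩; exact h v hv⟩

/-- a nonzero span has a nonzero generator -/
theorem exists_ne_of_spanL (φ : M →+* N) {vs : List M} {s : N} (hs : s ∈ spanL k φ vs)
    (h0 : s ≠ 0) : ∃ v ∈ vs, φ v ≠ 0 := by
  by_contra h
  push Not at h
  have : spanL k φ vs ≤ ⊥ := (spanL_le φ).2 fun v hv => by rw [h v hv]; exact Submodule.zero_mem _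
  exact h0 ((Submodule.mem_bot k).1 (this hs))

/-- a linear map that does not vanish on the span does not vanish on some generator -/
theorem exists_map_ne_of_spanL {N' : Type} [AddCommGroup N'] [Module k N'] (φ : M →+* N)
    (T : N →ₗ[k] N') {vs : List M} {s : N} (hs : s ∈ spanL k φ vs) (h0 : T s ≠ 0) :
    ∃ v ∈ vs, T (φ v) ≠ 0 := by
  by_contra h
  push Not at h
  have : spanL k φ vs ≤ LinearMap.ker T := (spanL_le φ).2 fun v hv => h v hv
  exact h0 (this hs)

theorem Comp.span_kerStep (h : Comp Q ψ) (φ : M →+* N)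
    (hφ : ∀ a, φ (algebraMap A M a) = algebraMap k N (ψ a)) (l : M → A) (l' : N →ₗ[k] k)
    (vs : List M) (hl : ∀ v ∈ vs, ψ (l v) = l' (φ v)) :
    spanL k φ (kerStep Q l vs) = spanL k φ vs ⊓ LinearMap.ker l' := by
  by_cases hex : ∃ w ∈ vs, ψ (l w) ≠ 0
  · obtain ⟨w, hw, hw1, hw2⟩ := pick_some φ (L := vs) (a := fun w => algebraMap A M (ind Q (l w)))
      (b := fun w => algebraMap A M (pinv Q (l w)) * w)
      (fun w _ => by
        rw [hφ, h.map_ind]
        split_ifs <;> simp)
      (by
        obtain ⟨w, hw, h0⟩ := hex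
        exact ⟨w, hw, by rw [hφ, h.ind_of_ne h0, map_one]⟩)
    by_cases hN : Nontrivial N
    swap
    · rw [not_nontrivial_iff_subsingleton] at hN
      exact Subsingleton.elim _ _
    have hw0 : ψ (l w) ≠ 0 := by
      intro h0
      rw [hφ, h.ind_of_eq h0, map_zero] at hw1
      exact zero_ne_one hw1
    rw [map_mul, hφ, h.map_pinv] at hw2
    have hv : ∀ v ∈ vs, φ (v - algebraMap A M (l v) * pick (vs.map fun w =>
        (algebraMap A M (ind Q (l w)), algebraMap A M (pinv Q (l w)) * w))) =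
        φ v - (l' (φ v) * (l' (φ w))⁻¹) • φ w := by
      intro v hv
      rw [map_sub, map_mul, hw2, hφ, hl v hv, hl w hw, Algebra.smul_def, map_mul, mul_assoc]
    have hw0' : l' (φ w) ≠ 0 := hl w hw ▸ hw0
    apply le_antisymm
    · rw [spanL_le]
      intro v' hv'
      obtain ⟨v, hv1, rfl⟩ := List.mem_map.1 hv'
      rw [hv v hv1]
      refine ⟨Submodule.sub_mem _ (mem_spanL φ hv1) (Submodule.smul_mem _ _ (mem_spanL φ hw)), ?_⟩
      change l' _ = 0
      rw [map_sub, map_smul, smul_eq_mul, mul_assoc, inv_mul_cancel₀ hw0', mul_one, sub_self]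
    · rintro s ⟨hs, hs0⟩
      have key : ∀ s ∈ spanL k φ vs,
          s - (l' s * (l' (φ w))⁻¹) • φ w ∈ spanL k φ (kerStep Q l vs) := by
        intro s hs
        let T : N →ₗ[k] N := LinearMap.id - (l'.smulRight ((l' (φ w))⁻¹ • φ w))
        have hT : ∀ s, T s = s - (l' s * (l' (φ w))⁻¹) • φ w := by
          intro s
          simp [T, mul_smul]
        have : spanL k φ vs ≤ (spanL k φ (kerStep Q l vs)).comap T := by
          rw [spanL_le]
          intro v hv1
          rw [Submodule.mem_comap, hT, ← hv v hv1]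
          exact mem_spanL φ (List.mem_map.2 ⟨v, hv1, rfl⟩)
        rw [← hT]
        exact this hs
      have := key s hs
      have h0 : l' s = 0 := hs0
      rwa [h0, zero_mul, zero_smul, sub_zero] at this
  · push Not at hex
    have hv : ∀ v ∈ vs, φ (v - algebraMap A M (l v) * pick (vs.map fun w =>
        (algebraMap A M (ind Q (l w)), algebraMap A M (pinv Q (l w)) * w))) = φ v := by
      intro v hv
      rw [map_sub, map_mul, hφ, hex v hv, map_zero, zero_mul, sub_zero]
    apply le_antisymm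
    · rw [spanL_le]
      intro v' hv'
      obtain ⟨v, hv1, rfl⟩ := List.mem_map.1 hv'
      rw [hv v hv1]
      refine ⟨mem_spanL φ hv1, ?_⟩
      change l' _ = 0
      rw [← hl v hv1, hex v hv1]
    · refine inf_le_left.trans ?_
      rw [spanL_le]
      intro v hv1
      rw [← hv v hv1]
      exact mem_spanL φ (List.mem_map.2 ⟨v, hv1, rfl⟩)

theorem Comp.span_ker1 (h : Comp Q ψ) (φ : M →+* N)
    (hφ : ∀ a, φ (algebraMap A M a) = algebraMap k N (ψ a)) (Φ : M → A[X]) (Φ' : N →ₗ[k] k[X])
    (hΦ : ∀ v, (Φ v).map ψ = Φ' (φ v)) (vs : List M) :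
    spanL k φ (ker1 Q Φ vs) = spanL k φ vs ⊓ LinearMap.ker Φ' := by
  have key : ∀ (L : List ℕ) (ws : List M) (s : N),
      s ∈ spanL k φ (L.foldl (fun ws d => kerStep Q (fun v => (Φ v).coeff d) ws) ws) ↔
        s ∈ spanL k φ ws ∧ ∀ d ∈ L, (Φ' s).coeff d = 0 := by
    intro L
    induction L with
    | nil => simp
    | cons d L ih =>
      intro ws s
      rw [List.foldl_cons, ih, h.span_kerStep φ hφ _ ((lcoeff k d).comp Φ') ws
        (fun v _ => by simp [← hΦ])]
      simp [and_assoc]
  ext s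
  rw [ker1, key, Submodule.mem_inf, LinearMap.mem_ker]
  refine and_congr_right fun hs => ⟨fun hd => ?_, fun h0 d _ => by rw [h0, coeff_zero]⟩
  have hle : spanL k φ vs ≤
      (degreeLE k ((vs.map fun v => (Φ v).natDegree).sum : ℕ)).comap Φ' := by
    rw [spanL_le]
    intro v hv
    rw [Submodule.mem_comap, mem_degreeLE, ← hΦ]
    refine (degree_map_le.trans degree_le_natDegree).trans ?_
    exact WithBot.coe_le_coe.2 (List.le_sum_of_mem
      (List.mem_map_of_mem (f := fun v => (Φ v).natDegree) hv))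
  have := mem_degreeLE.1 (hle hs)
  ext d
  rw [coeff_zero]
  by_cases hd' : d ≤ (vs.map fun v => (Φ v).natDegree).sum
  · exact hd d (List.mem_range.2 (by omega))
  · exact coeff_eq_zero_of_degree_lt (this.trans_lt (by exact_mod_cast not_le.1 hd'))

theorem Comp.mem_kerI (h : Comp Q ψ) (φ : M →+* N)
    (hφ : ∀ a, φ (algebraMap A M a) = algebraMap k N (ψ a)) (is : List ι) (Φ : ι → M → A[X])
    (Φ' : ι → N →ₗ[k] k[X]) (hΦ : ∀ i ∈ is, ∀ v, (Φ i v).map ψ = Φ' i (φ v)) (vs : List M)
    (s : N) :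
    s ∈ spanL k φ (kerI Q is Φ vs) ↔ s ∈ spanL k φ vs ∧ ∀ i ∈ is, Φ' i s = 0 := by
  unfold kerI
  induction is generalizing vs with
  | nil => simp
  | cons i is ih =>
    rw [List.foldl_cons, ih (fun j hj => hΦ j (by simp [hj])),
      h.span_ker1 φ hφ _ (Φ' i) (hΦ i (by simp))]
    simp [and_assoc]

end Ker

/-! ### division -/

theorem degree_monz_tail (Q : ℕ) (v : A[X]) (d : ℕ) :
    (∑ j ∈ Finset.range d, monomial j (v.coeff j * pinv Q (v.coeff d))).degree < d := by
  refine (degree_sum_le _ _).trans_lt ((Finset.sup_lt_iff (WithBot.bot_lt_coe d)).2 fun j hj => ?_)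
  exact (degree_monomial_le _ _).trans_lt (WithBot.coe_lt_coe.2 (Finset.mem_range.1 hj))

theorem monic_monz (Q : ℕ) (v : A[X]) (d : ℕ) : (monz Q v d).Monic :=
  monic_X_pow_add (degree_monz_tail Q v d)

theorem Comp.map_monz (h : Comp Q ψ) {v : A[X]} (hv : v.map ψ ≠ 0) :
    (monz Q v (v.map ψ).natDegree).map ψ = v.map ψ * C (v.map ψ).leadingCoeff⁻¹ := by
  have hl : (v.map ψ).leadingCoeff ≠ 0 := leadingCoeff_ne_zero.2 hv
  have e : ψ (v.coeff (v.map ψ).natDegree) = (v.map ψ).leadingCoeff := by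
    rw [leadingCoeff, coeff_map]
  ext j
  rw [monz, coeff_map, coeff_add, finsetSum_coeff, coeff_mul_C, coeff_X_pow]
  simp only [coeff_monomial, Finset.sum_ite_eq', Finset.mem_range]
  rcases lt_trichotomy j (v.map ψ).natDegree with hj | hj | hj
  · rw [if_neg hj.ne, if_pos hj, zero_add, map_mul, h.map_pinv, e, coeff_map]
  · rw [if_pos hj, if_neg (by omega), add_zero, map_one, hj, ← leadingCoeff, mul_inv_cancel₀ hl]
  · rw [if_neg hj.ne', if_neg (by omega), add_zero, map_zero, coeff_eq_zero_of_natDegree_lt hj,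
      zero_mul]

/-- choice of the value attached to the true degree -/
theorem Comp.pick_deg (h : Comp Q ψ) {v : A[X]} (hv : v.map ψ ≠ 0) (b : ℕ → A[X]) :
    (pick ((List.range (v.natDegree + 1)).reverse.map fun d => (C (ind Q (v.coeff d)), b d))).map ψ
      = (b (v.map ψ).natDegree).map ψ := by
  have hle : (v.map ψ).natDegree ≤ v.natDegree := natDegree_map_le
  obtain ⟨m, hm⟩ := Nat.exists_eq_add_of_le hle
  have e : v.natDegree + 1 = ((v.map ψ).natDegree + 1) + m := by omega
  rw [e, List.range_add, List.range_succ, List.reverse_append, List.reverse_append,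
    List.map_append, List.reverse_singleton, List.singleton_append, List.map_cons]
  refine pick_first (mapRingHom ψ) ?_ ?_
  · intro c hc
    obtain ⟨d, hd, rfl⟩ := List.mem_map.1 hc
    obtain ⟨i, -, rfl⟩ := List.mem_map.1 (List.mem_reverse.1 hd)
    rw [coe_mapRingHom, map_C, h.ind_of_eq, C_0]
    rw [← coeff_map]
    exact coeff_eq_zero_of_natDegree_lt (by omega)
  · rw [coe_mapRingHom, map_C, h.ind_of_ne, C_1]
    rw [← coeff_map]
    exact leadingCoeff_ne_zero.2 hv

theorem Comp.pick_deg_zero (h : Comp Q ψ) {v : A[X]} (hv : v.map ψ = 0) (b : ℕ → A[X]) :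
    (pick ((List.range (v.natDegree + 1)).reverse.map fun d => (C (ind Q (v.coeff d)), b d))).map ψ
      = 0 := by
  refine pick_none (mapRingHom ψ) fun c hc => ?_
  obtain ⟨d, -, rfl⟩ := List.mem_map.1 hc
  rw [coe_mapRingHom, map_C, h.ind_of_eq, C_0]
  rw [← coeff_map, hv, coeff_zero]

theorem Comp.map_divAny (h : Comp Q ψ) (p v : A[X]) :
    (divAny Q p v).map ψ = p.map ψ / v.map ψ := by
  by_cases hv : v.map ψ = 0
  · rw [divAny, h.pick_deg_zero hv, hv, EuclideanDomain.div_zero]
  · rw [divAny, h.pick_deg hv, Polynomial.map_mul, map_C, h.map_pinv,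
      map_divByMonic _ (monic_monz Q v _), h.map_monz hv, div_def, ← coeff_map, ← leadingCoeff]

theorem Comp.map_modAny (h : Comp Q ψ) (p : A[X]) {v : A[X]} (hv : v.map ψ ≠ 0) :
    (modAny Q p v).map ψ = p.map ψ % v.map ψ := by
  rw [modAny, h.pick_deg hv, map_modByMonic _ (monic_monz Q v _), h.map_monz hv, mod_def]

theorem Comp.map_modAny_zero (h : Comp Q ψ) (p : A[X]) {v : A[X]} (hv : v.map ψ = 0) :
    (modAny Q p v).map ψ = 0 := by
  rw [modAny, h.pick_deg_zero hv]

/-! ### greatest common divisors -/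

theorem Comp.gcdStep_ne (h : Comp Q ψ) (s : A[X] × A[X]) (hs : s.2.map ψ ≠ 0) :
    (gcdStep Q s).1.map ψ = s.2.map ψ ∧ (gcdStep Q s).2.map ψ = s.1.map ψ % s.2.map ψ := by
  refine ⟨?_, h.map_modAny _ hs⟩
  simp [gcdStep, h.map_nz1, hs]

theorem Comp.gcdStep_eq (h : Comp Q ψ) (s : A[X] × A[X]) (hs : s.2.map ψ = 0) :
    (gcdStep Q s).1.map ψ = s.1.map ψ ∧ (gcdStep Q s).2.map ψ = 0 := by
  refine ⟨?_, h.map_modAny_zero _ hs⟩
  simp [gcdStep, h.map_nz1, hs]

theorem Comp.dvd_gcdStep (h : Comp Q ψ) (s : A[X] × A[X]) (w : k[X]) :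
    (w ∣ (gcdStep Q s).1.map ψ ∧ w ∣ (gcdStep Q s).2.map ψ) ↔ (w ∣ s.1.map ψ ∧ w ∣ s.2.map ψ) := by
  by_cases hs : s.2.map ψ = 0
  · rw [(h.gcdStep_eq s hs).1, (h.gcdStep_eq s hs).2, hs]
  · rw [(h.gcdStep_ne s hs).1, (h.gcdStep_ne s hs).2]
    constructor
    · rintro ⟨h1, h2⟩
      exact ⟨(EuclideanDomain.dvd_mod_iff h1).1 h2, h1⟩
    · rintro ⟨h1, h2⟩
      exact ⟨h2, (EuclideanDomain.dvd_mod_iff h2).2 h1⟩

theorem Comp.degree_gcd_iter (h : Comp Q ψ) (m : ℕ) (s : A[X] × A[X])
    (hs : (s.2.map ψ).degree < m) : ((gcdStep Q)^[m] s).2.map ψ = 0 := by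
  induction m generalizing s with
  | zero => simpa using hs
  | succ m ih =>
    rw [Function.iterate_succ_apply]
    apply ih
    by_cases h0 : s.2.map ψ = 0
    · rw [(h.gcdStep_eq s h0).2, degree_zero]
      exact WithBot.bot_lt_coe m
    · rw [(h.gcdStep_ne s h0).2]
      have h1 := degree_mod_lt (s.1.map ψ) h0
      rw [degree_eq_natDegree h0] at hs h1
      exact h1.trans_le (by exact_mod_cast Nat.lt_succ_iff.1 (by exact_mod_cast hs))

/-- the divisors of the result are the common divisors -/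
theorem Comp.dvd_gcd2 (h : Comp Q ψ) (a b : A[X]) (w : k[X]) :
    w ∣ (gcd2 Q a b).map ψ ↔ w ∣ a.map ψ ∧ w ∣ b.map ψ := by
  have key : ∀ (m : ℕ) (s : A[X] × A[X]),
      (w ∣ ((gcdStep Q)^[m] s).1.map ψ ∧ w ∣ ((gcdStep Q)^[m] s).2.map ψ) ↔
        (w ∣ s.1.map ψ ∧ w ∣ s.2.map ψ) := by
    intro m
    induction m with
    | zero => simp
    | succ m ih => intro s; rw [Function.iterate_succ_apply, ih, h.dvd_gcdStep]
  have h0 := h.degree_gcd_iter (b.natDegree + 2) (a, b) (by
    refine (degree_map_le.trans degree_le_natDegree).trans_lt ?_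
    exact_mod_cast (by omega : b.natDegree < b.natDegree + 2))
  rw [← key (b.natDegree + 2) (a, b), h0, gcd2]
  simp

theorem Comp.dvd_gcdL (h : Comp Q ψ) (l : List A[X]) (w : k[X]) :
    w ∣ (gcdL Q l).map ψ ↔ ∀ a ∈ l, w ∣ a.map ψ := by
  have key : ∀ g : A[X], w ∣ (l.foldl (gcd2 Q) g).map ψ ↔ w ∣ g.map ψ ∧ ∀ a ∈ l, w ∣ a.map ψ := by
    induction l with
    | nil => simp
    | cons a l ih => intro g; rw [List.foldl_cons, ih, h.dvd_gcd2]; simp [and_assoc]
  rw [gcdL, key]
  simp

/-- a polynomial whose divisors are the common divisors of a set generates the same ideal -/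
theorem span_eq_of_dvd {g : k[X]} {S : Set k[X]} (h : ∀ w, w ∣ g ↔ ∀ a ∈ S, w ∣ a) :
    Ideal.span {g} = Ideal.span S := by
  obtain ⟨d, hd⟩ := (IsPrincipalIdealRing.principal (Ideal.span S)).principal
  have hd' : Ideal.span S = Ideal.span {d} := hd
  apply le_antisymm
  · rw [hd', Ideal.span_singleton_le_span_singleton, h]
    intro a ha
    rw [← Ideal.mem_span_singleton, ← hd']
    exact Ideal.subset_span ha
  · rw [Ideal.span_le]
    intro a ha
    exact Ideal.mem_span_singleton.2 ((h g).1 dvd_rfl a ha)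

theorem Comp.span_gcd2 (h : Comp Q ψ) (a b : A[X]) :
    Ideal.span {(gcd2 Q a b).map ψ} = Ideal.span {a.map ψ, b.map ψ} :=
  span_eq_of_dvd fun w => by rw [h.dvd_gcd2]; simp

theorem Comp.span_gcdL (h : Comp Q ψ) (l : List A[X]) :
    Ideal.span {(gcdL Q l).map ψ} = Ideal.span {x | ∃ a ∈ l, a.map ψ = x} :=
  span_eq_of_dvd fun w => by
    rw [h.dvd_gcdL]
    exact ⟨by rintro h _ ⟨a, ha, rfl⟩; exact h a ha, fun h a ha => h _ ⟨a, ha, rfl⟩⟩

/-! ### coefficientwise maps and forms -/

theorem coeff_mapc {f : A → M} (hf : f 0 = 0) (p : A[X]) (i : ℕ) :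
    (mapc f p).coeff i = f (p.coeff i) := by
  rw [mapc, finsetSum_coeff]
  simp only [coeff_monomial, Finset.sum_ite_eq', Finset.mem_range]
  split_ifs with hi
  · rfl
  · rw [coeff_eq_zero_of_natDegree_lt (by omega), hf]

@[simp] theorem form_nil : form ([] : List M) = 0 := rfl

theorem form_cons (v : M) (l : List M) : form (v :: l) = C v + X * form l := by
  simp [form, List.foldl_append]

theorem coeff_form (l : List M) (j : ℕ) : (form l).coeff j = l.getD j 0 := by
  induction l generalizing j with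
  | nil => simp
  | cons v l ih =>
    rw [form_cons]
    cases j with
    | zero => simp
    | succ j => rw [coeff_add, coeff_C_succ, coeff_X_mul, ih, zero_add, List.getD_cons_succ]

theorem map_form (φ : M →+* N) (l : List M) : (form l).map φ = form (l.map φ) := by
  induction l with
  | nil => simp
  | cons v l ih => simp [form_cons, ih]

theorem natDegree_form_le (l : List M) : (form l).natDegree ≤ l.length - 1 := by
  rw [natDegree_le_iff_coeff_eq_zero]
  intro j hj
  rw [coeff_form]
  exact List.getD_eq_default _ _ (by omega)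

/-- the coefficients of the form span the same space as the list -/
theorem span_coeff_form [Algebra k N] (φ : M →+* N) (l : List M) :
    Submodule.span k (Set.range ((form l).map φ).coeff) = spanL k φ l := by
  apply le_antisymm
  · rw [Submodule.span_le]
    rintro _ ⟨j, rfl⟩
    rw [coeff_map, coeff_form]
    by_cases hj : j < l.length
    · rw [List.getD_eq_getElem _ _ hj]
      exact mem_spanL φ (List.getElem_mem hj)
    · rw [List.getD_eq_default _ _ (by omega), map_zero]
      exact Submodule.zero_mem _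
  · rw [spanL_le]
    intro v hv
    obtain ⟨j, hj, rfl⟩ := List.getElem_of_mem hv
    exact Submodule.subset_span ⟨j, by rw [coeff_map, coeff_form, List.getD_eq_getElem _ _ hj]⟩

end Vale.Agent.P319.Gen
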