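import Vale.Agent.P319.Alg.NrmSpec
import Vale.Agent.P319.Alg.RootSpec
import Vale.Agent.P319.Cv.Chain
import Vale.Agent.P319.Cv.Cont

/-!
P319: trace, norm and roots over the algebra of a universal root; the first presentation.
-/

open Polynomial

namespace Vale.Agent.P319

namespace Gen

variable {A k : Type} [CommRing A] [Field k] {Q : ℕ} {ψ : A →+* k}

/-- components of the algebra of a universal root -/
theorem Comp.lift (h : Comp Q ψ) {g : A[X]} {a : k} (ha : g.eval₂ ψ a = 0) (φ : k →+* k)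
    (hφ : ∀ x, φ x = x ^ Q) (haQ : a ^ Q = a) : Comp Q (AdjoinRoot.lift ψ a ha) := by
  refine ⟨h.three, fun x => ?_⟩
  have : φ.comp (AdjoinRoot.lift ψ a ha) = AdjoinRoot.lift ψ a ha :=
    AdjoinRoot.ringHom_ext (RingHom.ext fun c => by simp [hφ, h.fix]) (by simp [hφ, haQ])
  rw [← hφ]
  exact RingHom.congr_fun this x

end Gen

namespace Crv

open Gen Vale.Agent.Lib.Dep

variable {A k : Type} [CommRing A] [Field k] {Q : ℕ} {ψ : A →+* k}

open Classical in
theorem eq_prod_roots_attach {F : k[X]} (hF : F.Monic) (hs : F.Splits) (hsep : F.Separable) :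
    F = ∏ a : F.roots.toFinset, (X - C a.1) := by
  rw [Finset.prod_coe_sort F.roots.toFinset fun a => X - C a, Finset.prod_eq_multiset_prod,
    Multiset.toFinset_val, (nodup_roots hsep).dedup]
  exact hs.eq_prod_roots_of_monic hF

open Classical in
theorem trA_spec {f : A[X]} (hf : f.Monic) (hs : (f.map ψ).Splits) (hsep : (f.map ψ).Separable)
    (x : AdjoinRoot (mon f)) :
    ψ (trA f x) = ∑ a ∈ (f.map ψ).roots.toFinset.attach,
      comp ψ hf a.1 (isRoot_of_mem_roots (Multiset.mem_toFinset.1 a.2)) x :=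
  map_trA ψ hf (fun a : (f.map ψ).roots.toFinset => a.1) Subtype.val_injective
    (eq_prod_roots_attach (hf.map ψ) hs hsep)
    (fun a => comp ψ hf a.1 (isRoot_of_mem_roots (Multiset.mem_toFinset.1 a.2)))
    (fun _ => comp_comp_of _ _ _ _) (fun _ => comp_root _ _ _ _) x

open Classical in
theorem nrm3_spec (h : Comp Q ψ) {f : A[X]} (hf : f.Monic) (hs : (f.map ψ).Splits)
    (hsep : (f.map ψ).Separable) (hp : ∀ j : ℕ, 1 ≤ j → j ≤ f.natDegree → (j : k) ≠ 0)
    (B : (AdjoinRoot (mon f))[X][X][X]) :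
    (nrm3 Q f B).map (mapRingHom (mapRingHom ψ)) = ∏ a ∈ (f.map ψ).roots.toFinset.attach,
      B.map (mapRingHom (mapRingHom
        (comp ψ hf a.1 (isRoot_of_mem_roots (Multiset.mem_toFinset.1 a.2))))) :=
  map_nrm3 h hf hp (fun a : (f.map ψ).roots.toFinset => a.1) Subtype.val_injective
    (eq_prod_roots_attach (hf.map ψ) hs hsep)
    (fun a => comp ψ hf a.1 (isRoot_of_mem_roots (Multiset.mem_toFinset.1 a.2)))
    (fun _ => comp_comp_of _ _ _ _) (fun _ => comp_root _ _ _ _) B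

theorem rootPoly_spec {f : A[X]} (hf : f.Monic) (r : ℕ) (g : A) (w : A[X]) {a : k}
    (ha : (f.map ψ).eval a = 0) :
    ((rootPoly Q r f g w).map ψ).eval a = root Q r (ψ g) ((w.map ψ).eval a) := by
  rw [rootPoly, eval_map_rep ψ hf a ha, map_root, comp_of, comp_mk]

variable [IsAlgClosed k] {C : Cv k}

variable {f : A[X]} {z : A} {Z : C.Mu}

/-- the components of the algebra of a universal root -/
theorem Dat.comp_root (h : Dat C Q ψ f z Z) {e : ℕ} {σ : k ≃+* k} {g : k} (hA : Ari C Q e σ g)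
    {a : k} (ha : (f.map ψ).eval a = 0) :
    Dat C Q (Crv.comp ψ h.monic a ha) (f.map (AdjoinRoot.of (mon f))) (AdjoinRoot.of (mon f) z) Z :=
  h.univ hA ⟨a, h.mapf ▸ ha⟩

omit [IsAlgClosed k] in
theorem Init.mu_pos (C : Cv k) : 0 < mu C.r C.nu := Nat.mul_pos C.r_pos (Nat.mul_pos C.r_pos C.hnu)

theorem Init.div_X_sub_root {a : k} (ha : C.F.eval a = 0) :
    C.div (C.pol (X - Polynomial.C a)) = (C.r : ℤ) • Finsupp.single (Cv.ram a ha) 1 - C.H := by
  have h := Cv.div_X_sub_ram (Cv.isRam_ram a ha)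
  rw [Cv.x0_ram] at h
  rw [h, Finsupp.smul_single, smul_eq_mul, mul_one]

theorem init_cont (hF : C.F.Monic) {a : k} (ha : C.F.eval a = 0) :
    C.Cont ((init C.r C.nu a).2.map C.ev) ((mB C.r C.nu : ℤ) • C.H - (Finsupp.single (C.Pone hF) 1 +
      ((C.r : ℤ) * mu C.r C.nu - 1) • Finsupp.single (Cv.ram a ha) 1)) := by
  have hx0 : (X - Polynomial.C a : k[X]) ≠ 0 := X_sub_C_ne_zero a
  have c2 : ((mu C.r C.nu - 1 : ℕ) : ℤ) = mu C.r C.nu - 1 := by
    rw [Nat.cast_sub (Init.mu_pos C)]; simp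
  have c3 : ((C.r - 1 : ℕ) : ℤ) = C.r - 1 := by rw [Nat.cast_sub C.r_pos]; simp
  have h1 := ((((Cv.cont_Pone hF).mul ((Cv.cont_ram ha).pow (C.r - 1))).mul
    (Cv.cont_C (C.pol_ne (pow_ne_zero (mu C.r C.nu - 1) hx0)))).mul (Cv.cont_pad (C.r * C.nu + 1)))
  have e1 : (init C.r C.nu a).2.map C.ev = (formInf k C.nu).map C.ev *
      (formRam C.nu a).map C.ev ^ (C.r - 1) *
      Polynomial.C (C.pol ((X - Polynomial.C a) ^ (mu C.r C.nu - 1))) *
      ((1 + X * Polynomial.C (Polynomial.C (X ^ (C.r * C.nu + 1))) : k[X][X][X]).map C.ev) := by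
    simp only [init, Polynomial.map_mul, Polynomial.map_pow, map_C, Cv.ev_C]
  have e2 : (mB C.r C.nu : ℤ) • C.H - (Finsupp.single (C.Pone hF) 1 +
      ((C.r : ℤ) * mu C.r C.nu - 1) • Finsupp.single (Cv.ram a ha) 1) =
      (C.nu : ℤ) • C.H - Finsupp.single (C.Pone hF) 1 +
        (C.r - 1) • ((C.nu : ℤ) • C.H - Finsupp.single (Cv.ram a ha) 1) +
        -C.div (C.pol ((X - Polynomial.C a) ^ (mu C.r C.nu - 1))) +
        ((C.r * C.nu + 1 : ℕ) : ℤ) • C.H := by
    rw [map_pow, Cv.div_pow, Init.div_X_sub_root ha, ← natCast_zsmul, ← natCast_zsmul, c2, c3, mB]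
    generalize Finsupp.single (C.Pone hF) (1 : ℤ) = p
    generalize Finsupp.single (Cv.ram a ha) (1 : ℤ) = q
    push_cast
    module
  rw [e1, e2]
  exact h1

theorem init_field (hF : C.F.Monic) {a : k} (ha : C.F.eval a = 0) :
    ∃ D : C.Div, C.Pres a (mu C.r C.nu) (mB C.r C.nu) D (init C.r C.nu a).1 (init C.r C.nu a).2 ∧
      Cv.Inv hF Z (Cv.ram a ha) 0 D := by
  have hrm : 0 < C.r * mu C.r C.nu := Nat.mul_pos C.r_pos (Init.mu_pos C)
  have hP : (Cv.ram a ha).IsRam := Cv.isRam_ram a ha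
  have hI : (C.Pone hF).IsInf := Cv.isInf_inf
  have hx0 : (X - Polynomial.C a : k[X]) ≠ 0 := X_sub_C_ne_zero a
  have c1 : ((C.r * mu C.r C.nu - 1 : ℕ) : ℤ) = C.r * mu C.r C.nu - 1 := by
    rw [Nat.cast_sub hrm]; simp
  refine ⟨Finsupp.single (C.Pone hF) 1 +
    ((C.r : ℤ) * mu C.r C.nu - 1) • Finsupp.single (Cv.ram a ha) 1,
    ⟨?_, ?_, ?_, ?_, ?_, init_cont hF ha⟩, ?_⟩
  · rw [← c1, Finsupp.smul_single, smul_eq_mul, mul_one]
    exact add_nonneg (Finsupp.single_nonneg.2 zero_le_one)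
      (Finsupp.single_nonneg.2 (Int.natCast_nonneg _))
  · rw [map_add, map_zsmul, Cv.deg_single, Cv.deg_single, smul_eq_mul]
    push_cast
    ring
  · intro b hb hne
    have h1 : Cv.ram b hb ≠ C.Pone hF := fun e => Cv.not_isInf_ram b hb (e ▸ hI)
    have h2 : Cv.ram b hb ≠ Cv.ram a ha := fun e => hne (congrArg Cv.Pt.x0 e)
    rw [Finsupp.add_apply, Finsupp.smul_apply, Finsupp.single_eq_of_ne h1,
      Finsupp.single_eq_of_ne h2, smul_zero, add_zero]
  · exact pow_ne_zero _ hx0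
  · intro w hw
    have h1 : C.nD w (Finsupp.single (C.Pone hF) 1) = C.H :=
      (Cv.H_eq_nD (Cv.Mu.ne_one_of_prim hw) hI).symm
    have h2 : (init C.r C.nu a).1 = (X - Polynomial.C a) ^ (C.r * mu C.r C.nu - 1) := rfl
    rw [Cv.nD, Cv.sD_add, Cv.sD_zsmul, Cv.sD_of_fixed fun w => Cv.tD_single_ram w hP _, ← Cv.nD,
      h1, h2, map_pow, Cv.div_pow, Init.div_X_sub_root ha, ← natCast_zsmul, c1]
    generalize Finsupp.single (Cv.ram a ha) (1 : ℤ) = q
    push_cast
    module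
  · have h1 := ((Cv.triv_div (C.pol_ne hx0)).add Cv.triv_H).nsmul (mu C.r C.nu)
    refine h1.congr ?_
    rw [Cv.pis, Init.div_X_sub_root ha, ← natCast_zsmul]
    generalize Finsupp.single (C.Pone hF) (1 : ℤ) = p
    generalize Finsupp.single (Cv.ram a ha) (1 : ℤ) = q
    module

theorem init_spec (hF : C.F.Monic) {a : A} (ha : C.F.eval (ψ a) = 0) :
    ∃ D : C.Div, C.Pres (ψ a) (mu C.r C.nu) (mB C.r C.nu) D ((init C.r C.nu a).1.map ψ)
        (m3 ψ (init C.r C.nu a).2) ∧ Cv.Inv hF Z (Cv.ram (ψ a) ha) 0 D := by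
  have h1 : (init C.r C.nu a).1.map ψ = (init C.r C.nu (ψ a)).1 := by simp [init]
  have h2 : m3 ψ (init C.r C.nu a).2 = (init C.r C.nu (ψ a)).2 := by
    simp [init, formInf, formRam]
  rw [h1, h2]
  exact init_field hF ha

end Crv

end Vale.Agent.P319
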