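import Mathlib.Algebra.Polynomial.FieldDivision
import Mathlib.Algebra.Polynomial.Degree.Lemmas
import Mathlib.LinearAlgebra.Span.Basic
import Mathlib.RingTheory.Polynomial.Basic

/-!
P319: kernels of linear maps on polynomials over a field, by elimination.
-/

open Polynomial

namespace Vale.Agent.P319.Alg

variable {F : Type} [Field F]

open Classical in
/-- an element of the list on which `l` does not vanish, if there is one -/
noncomputable def pivot (l : F[X] → F) (vs : List F[X]) : F[X] :=
  (vs.find? fun w => decide (l w ≠ 0)).getD 0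

/-- one elimination step -/
noncomputable def elim1 (l : F[X] → F) (vs : List F[X]) : List F[X] :=
  vs.map fun v => v - C (l v * (l (pivot l vs))⁻¹) * pivot l vs

/-- elimination for the coefficients `0, …, m - 1` of the values of `Φ` -/
noncomputable def kerP (Φ : F[X] → F[X]) (m : ℕ) (vs : List F[X]) : List F[X] :=
  (List.range m).foldl (fun us j => elim1 (fun v => (Φ v).coeff j) us) vs

/-- the span of a list -/
noncomputable abbrev spanL (vs : List F[X]) : Submodule F F[X] := Submodule.span F {v | v ∈ vs}

theorem mem_spanL {vs : List F[X]} {v : F[X]} (h : v ∈ vs) : v ∈ spanL vs :=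
  Submodule.subset_span h

theorem pivot_cases (l : F[X] → F) (vs : List F[X]) :
    (pivot l vs ∈ vs ∧ l (pivot l vs) ≠ 0) ∨ (pivot l vs = 0 ∧ ∀ v ∈ vs, l v = 0) := by
  classical
  unfold pivot
  rcases h : vs.find? fun w => decide (l w ≠ 0) with _ | w
  · right
    rw [List.find?_eq_none] at h
    exact ⟨rfl, fun v hv => by simpa using h v hv⟩
  · left
    exact ⟨List.mem_of_find?_eq_some h, by simpa using List.find?_some h⟩

theorem pivot_mem (l : F[X] → F) (vs : List F[X]) : pivot l vs ∈ spanL vs := by
  rcases pivot_cases l vs with h | h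
  · exact mem_spanL h.1
  · rw [h.1]; exact zero_mem _

theorem length_elim1 (l : F[X] → F) (vs : List F[X]) : (elim1 l vs).length = vs.length :=
  List.length_map _

theorem span_elim1 (l : F[X] →ₗ[F] F) (vs : List F[X]) :
    spanL (elim1 l vs) = spanL vs ⊓ LinearMap.ker l := by
  let π : F[X] →ₗ[F] F[X] :=
    LinearMap.id - (l.smulRight ((l (pivot l vs))⁻¹ • pivot l vs))
  have hπ : ∀ v, π v = v - C (l v * (l (pivot l vs))⁻¹) * pivot l vs := fun v => by
    simp [π, smul_eq_C_mul, mul_assoc]
  have h1 : spanL (elim1 l vs) = (spanL vs).map π := by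
    rw [spanL, spanL, Submodule.map_span]
    congr 1
    ext v
    simp only [elim1, List.mem_map, Set.mem_ofPred_eq, Set.mem_image, hπ]
  rw [h1]
  apply le_antisymm
  · rintro _ ⟨v, hv, rfl⟩
    refine ⟨?_, ?_⟩
    · rw [hπ, ← smul_eq_C_mul]
      exact sub_mem hv (Submodule.smul_mem _ _ (pivot_mem l vs))
    · rw [SetLike.mem_coe, LinearMap.mem_ker, hπ, ← smul_eq_C_mul, map_sub, map_smul]
      rcases pivot_cases l vs with h | h
      · rw [smul_eq_mul, mul_assoc, inv_mul_cancel₀ h.2, mul_one, sub_self]
      · have : spanL vs ≤ LinearMap.ker l := Submodule.span_le.2 h.2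
        rw [h.1, map_zero, smul_zero, sub_zero]
        exact this hv
  · rintro v ⟨hv, hl⟩
    refine ⟨v, hv, ?_⟩
    rw [hπ, LinearMap.mem_ker.1 hl, zero_mul, map_zero, zero_mul, sub_zero]

theorem length_kerP (Φ : F[X] → F[X]) (m : ℕ) (vs : List F[X]) :
    (kerP Φ m vs).length = vs.length := by
  unfold kerP
  induction m with
  | zero => rfl
  | succ m ih => rw [List.range_succ, List.foldl_append, List.foldl_cons, List.foldl_nil,
      length_elim1, ih]

theorem mem_span_kerP (Φ : F[X] →ₗ[F] F[X]) (m : ℕ) (vs : List F[X]) (v : F[X]) :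
    v ∈ spanL (kerP Φ m vs) ↔ v ∈ spanL vs ∧ ∀ j < m, (Φ v).coeff j = 0 := by
  unfold kerP
  induction m with
  | zero => simp
  | succ m ih =>
    rw [List.range_succ, List.foldl_append, List.foldl_cons, List.foldl_nil]
    have := span_elim1 ((lcoeff F m).comp Φ)
      ((List.range m).foldl (fun us j => elim1 (fun v => (Φ v).coeff j) us) vs)
    change spanL (elim1 (fun v => (Φ v).coeff m) _) = _ at this
    rw [this, Submodule.mem_inf, ih, LinearMap.mem_ker, and_assoc]
    refine and_congr_right fun _ => ⟨fun h j hj => ?_, fun h => ⟨fun j hj => h j (by omega),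
      h m (by omega)⟩⟩
    rcases Nat.lt_succ_iff_lt_or_eq.1 hj with h' | rfl
    · exact h.1 j h'
    · exact h.2

/-- the monomials of degree less than `d` -/
noncomputable def monos (F : Type) [Field F] (d : ℕ) : List F[X] :=
  (List.range d).map fun i => X ^ i

theorem mem_span_monos (d : ℕ) (v : F[X]) : v ∈ spanL (monos F d) ↔ v.degree < d := by
  classical
  rw [← mem_degreeLT, degreeLT_eq_span_X_pow]
  congr! 2
  ext w
  simp [monos]

/-- the kernel of `Φ` on the polynomials of degree less than `d` -/
theorem mem_span_kerP_monos (Φ : F[X] →ₗ[F] F[X]) {m : ℕ} (hΦ : ∀ v, (Φ v).degree < m) (d : ℕ)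
    (v : F[X]) : v ∈ spanL (kerP Φ m (monos F d)) ↔ v.degree < d ∧ Φ v = 0 := by
  rw [mem_span_kerP, mem_span_monos]
  refine and_congr_right fun _ => ⟨fun h => ?_, fun h j _ => by rw [h, coeff_zero]⟩
  ext j
  rcases lt_or_ge j m with hj | hj
  · exact h j hj
  · exact coeff_eq_zero_of_degree_lt ((hΦ v).trans_le (by exact_mod_cast hj))

/-- if an element of the span is outside a submodule, so is an element of the list -/
theorem exists_mem_not_mem {vs : List F[X]} {v : F[X]} (hv : v ∈ spanL vs)
    {S : Submodule F F[X]} (h : v ∉ S) : ∃ w ∈ vs, w ∉ S := by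
  by_contra h'
  push Not at h'
  exact h (Submodule.span_le.2 h' hv)

end Vale.Agent.P319.Alg
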