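import Vale.Agent.P319.Alg.Dat
import Mathlib.LinearAlgebra.Lagrange
import Mathlib.RingTheory.MvPolynomial.Symmetric.NewtonIdentities

/-!
P319: the components of the algebra of a universal root, the trace and the norm of forms.
-/

set_option linter.unusedSectionVars false

open Polynomial

namespace Vale.Agent.P319.Crv

open Gen Vale.Agent.Lib.Dep

variable {A k : Type} [CommRing A] [Field k]

namespace Nrm

/-- the elementary symmetric functions -/
noncomputable def es {ι N : Type} [Fintype ι] [CommRing N] (b : ι → N) (j : ℕ) : N :=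
  MvPolynomial.aeval b (MvPolynomial.esymm ι ℤ j)

theorem es_zero {ι N : Type} [Fintype ι] [CommRing N] (b : ι → N) : es b 0 = 1 := by
  simp [es]

theorem es_card {ι N : Type} [Fintype ι] [CommRing N] (b : ι → N) :
    es b (Fintype.card ι) = ∏ i, b i := by
  rw [es, MvPolynomial.esymm, ← Finset.card_univ, Finset.powersetCard_self]
  simp

theorem es_succ {ι N : Type} [Fintype ι] [CommRing N] (b : ι → N) (j : ℕ) :
    ((j + 1 : ℕ) : N) * es b (j + 1) =
      ∑ i ∈ Finset.range (j + 1), (-1) ^ i * es b (j - i) * ∑ l, b l ^ (i + 1) := by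
  have h := congrArg (MvPolynomial.aeval b) (MvPolynomial.mul_esymm_eq_sum ι ℤ (j + 1))
  rw [map_mul, map_natCast, Finset.sum_filter, Finset.Nat.sum_antidiagonal_succ',
    if_neg (lt_irrefl _), zero_add, Finset.Nat.sum_antidiagonal_swap.symm,
    Finset.Nat.sum_antidiagonal_eq_sum_range_succ_mk, Finset.mul_sum, map_sum] at h
  refine h.trans (Finset.sum_congr rfl fun i hi => ?_)
  have hi' : i ≤ j := Nat.lt_succ_iff.1 (Finset.mem_range.1 hi)
  have e : (-1 : N) ^ (j + 1 + 1) * (-1) ^ (j - i) = (-1) ^ i := by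
    rw [← pow_add, show j + 1 + 1 + (j - i) = i + 2 * (j - i + 1) by omega, pow_add, pow_mul]
    simp
  simp only [Prod.fst_swap, Prod.snd_swap]
  rw [if_pos (by omega)]
  simp only [map_mul, map_pow, map_neg, map_one, MvPolynomial.psum, map_sum, MvPolynomial.aeval_X]
  rw [← e, es]
  ring

/-- Newton's identities, after a homomorphism -/
theorem map_newton {ι M N : Type} [Fintype ι] [CommRing M] [CommRing N] (φ : M →+* N)
    (b : ι → N) (iv ps : ℕ → M) {n : ℕ} (hn : Fintype.card ι = n)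
    (hiv : ∀ j, 1 ≤ j → j ≤ n → φ (iv j) * j = 1)
    (hps : ∀ j, 1 ≤ j → j ≤ n → φ (ps j) = ∑ l, b l ^ j) : φ (newton iv ps n) = ∏ i, b i := by
  have hg : ∀ (l : List M) (i : ℕ), φ (l.getD i 0) = (l.map φ).getD i 0 := fun l i => by
    rw [← map_zero φ, List.getD_map]
  have key : ∀ m ≤ n, ((List.range m).foldl (fun (es : List M) j => es ++ [iv (j + 1) *
      ∑ i ∈ Finset.range (j + 1), (-1) ^ i * es.getD (j - i) 0 * ps (i + 1)]) [1]).map φ =
      (List.range (m + 1)).map (es b) := by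
    intro m
    induction m with
    | zero => intro _; simp [es_zero]
    | succ m ih =>
      intro hm
      have ih' := ih (by omega)
      rw [List.range_succ, List.foldl_append, List.foldl_cons, List.foldl_nil, List.map_append,
        ih', List.range_succ (n := m + 1), List.map_append]
      congr 1
      simp only [List.map_cons, List.map_nil, List.cons.injEq, and_true]
      have h1 := hiv (m + 1) (by omega) hm
      rw [map_mul, map_sum, ← one_mul (es b (m + 1)), ← h1, mul_assoc, es_succ]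
      congr 1
      refine Finset.sum_congr rfl fun i hi => ?_
      have hi' := Finset.mem_range.1 hi
      rw [map_mul, map_mul, map_pow, map_neg, map_one, hps (i + 1) (by omega) (by omega),
        hg, ih', List.getD_eq_getElem _ _ (by simp)]
      simp
  have h := key n le_rfl
  rw [newton, hg, h, List.getD_eq_getElem _ _ (by simp), ← es_card, hn]
  simp

theorem coeff_mapc {M : Type} [CommRing M] {f : A → M} (h0 : f 0 = 0) (p : A[X]) (i : ℕ) :
    (mapc f p).coeff i = f (p.coeff i) := by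
  rw [mapc, finsetSum_coeff]
  simp only [coeff_monomial]
  rw [Finset.sum_ite_eq']
  split_ifs with h
  · rfl
  · rw [coeff_eq_zero_of_natDegree_lt (by simpa using h), h0]

theorem mapc_zero {M : Type} [CommRing M] {f : A → M} (h0 : f 0 = 0) : mapc f 0 = 0 := by
  ext i
  rw [coeff_mapc h0, coeff_zero, h0, coeff_zero]

/-- a trace formula passes to polynomials -/
theorem map_mapc {ι M N : Type} [CommRing M] [CommRing N] (s : Finset ι) (ψ : M →+* N)
    (φ : ι → A →+* N) {t : A → M} (h0 : t 0 = 0) (h : ∀ x, ψ (t x) = ∑ i ∈ s, φ i x) (p : A[X]) :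
    mapRingHom ψ (mapc t p) = ∑ i ∈ s, mapRingHom (φ i) p := by
  ext j
  simp only [coe_mapRingHom, coeff_map, finsetSum_coeff]
  rw [coeff_mapc h0, h]

end Nrm

/-! ### components -/

@[simp] theorem comp_of (ψ : A →+* k) {f : A[X]} (hf : f.Monic) (a : k) (ha) (x : A) :
    comp ψ hf a ha (AdjoinRoot.of _ x) = ψ x := AdjoinRoot.lift_of _

@[simp] theorem comp_root (ψ : A →+* k) {f : A[X]} (hf : f.Monic) (a : k) (ha) :
    comp ψ hf a ha (AdjoinRoot.root _) = a := AdjoinRoot.lift_root _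

theorem comp_comp_of (ψ : A →+* k) {f : A[X]} (hf : f.Monic) (a : k) (ha) :
    (comp ψ hf a ha).comp (AdjoinRoot.of _) = ψ := AdjoinRoot.lift_comp_of _

@[simp] theorem comp_mk (ψ : A →+* k) {f : A[X]} (hf : f.Monic) (a : k) (ha) (w : A[X]) :
    comp ψ hf a ha (AdjoinRoot.mk _ w) = (w.map ψ).eval a := by
  rw [eval_map]
  exact AdjoinRoot.lift_mk _ _

theorem eval_map_rep (ψ : A →+* k) {f : A[X]} (hf : f.Monic) (a : k) (ha)
    (x : AdjoinRoot (mon f)) : ((rep x).map ψ).eval a = comp ψ hf a ha x := by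
  rw [← comp_mk ψ hf a ha, mk_rep]

/-- for an arbitrary homomorphism -/
theorem hom_eq_eval_rep {f : A[X]} (φ : AdjoinRoot (mon f) →+* k) (x : AdjoinRoot (mon f)) :
    φ x = ((rep x).map (φ.comp (AdjoinRoot.of _))).eval (φ (AdjoinRoot.root _)) := by
  rw [eval_map, hom_eq_eval₂_rep]

theorem hom_mk {f : A[X]} (φ : AdjoinRoot (mon f) →+* k) (w : A[X]) :
    φ (AdjoinRoot.mk _ w) = (w.map (φ.comp (AdjoinRoot.of _))).eval (φ (AdjoinRoot.root _)) := by
  rw [eval_map, ← AdjoinRoot.aeval_eq, aeval_def, hom_eval₂]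
  rfl

/-- a homomorphism whose values on the constants and on the root are fixed by Frobenius -/
theorem comp_of_root {Q : ℕ} {f : A[X]} (φ : AdjoinRoot (mon f) →+* k)
    (hψ : Comp Q (φ.comp (AdjoinRoot.of _))) (hadd : ∀ x y : k, (x + y) ^ Q = x ^ Q + y ^ Q)
    (ha : φ (AdjoinRoot.root _) ^ Q = φ (AdjoinRoot.root _)) : Comp Q φ := by
  refine ⟨hψ.three, fun x => ?_⟩
  obtain ⟨w, rfl⟩ := AdjoinRoot.mk_surjective x
  induction w using Polynomial.induction_on' with
  | add p q hp hq => rw [map_add, map_add, hadd, hp, hq]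
  | monomial n c =>
    have h1 : φ (AdjoinRoot.of _ c) ^ Q = φ (AdjoinRoot.of _ c) := hψ.fix c
    rw [← C_mul_X_pow_eq_monomial, map_mul, map_pow, AdjoinRoot.mk_C, AdjoinRoot.mk_X, map_mul,
      map_pow, mul_pow, h1, ← pow_mul, mul_comm n, pow_mul, ha]

theorem comp_comp {Q : ℕ} {ψ : A →+* k} (hψ : Comp Q ψ) {f : A[X]} (hf : f.Monic) {a : k} (ha)
    (hadd : ∀ x y : k, (x + y) ^ Q = x ^ Q + y ^ Q) (haQ : a ^ Q = a) :
    Comp Q (comp ψ hf a ha) :=
  comp_of_root _ (by rwa [comp_comp_of]) hadd (by rwa [comp_root])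

/-! ### trace and norm -/

theorem trA_zero (f : A[X]) : trA f 0 = 0 := by
  rw [trA, zero_mul, ← map_zero (AdjoinRoot.mk (mon f)), rep_mk (mon_monic f), zero_modByMonic,
    coeff_zero]

/-- the trace is the sum of the values at the roots -/
theorem map_trA {ι : Type} [Fintype ι] (ψ : A →+* k) {f : A[X]} (hf : f.Monic) (a : ι → k)
    (ha : Function.Injective a) (hF : f.map ψ = ∏ i, (X - C (a i)))
    (φ : ι → AdjoinRoot (mon f) →+* k) (h1 : ∀ i, (φ i).comp (AdjoinRoot.of _) = ψ)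
    (h2 : ∀ i, φ i (AdjoinRoot.root _) = a i) (x : AdjoinRoot (mon f)) :
    ψ (trA f x) = ∑ i, φ i x := by
  classical
  have : Nontrivial A := ψ.domain_nontrivial
  have hn : f.natDegree = (Finset.univ : Finset ι).card := by
    rw [← hf.natDegree_map ψ, hF]
    exact Lagrange.natDegree_nodal
  have hd : ((rep (x * AdjoinRoot.mk (mon f) (derivative f))).map ψ).degree <
      (Finset.univ : Finset ι).card := by
    refine degree_map_le.trans_lt ((degree_rep_lt (mon_monic f) _).trans_eq ?_)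
    rw [mon_eq hf, degree_eq_natDegree hf.ne_zero, hn]
  rw [trA, ← coeff_map, hn, Lagrange.coeff_eq_sum ha.injOn hd]
  refine Finset.sum_congr rfl fun i hi => ?_
  have e1 : ((rep (x * AdjoinRoot.mk (mon f) (derivative f))).map ψ).eval (a i) =
      φ i x * ((derivative f).map ψ).eval (a i) := by
    rw [← h1 i, ← h2 i, ← hom_eq_eval_rep, map_mul, hom_mk]
  have e2 : ((derivative f).map ψ).eval (a i) = ∏ j ∈ Finset.univ.erase i, (a i - a j) := by
    rw [← derivative_map, hF, ← Lagrange.nodal_eq, Lagrange.eval_nodal_derivative_eval_node_eq hi,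
      Lagrange.eval_nodal]
  have e3 : ∏ j ∈ Finset.univ.erase i, (a i - a j) ≠ 0 :=
    Finset.prod_ne_zero_iff.2 fun j hj => sub_ne_zero.2 fun e => (Finset.ne_of_mem_erase hj)
      (ha e).symm
  rw [e1, e2, mul_div_cancel_right₀ _ e3]

/-- the norm of a form is the product of its components -/
theorem map_nrm3 {ι : Type} [Fintype ι] {Q : ℕ} {ψ : A →+* k} (hψ : Comp Q ψ) {f : A[X]}
    (hf : f.Monic) (hp : ∀ j, 1 ≤ j → j ≤ f.natDegree → (j : k) ≠ 0) (a : ι → k)
    (ha : Function.Injective a) (hF : f.map ψ = ∏ i, (X - C (a i)))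
    (φ : ι → AdjoinRoot (mon f) →+* k) (h1 : ∀ i, (φ i).comp (AdjoinRoot.of _) = ψ)
    (h2 : ∀ i, φ i (AdjoinRoot.root _) = a i) (B : (AdjoinRoot (mon f))[X][X][X]) :
    (nrm3 Q f B).map (mapRingHom (mapRingHom ψ)) =
      ∏ i, B.map (mapRingHom (mapRingHom (φ i))) := by
  have : Nontrivial A := ψ.domain_nontrivial
  have hn : Fintype.card ι = f.natDegree := by
    rw [← hf.natDegree_map ψ, hF]
    exact Lagrange.natDegree_nodal.symm
  refine Nrm.map_newton (M := A[X][X][X]) (N := k[X][X][X])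
    (mapRingHom (mapRingHom (mapRingHom ψ))) _ _ _ hn (fun j j1 j2 => ?_) fun j _ _ => ?_
  · have e1 := hψ.fix j
    have e2 := hψ.three
    have e3 : ψ (pinv Q (j : A)) * j = 1 := by
      rw [map_natCast] at e1
      rw [pinv, map_pow, map_natCast, ← pow_succ]
      apply mul_right_cancel₀ (hp j j1 j2)
      rw [← pow_succ, show Q - 2 + 1 + 1 = Q by omega, e1, one_mul]
    have e4 : (j : k[X][X][X]) = C (C (C (j : k))) := by simp
    simp only [coe_mapRingHom, map_C]
    rw [e4, ← C_mul, ← C_mul, ← C_mul, e3]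
    simp
  · have t1 := Nrm.map_mapc Finset.univ ψ φ (trA_zero f) (map_trA ψ hf a ha hF φ h1 h2)
    have t2 := Nrm.map_mapc Finset.univ _ _ (Nrm.mapc_zero (trA_zero f)) t1
    have t3 := Nrm.map_mapc Finset.univ _ _ (Nrm.mapc_zero (Nrm.mapc_zero (trA_zero f))) t2
    rw [t3]
    simp only [map_pow, coe_mapRingHom]

/-! ### the roots of the equation of the curve -/

/-- the roots of `F` -/
abbrev Rt (C : Cv k) : Type := {a : k // C.F.eval a = 0}

instance (C : Cv k) : Finite (Rt C) := (finite_setOfPred_isRoot C.F_ne).to_subtype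

noncomputable instance (C : Cv k) : Fintype (Rt C) := Fintype.ofFinite _

variable [IsAlgClosed k]

theorem F_eq_prod {C : Cv k} (hF : C.F.Monic) : C.F = ∏ a : Rt C, (X - Polynomial.C a.1) := by
  classical
  have h1 := (IsAlgClosed.splits C.F).eq_prod_roots_of_monic hF
  have h2 : C.F.roots.Nodup := nodup_roots C.hsep
  rw [← Finset.prod_subtype (p := fun a => C.F.eval a = 0) ⟨C.F.roots, h2⟩
    (fun a => by simp [C.F_ne]) fun a => X - Polynomial.C a]
  exact h1

theorem card_Rt {C : Cv k} (hF : C.F.Monic) : Fintype.card (Rt C) = C.r * C.nu := by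
  rw [← C.hdeg, F_eq_prod hF]
  exact Lagrange.natDegree_nodal.symm

variable {C : Cv k} {Q : ℕ} {ψ : A →+* k} {f : A[X]} {z : A} {Z : C.Mu}

theorem Dat.F_monic (h : Dat C Q ψ f z Z) : C.F.Monic := h.mapf ▸ h.monic.map ψ

theorem Dat.natDegree (h : Dat C Q ψ f z Z) : f.natDegree = C.r * C.nu := by
  rw [← h.monic.natDegree_map ψ, h.mapf, C.hdeg]

/-- the component at a root of `F` -/
noncomputable def Dat.cmp (h : Dat C Q ψ f z Z) (a : Rt C) : AdjoinRoot (mon f) →+* k :=
  Crv.comp ψ h.monic a.1 (by rw [h.mapf]; exact a.2)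

@[simp] theorem Dat.cmp_of (h : Dat C Q ψ f z Z) (a : Rt C) (x : A) :
    h.cmp a (AdjoinRoot.of _ x) = ψ x := comp_of _ _ _ _ _

@[simp] theorem Dat.cmp_root (h : Dat C Q ψ f z Z) (a : Rt C) :
    h.cmp a (AdjoinRoot.root _) = a.1 := comp_root _ _ _ _

theorem Dat.cmp_comp_of (h : Dat C Q ψ f z Z) (a : Rt C) :
    (h.cmp a).comp (AdjoinRoot.of _) = ψ := comp_comp_of _ _ _ _

@[simp] theorem Dat.cmp_mk (h : Dat C Q ψ f z Z) (a : Rt C) (w : A[X]) :
    h.cmp a (AdjoinRoot.mk _ w) = (w.map ψ).eval a.1 := comp_mk _ _ _ _ _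

theorem Dat.eval_map_rep (h : Dat C Q ψ f z Z) (a : Rt C) (x : AdjoinRoot (mon f)) :
    ((rep x).map ψ).eval a.1 = h.cmp a x := Crv.eval_map_rep _ _ _ _ _

theorem Ari.add_pow {e : ℕ} {σ : k ≃+* k} {g : k} (h : Ari C Q e σ g) (x y : k) :
    (x + y) ^ Q = x ^ Q + y ^ Q := by rw [← h.frob, ← h.frob, ← h.frob, map_add]

theorem Ari.root_pow {e : ℕ} {σ : k ≃+* k} {g : k} (h : Ari C Q e σ g) {a : k}
    (ha : C.F.eval a = 0) : a ^ Q = a := by rw [← h.frob, (h.fix.pow _).root a ha]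

theorem Dat.comp_cmp (h : Dat C Q ψ f z Z) {e : ℕ} {σ : k ≃+* k} {g : k} (h' : Ari C Q e σ g)
    (a : Rt C) : Comp Q (h.cmp a) :=
  comp_comp h.comp _ _ h'.add_pow (h'.root_pow a.2)

/-- the data over the algebra of a universal root -/
theorem Dat.univ (h : Dat C Q ψ f z Z) {e : ℕ} {σ : k ≃+* k} {g : k} (h' : Ari C Q e σ g)
    (a : Rt C) : Dat C Q (h.cmp a) (f.map (AdjoinRoot.of (mon f))) (AdjoinRoot.of (mon f) z) Z where
  comp := h.comp_cmp h' a
  monic := h.monic.map _
  mapf := by rw [Polynomial.map_map, h.cmp_comp_of, h.mapf]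
  mapz := by rw [h.cmp_of, h.mapz]
  prim := h.prim

theorem Dat.map_trA (h : Dat C Q ψ f z Z) (x : AdjoinRoot (mon f)) :
    ψ (trA f x) = ∑ a : Rt C, h.cmp a x :=
  Crv.map_trA ψ h.monic _ Subtype.val_injective (h.mapf.trans (F_eq_prod h.F_monic)) _
    h.cmp_comp_of h.cmp_root x

theorem Dat.map_nrm3 (h : Dat C Q ψ f z Z) (hp : ∀ j, 1 ≤ j → j ≤ C.r * C.nu → (j : k) ≠ 0)
    (B : (AdjoinRoot (mon f))[X][X][X]) :
    m3 ψ (nrm3 Q f B) = ∏ a : Rt C, m3 (h.cmp a) B :=
  Crv.map_nrm3 h.comp h.monic (by rwa [h.natDegree]) _ Subtype.val_injective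
    (h.mapf.trans (F_eq_prod h.F_monic)) _ h.cmp_comp_of h.cmp_root B

/-- the norm of a polynomial -/
theorem Dat.map_nrm1 (h : Dat C Q ψ f z Z) (hp : ∀ j, 1 ≤ j → j ≤ C.r * C.nu → (j : k) ≠ 0)
    (u : (AdjoinRoot (mon f))[X]) :
    (((nrm3 Q f (Polynomial.C (Polynomial.C u))).coeff 0).coeff 0).map ψ =
      ∏ a : Rt C, u.map (h.cmp a) := by
  have h1 := congrArg (fun B : k[X][X][X] => (B.coeff 0).coeff 0)
    (h.map_nrm3 hp (Polynomial.C (Polynomial.C u)))
  simp only [coe_mapRingHom, coeff_map, map_C] at h1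
  rw [h1, ← map_prod, ← map_prod, coeff_C_zero, coeff_C_zero]

end Vale.Agent.P319.Crv
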