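import Vale.Agent.P319.Alg.KerF
import Mathlib.FieldTheory.Finite.Extension
import Mathlib.FieldTheory.Finite.GaloisField
import Mathlib.FieldTheory.Minpoly.Finite
import Mathlib.RingTheory.EuclideanDomain

/-!
P319: from a routine which separates the roots of split squarefree polynomials to a routine which
finds a proper divisor of any reducible polynomial over a prime field (Berlekamp).
-/

open Polynomial

namespace Vale.Agent.P319.Alg

section Field

variable {F : Type} [Field F]

/-- `c` vanishes at some but not at all roots of `f` -/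
def Sep (f c : F[X]) : Prop := ∃ a b, f.IsRoot a ∧ f.IsRoot b ∧ c.IsRoot a ∧ ¬ c.IsRoot b

/-- `c` is neither zero nor a unit modulo `g` -/
def Cut (g c : F[X]) : Prop := ¬ g ∣ c ∧ ¬ IsCoprime g c

/-- division by the leading coefficient -/
noncomputable def nrm (v : F[X]) : F[X] := v * C v.leadingCoeff⁻¹

open Classical in
/-- powers modulo a monic polynomial -/
noncomputable def pmod (g v : F[X]) (e : ℕ) : F[X] := if g.Monic then v ^ e %ₘ g else 0

theorem nrm_monic {v : F[X]} (hv : v ≠ 0) : (nrm v).Monic := monic_mul_leadingCoeff_inv hv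

theorem natDegree_nrm (v : F[X]) : (nrm v).natDegree = v.natDegree := by
  by_cases hv : v = 0
  · rw [nrm, hv, zero_mul]
  · exact natDegree_mul_leadingCoeff_inv v hv

theorem C_mul_nrm (v : F[X]) : C v.leadingCoeff * nrm v = v := by
  by_cases hv : v = 0
  · rw [nrm, hv, zero_mul, mul_zero]
  · rw [nrm, mul_left_comm, ← C_mul, mul_inv_cancel₀ (leadingCoeff_ne_zero.2 hv), C_1, mul_one]

theorem nrm_dvd (v : F[X]) : nrm v ∣ v := Dvd.intro_left _ (C_mul_nrm v)

theorem dvd_nrm (v : F[X]) : v ∣ nrm v := Dvd.intro _ rfl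

theorem pmod_eq {g : F[X]} (hg : g.Monic) (v : F[X]) (e : ℕ) : pmod g v e = v ^ e %ₘ g :=
  if_pos hg

theorem Cut.congr {g c c' : F[X]} (h : Cut g c) (h' : g ∣ c' - c) : Cut g c' := by
  obtain ⟨q, hq⟩ := h'
  rw [sub_eq_iff_eq_add'] at hq
  rw [hq]
  exact ⟨fun h1 => h.1 ((dvd_add_left (dvd_mul_right g q)).1 h1),
    fun h1 => h.2 (IsCoprime.of_add_mul_left_right h1)⟩

open Classical in
theorem Cut.gcd {g c : F[X]} (hg : g ≠ 0) (h : Cut g c) :
    0 < (EuclideanDomain.gcd g c).natDegree ∧ (EuclideanDomain.gcd g c).natDegree < g.natDegree := by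
  have h0 : EuclideanDomain.gcd g c ≠ 0 := fun h0 => hg (EuclideanDomain.gcd_eq_zero_iff.1 h0).1
  constructor
  · refine natDegree_pos_of_not_isUnit_of_dvd_monic (nrm_monic hg) ?_
      ((EuclideanDomain.gcd_dvd_left g c).trans (dvd_nrm g))
    rw [EuclideanDomain.gcd_isUnit_iff]
    exact h.2
  · refine lt_of_le_of_ne (natDegree_le_of_dvd (EuclideanDomain.gcd_dvd_left g c) hg) fun h1 => ?_
    have := associated_of_dvd_of_natDegree_le (EuclideanDomain.gcd_dvd_left g c) hg h1.ge
    exact h.1 (this.symm.dvd.trans (EuclideanDomain.gcd_dvd_right g c))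

/-- the linear map `v ↦ v(b) mod g` -/
noncomputable def compL (g b : F[X]) : F[X] →ₗ[F] F[X] :=
  (modByMonicHom g).comp (aeval b : F[X] →ₐ[F] F[X]).toLinearMap

theorem compL_apply (g b v : F[X]) : compL g b v = v.comp b %ₘ g := by
  rw [comp_eq_aeval]
  rfl

/-- spanning lists of the polynomials of degree at most `d` which vanish at `b` modulo `g` -/
noncomputable def rels (g b : F[X]) (d : ℕ) : List F[X] :=
  kerP (fun v => v.comp b %ₘ g) g.natDegree (monos F (d + 1))

theorem mk_comp (g b v : F[X]) : AdjoinRoot.mk g (v.comp b) = aeval (AdjoinRoot.mk g b) v := by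
  rw [← AdjoinRoot.aeval_eq, aeval_comp, AdjoinRoot.aeval_eq]

theorem degree_mod_lt {g : F[X]} (hg : g.Monic) (v : F[X]) : (v %ₘ g).degree < g.natDegree := by
  rw [← degree_eq_natDegree hg.ne_zero]
  exact degree_modByMonic_lt v hg

theorem mem_span_rels {g : F[X]} (hg : g.Monic) (b : F[X]) (d : ℕ) (v : F[X]) :
    v ∈ spanL (rels g b d) ↔ v.degree < (d + 1 : ℕ) ∧ aeval (AdjoinRoot.mk g b) v = 0 := by
  have : rels g b d = kerP (compL g b) g.natDegree (monos F (d + 1)) := by
    rw [rels, funext (compL_apply g b)]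
  rw [this, mem_span_kerP_monos _ (fun v => by rw [compL_apply]; exact degree_mod_lt hg _),
    compL_apply, modByMonic_eq_zero_iff_dvd hg, ← mk_comp, AdjoinRoot.mk_eq_zero]

/-- the minimal polynomial occurs among the normalized relations -/
theorem exists_rel {g : F[X]} (hg : g.Monic) (b : F[X]) :
    ∃ d ≤ g.natDegree, ∃ v ∈ rels g b d, nrm v = minpoly F (AdjoinRoot.mk g b) := by
  have := (AdjoinRoot.powerBasis hg.ne_zero).finite
  have hi : IsIntegral F (AdjoinRoot.mk g b) := IsIntegral.of_finite F _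
  have hm := minpoly.monic hi
  refine ⟨(minpoly F (AdjoinRoot.mk g b)).natDegree, ?_, ?_⟩
  · refine (minpoly.natDegree_le (A := F) _).trans ?_
    rw [(AdjoinRoot.powerBasis hg.ne_zero).finrank, AdjoinRoot.powerBasis_dim]
  · have h1 := (mem_span_rels hg b _ _).2 ⟨degree_le_natDegree.trans_lt (by
      exact_mod_cast Nat.lt_succ_self _), minpoly.aeval F (AdjoinRoot.mk g b)⟩
    obtain ⟨v, hv, hv0⟩ := exists_mem_not_mem h1 (S := ⊥) (by
      rw [Submodule.mem_bot]; exact hm.ne_zero)
    rw [Submodule.mem_bot] at hv0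
    obtain ⟨h2, h3⟩ := (mem_span_rels hg b _ _).1 (mem_spanL hv)
    refine ⟨v, hv, eq_of_monic_of_dvd_of_natDegree_le hm (nrm_monic hv0)
      ((minpoly.dvd F _ h3).trans (dvd_nrm v)) ?_⟩
    rw [natDegree_nrm]
    rw [degree_eq_natDegree hv0] at h2
    exact Nat.le_of_lt_succ (by exact_mod_cast h2)

theorem cut_of_sep {g : F[X]} (hg : g.Monic) {b c : F[X]}
    (h : Sep (minpoly F (AdjoinRoot.mk g b)) c) : Cut g (c.comp b) := by
  have := (AdjoinRoot.powerBasis hg.ne_zero).finite
  have hm := minpoly.monic (IsIntegral.of_finite F (AdjoinRoot.mk g b))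
  obtain ⟨a, a', ha, ha', hc, hc'⟩ := h
  constructor
  · intro h1
    rw [← AdjoinRoot.mk_eq_zero, mk_comp] at h1
    exact hc' (ha'.dvd (minpoly.dvd F _ h1))
  · rintro ⟨u, w, h1⟩
    obtain ⟨c1, rfl⟩ := dvd_iff_isRoot.2 hc
    obtain ⟨m1, hm1⟩ := dvd_iff_isRoot.2 ha
    have h2 := congrArg (AdjoinRoot.mk g) h1
    rw [map_add, map_mul, map_mul, AdjoinRoot.mk_self, mul_zero, zero_add, mk_comp, map_mul,
      map_one] at h2
    have h3 := minpoly.aeval F (AdjoinRoot.mk g b)
    rw [hm1, map_mul] at h3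
    have h4 : aeval (AdjoinRoot.mk g b) m1 = 0 := by
      linear_combination (AdjoinRoot.mk g w * aeval (AdjoinRoot.mk g b) c1) * h3 -
        aeval (AdjoinRoot.mk g b) m1 * h2
    have hm0 : m1 ≠ 0 := by
      rintro rfl
      exact hm.ne_zero (by rw [hm1, mul_zero])
    have h5 := natDegree_le_of_dvd (minpoly.dvd F _ h4) hm0
    rw [hm1, natDegree_mul (X_sub_C_ne_zero a) hm0, natDegree_X_sub_C] at h5
    omega

end Field

variable {p : ℕ} [Fact p.Prime]

/-- the linear map `v ↦ v ^ p - v mod g` -/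
noncomputable def frobL (g : (ZMod p)[X]) : (ZMod p)[X] →ₗ[ZMod p] (ZMod p)[X] where
  toFun v := (v ^ p - v) %ₘ g
  map_add' v w := by rw [add_pow_char, add_sub_add_comm, add_modByMonic]
  map_smul' c v := by
    rw [_root_.smul_pow, ZMod.pow_card, ← smul_sub, smul_modByMonic]
    rfl

/-- a spanning list of the Berlekamp algebra -/
noncomputable def berl (g : (ZMod p)[X]) : List (ZMod p)[X] :=
  kerP (fun v => pmod g v p - v %ₘ g) g.natDegree (monos (ZMod p) g.natDegree)

theorem mem_span_berl {g : (ZMod p)[X]} (hg : g.Monic) (v : (ZMod p)[X]) :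
    v ∈ spanL (berl g) ↔ v.degree < g.natDegree ∧ g ∣ v ^ p - v := by
  have : berl g = kerP (frobL g) g.natDegree (monos (ZMod p) g.natDegree) := by
    unfold berl
    congr 1
    funext v
    rw [pmod_eq hg, ← sub_modByMonic]
    rfl
  rw [this, mem_span_kerP_monos _ (fun v => degree_mod_lt hg _),
    ← modByMonic_eq_zero_iff_dvd hg]
  rfl

theorem exists_berl {g a b : (ZMod p)[X]} (hg : g.Monic) (hab : g = a * b) (ha : ¬ IsUnit a)
    (hb : ¬ IsUnit b) (h : IsCoprime a b) :
    ∃ v ∈ berl g, v.degree < g.natDegree ∧ g ∣ v ^ p - v ∧ ¬ v.degree < (1 : ℕ) := by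
  obtain ⟨u, w, h1⟩ := h
  have h2 : g ∣ u * a %ₘ g - u * a := dvd_modByMonic_sub _ _
  have h3 : u * a %ₘ g ∈ spanL (berl g) := by
    refine (mem_span_berl hg _).2 ⟨degree_mod_lt hg _, ?_⟩
    rw [← AdjoinRoot.mk_eq_mk, map_pow, AdjoinRoot.mk_eq_mk.2 h2]
    have : IsIdempotentElem (AdjoinRoot.mk g (u * a)) := by
      rw [IsIdempotentElem, ← map_mul, AdjoinRoot.mk_eq_mk]
      exact ⟨-(u * w), by rw [hab]; linear_combination (u * a) * h1⟩
    exact this.pow_eq (Fact.out : p.Prime).ne_zero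
  obtain ⟨v, hv, hv1⟩ := exists_mem_not_mem h3 (S := degreeLT (ZMod p) 1) (by
    rw [mem_degreeLT]
    intro h4
    have h5 := eq_C_of_degree_le_zero (p := u * a %ₘ g) (Nat.WithBot.lt_one_iff_le_zero.1 h4)
    rw [h5] at h2
    set c := (u * a %ₘ g).coeff 0
    have h6 : a ∣ C c := (dvd_sub_left (dvd_mul_left a u)).1 ((Dvd.intro _ hab.symm).trans h2)
    have h7 : b ∣ C (c - 1) := by
      have : C (c - 1) = C c - u * a - w * b := by rw [map_sub, C_1, ← h1]; ring
      rw [this]
      exact dvd_sub ((Dvd.intro_left _ hab.symm).trans h2) (dvd_mul_left b w)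
    by_cases hc : c = 0
    · rw [hc, zero_sub] at h7
      exact hb (isUnit_of_dvd_unit h7 (isUnit_C.2 isUnit_one.neg))
    · exact ha (isUnit_of_dvd_unit h6 (isUnit_C.2 (IsUnit.mk0 c hc))))
  obtain ⟨h4, h5⟩ := (mem_span_berl hg v).1 (mem_spanL hv)
  exact ⟨v, hv, h4, h5, by rwa [mem_degreeLT] at hv1⟩

/-- the specification of a routine for split squarefree polynomials of degree at most `N` -/
def SplitSpec (sp : (ZMod p)[X] → List (ZMod p)[X]) (N : ℕ) : Prop :=
  ∀ m : (ZMod p)[X], m.Monic → m ∣ X ^ p - X → 2 ≤ m.natDegree → m.natDegree ≤ N →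
    ∃ c ∈ sp m, Sep m c

theorem SplitSpec.mono {sp : (ZMod p)[X] → List (ZMod p)[X]} {N M : ℕ} (h : SplitSpec sp N)
    (hM : M ≤ N) : SplitSpec sp M := fun m h1 h2 h3 h4 => h m h1 h2 h3 (h4.trans hM)

/-- the candidates for zero divisors modulo `g` -/
noncomputable def cands (sp : (ZMod p)[X] → List (ZMod p)[X]) (g : (ZMod p)[X]) :
    List (ZMod p)[X] :=
  ((List.range g.natDegree).map fun d => pmod g X (p ^ (d + 1)) - X) ++
    (berl g).flatMap fun b => (List.range (g.natDegree + 1)).flatMap fun d =>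
      (rels g b d).flatMap fun v => (sp (nrm v)).map fun c => c.comp b

theorem exists_cut {sp : (ZMod p)[X] → List (ZMod p)[X]} {g : (ZMod p)[X]} (hg : g.Monic)
    (hsp : SplitSpec sp g.natDegree) (h0 : 0 < g.natDegree) (hirr : ¬ Irreducible g) :
    ∃ c ∈ cands sp g, Cut g c := by
  by_cases hsq : Squarefree g
  · obtain ⟨a, b, hab, ha, hb⟩ : ∃ a b, g = a * b ∧ ¬ IsUnit a ∧ ¬ IsUnit b := by
      by_contra h
      push Not at h
      refine hirr ⟨not_isUnit_of_natDegree_pos g h0, fun a b hab => ?_⟩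
      by_cases ha : IsUnit a
      · exact Or.inl ha
      · exact Or.inr (h a b hab ha)
    obtain ⟨v, hv, h1, h2, h3⟩ := exists_berl hg hab ha hb
      (IsRelPrime.of_squarefree_mul (hab ▸ hsq)).isCoprime
    obtain ⟨d, hd, w, hw, hw'⟩ := exists_rel hg v
    have := (AdjoinRoot.powerBasis hg.ne_zero).finite
    have hi : IsIntegral (ZMod p) (AdjoinRoot.mk g v) := IsIntegral.of_finite _ _
    have : Nontrivial (AdjoinRoot g) :=
      AdjoinRoot.nontrivial g (natDegree_pos_iff_degree_pos.1 h0).ne'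
    obtain ⟨c, hc, hc'⟩ := hsp _ (minpoly.monic hi) (minpoly.dvd _ _ (by
      rw [map_sub, map_pow, aeval_X, ← map_pow, ← map_sub, AdjoinRoot.mk_eq_zero]
      exact h2)) ((minpoly.two_le_natDegree_iff hi).2 (by
        rintro ⟨c, hc⟩
        have h4 : g ∣ v - C c := AdjoinRoot.mk_eq_mk.1 hc.symm
        have h5 : v - C c = 0 := eq_zero_of_dvd_of_degree_lt h4 (by
          rw [degree_eq_natDegree hg.ne_zero]
          exact (degree_sub_le _ _).trans_lt (max_lt h1 (degree_C_le.trans_lt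
            (by exact_mod_cast h0))))
        rw [sub_eq_zero] at h5
        exact h3 (h5 ▸ degree_C_le.trans_lt (by simp)))) (by
      refine (minpoly.natDegree_le (A := ZMod p) _).trans ?_
      rw [(AdjoinRoot.powerBasis hg.ne_zero).finrank, AdjoinRoot.powerBasis_dim])
    refine ⟨c.comp v, List.mem_append_right _ ?_, cut_of_sep hg hc'⟩
    simp only [List.mem_flatMap, List.mem_map, List.mem_range]
    exact ⟨v, hv, d, by omega, w, hw, c, hw' ▸ hc, rfl⟩
  · rw [squarefree_iff_irreducible_sq_not_dvd_of_ne_zero hg.ne_zero] at hsq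
    push Not at hsq
    obtain ⟨h, hh, hhg⟩ := hsq
    have hd0 := hh.natDegree_pos
    have hd1 : h.natDegree ≤ g.natDegree :=
      natDegree_le_of_dvd ((dvd_mul_right h h).trans hhg) hg.ne_zero
    have h1 : h ∣ X ^ p ^ h.natDegree - X := by
      have := hh.natDegree_dvd_iff_dvd_X_pow_card_pow_sub_X.1 (dvd_refl _)
      rwa [Nat.card_zmod] at this
    have h2 : Cut g (X ^ p ^ h.natDegree - X) := by
      refine ⟨fun h2 => hh.not_isUnit ?_, fun h2 => hh.not_isUnit ?_⟩
      · exact (galois_poly_separable p _ (dvd_pow_self p hd0.ne')).squarefree h (hhg.trans h2)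
      · exact h2.isUnit_of_dvd' ((dvd_mul_right h h).trans hhg) h1
    refine ⟨pmod g X (p ^ h.natDegree) - X, List.mem_append_left _ ?_, h2.congr ?_⟩
    · refine List.mem_map.2 ⟨h.natDegree - 1, List.mem_range.2 (by omega), ?_⟩
      rw [Nat.sub_add_cancel hd0]
    · rw [pmod_eq hg, sub_sub_sub_cancel_right]
      exact dvd_modByMonic_sub _ _

end Vale.Agent.P319.Alg
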