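import Vale.Agent.P319.Alg.Gen
import Vale.Agent.P319.Cv.Defs2

/-!
P319: the linear systems of the division step and of the final stage (definitions).
-/

open Polynomial

namespace Vale.Agent.P319.Crv

open Gen

variable {A : Type} [CommRing A]

/-- reduction modulo the equation of the curve -/
noncomputable def red (r : ℕ) (f : A[X]) (G : A[X][X]) : A[X][X] := G %ₘ (X ^ r - C f)

/-- the substitution `Y ↦ z Y` -/
noncomputable def tw (z : A) (G : A[X][X]) : A[X][X] := G.comp (C (C z) * X)

/-- the same on forms -/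
noncomputable def twW (z : A) (B : A[X][X][X]) : A[X][X][X] := mapc (tw z) B

/-- the norm -/
noncomputable def nmA (r : ℕ) (z : A) (G : A[X][X]) : A[X][X] :=
  ∏ l ∈ Finset.range r, tw (z ^ l) G

/-- the product of the conjugates with index from `l` to `r - 1` -/
noncomputable def piW (r : ℕ) (z : A) (B : A[X][X][X]) (l : ℕ) : A[X][X][X] :=
  ∏ i ∈ Finset.range (r - l), twW (z ^ (l + i)) B

/-- vanishes when `p` is `v` times a polynomial of degree less than `N`; `dv` is the division -/
noncomputable def cstr (dv : A[X] → A[X] → A[X]) (v : A[X]) (N : ℕ) (p : A[X]) : A[X] :=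
  p - v * (dv p v %ₘ X ^ N)

/-- `deg D / r` -/
def mu (r nu : ℕ) : ℕ := r * (r * nu)

/-- the formal degree of the forms -/
def mB (r nu : ℕ) : ℕ := mu r nu + 2 * (r * nu)

/-- pairs of indices -/
def idx2 (m n : ℕ) : List (ℕ × ℕ) := (List.range m).flatMap fun i => (List.range n).map fun j => (i, j)

/-- triples of indices -/
def idx3 (l m n : ℕ) : List (ℕ × ℕ × ℕ) :=
  (List.range l).flatMap fun i => (idx2 m n).map fun j => (i, j)

/-- the membership conditions; the index is `(l, k, b)` -/
noncomputable def condM (dv : A[X] → A[X] → A[X]) (r nu : ℕ) (f : A[X]) (a z : A) (u : A[X])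
    (B : A[X][X][X]) (T c : ℕ) (i : ℕ × ℕ × ℕ) (H : A[X][X][X]) : A[X] :=
  cstr dv (u * (X - C a) ^ ((c + r - 1) / r))
    (T + i.1 * mu r nu + (r * ((c + r - 1) / r) - c) * nu + (r - i.1) * mB r nu + 1 -
      (r * mu r nu + (c + r - 1) / r + i.2.2 * nu))
    ((red r f (H.coeff i.1 * X ^ (r * ((c + r - 1) / r) - c) *
      (piW r z B i.1).coeff i.2.1)).coeff i.2.2)

/-- the unknown tuples -/
noncomputable def basisM (A : Type) [CommRing A] (r nu T : ℕ) : List A[X][X][X] :=
  (List.range r).flatMap fun l => (Cv.mons r nu (T + l * mu r nu) A).map fun v => monomial l v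

/-- the solutions of the membership conditions -/
noncomputable def solM (Q r nu : ℕ) (f : A[X]) (a z : A) (u : A[X]) (B : A[X][X][X]) (T c : ℕ) :
    List A[X][X][X] :=
  kerI Q (idx3 r (r * B.natDegree + 1) r) (condM (divAny Q) r nu f a z u B T c) (basisM A r nu T)

/-- the conditions at the ramified points; the index is `(b, b')` -/
noncomputable def condR (r : ℕ) (f : A[X]) (a z : A) (rho : A[X]) (i : ℕ × ℕ) (H : A[X][X][X]) :
    A[X] :=
  ((red r f ((∑ l ∈ Finset.range r, H.coeff l * C (rho ^ (r - 1 - l)) * C (C (z ^ (l * i.1)))) *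
    X ^ (i.1 + 1))).coeff i.2 * (X - C a)) %ₘ f

/-- the test of the first stage -/
noncomputable def testA (Q r : ℕ) (f : A[X]) (z : A) (w : A[X]) (H : A[X][X][X]) : A :=
  nz2 Q (H.coeff 0) * (1 - nz2 Q (red r f (nmA r z (H.coeff 1) - C w * nmA r z (H.coeff 0))))

/-- the candidates of the first stage -/
noncomputable def candA (Q r nu : ℕ) (f : A[X]) (a z : A) (u : A[X]) (B : A[X][X][X])
    (rho : A[X]) (c : ℕ) : List A[X][X][X] :=
  kerI Q (idx2 r r) (condR r f a z rho) (solM Q r nu f a z u B ((r - 1) * nu) c)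

/-- the first stage; `rho m` is an `r`-th root of `g^m u` modulo `f` -/
noncomputable def stA (Q r nu : ℕ) (f : A[X]) (a z g : A) (u : A[X]) (B : A[X][X][X])
    (rho : ℕ → A[X]) : A[X][X][X] :=
  pick ((idx2 r (r * (r * nu) + 1)).flatMap fun i =>
    (candA Q r nu f a z u B (rho i.1) i.2).map fun H =>
      (C (C (C (testA Q r f z (C (g ^ i.1) * u) H))), H))

/-- the relations of the second stage; the index is `(l, b)` -/
noncomputable def condB (r : ℕ) (f : A[X]) (z : A) (h0 h1 : A[X][X]) (i : ℕ × ℕ)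
    (H : A[X][X][X]) : A[X] :=
  (red r f (H.coeff (i.1 + 1) * tw (z ^ i.1) h0 - H.coeff i.1 * tw (z ^ i.1) h1)).coeff i.2

/-- the candidate forms -/
noncomputable def formB (Q r nu : ℕ) (f : A[X]) (a z : A) (u : A[X]) (B : A[X][X][X])
    (h0 h1 : A[X][X]) (c : ℕ) : A[X][X][X] :=
  form ((kerI Q (idx2 (r - 1) r) (condB r f z h0 h1)
    (solM Q r nu f a z u B (mB r nu) c)).map fun H => H.coeff 0)

/-- the coefficients of the norm of a form -/
noncomputable def psB (r : ℕ) (f : A[X]) (z : A) (B : A[X][X][X]) : List A[X] :=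
  (List.range (r * B.natDegree + 1)).map fun k => (red r f ((piW r z B 0).coeff k)).coeff 0

/-- the norm of the content of a form -/
noncomputable def uB (Q r nu : ℕ) (f : A[X]) (z : A) (B : A[X][X][X]) : A[X] :=
  gcdL Q (psB r f z B) %ₘ X ^ (r * mu r nu + 1)

/-- the test of the second stage -/
noncomputable def testB (Q r nu : ℕ) (f : A[X]) (z : A) (B : A[X][X][X]) : A :=
  (1 - nzL Q ((psB r f z B).map fun p =>
      nz1 Q (divAny Q p (uB Q r nu f z B) /ₘ X ^ (r * (2 * (r * nu)) + 1)))) *
    nzL Q ((psB r f z B).map fun p => (divAny Q p (uB Q r nu f z B)).coeff (r * (2 * (r * nu))))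

/-- the second stage -/
noncomputable def stB (Q r nu : ℕ) (f : A[X]) (a z : A) (u : A[X]) (B : A[X][X][X])
    (h0 h1 : A[X][X]) : A[X] × A[X][X][X] :=
  (pick ((List.range (r * mu r nu + 1)).map fun c =>
      (C (testB Q r nu f z (formB Q r nu f a z u B h0 h1 c)),
        uB Q r nu f z (formB Q r nu f a z u B h0 h1 c))),
    pick ((List.range (r * mu r nu + 1)).map fun c =>
      (C (C (C (testB Q r nu f z (formB Q r nu f a z u B h0 h1 c)))),
        formB Q r nu f a z u B h0 h1 c)))

/-- the form of the point at infinity -/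
noncomputable def formInf (A : Type) [CommRing A] (nu : ℕ) : A[X][X][X] :=
  C (X - C (X ^ nu)) + X * C (C (X ^ (nu - 1))) + X ^ 2

/-- the form of a ramified point -/
noncomputable def formRam (nu : ℕ) (a : A) : A[X][X][X] :=
  C X + X * C (C ((X - C a) ^ nu)) + X ^ 2 * C (C (X - C a))

/-- the first presentation -/
noncomputable def init (r nu : ℕ) (a : A) : A[X] × A[X][X][X] :=
  ((X - C a) ^ (r * mu r nu - 1),
    formInf A nu * formRam nu a ^ (r - 1) * C (C ((X - C a) ^ (mu r nu - 1))) *
      (1 + X * C (C (X ^ (r * nu + 1)))))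

/-! ### The final stage -/

/-- the form of `W_j` -/
noncomputable def formW (M : ℕ) (z : A) (S : A[X][X][X]) (j : ℕ) : A[X][X][X] :=
  ∏ l ∈ Finset.range (j + 1), twW (z ^ l) S ^ Cv.cf M j l

/-- the complementary form -/
noncomputable def formT (r : ℕ) (z : A) (S : A[X][X][X]) : A[X][X][X] := twW z S * piW r z S 1

/-- the conditions of the final stage; `d` is the degree of the divisor, `m` the formal degree of
its form; the index is `(k, b)` -/
noncomputable def condF (dv : A[X] → A[X] → A[X]) (r nu : ℕ) (f : A[X]) (U : A[X])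
    (T : A[X][X][X]) (d m : ℕ) (i : ℕ × ℕ) (G : A[X][X]) : A[X] :=
  cstr dv (U ^ 2) (d + r * m + 1 - (2 * d + i.2 * nu)) ((red r f (G * T.coeff i.1)).coeff i.2)

/-- the solutions of the final system -/
noncomputable def solF (Q r nu : ℕ) (f : A[X]) (z : A) (U : A[X]) (S : A[X][X][X]) (d m : ℕ) :
    List A[X][X] :=
  kerI Q (idx2 ((formT r z S).natDegree + 1) r) (condF (divAny Q) r nu f U (formT r z S) d m)
    (Cv.mons r nu d A)

end Vale.Agent.P319.Crv
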