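import Vale.Agent.P319.Alg.Factor
import Vale.Agent.P319.Alg.Dat
import Vale.Agent.P319.Alg.RootSpec
import Mathlib.LinearAlgebra.Lagrange

/-!
P319: separation of the roots of a split squarefree polynomial of even degree (the out-degrees of
a tournament on an even number of vertices are not all equal).
-/

open Polynomial Finset

namespace Vale.Agent.P319.Alg

open Gen Crv Vale.Agent.Lib.Dep

section Defs

variable {A : Type} [CommRing A]

/-- the difference of two universal roots -/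
noncomputable def tz (m : A[X]) : AdjoinRoot (mon (m.map (AdjoinRoot.of (mon m)))) :=
  AdjoinRoot.root _ - AdjoinRoot.of _ (AdjoinRoot.root (mon m))

/-- the out-degree of the universal root -/
noncomputable def outdeg (Q : ℕ) (γ : A) (m : A[X]) : AdjoinRoot (mon m) :=
  trA (m.map (AdjoinRoot.of (mon m))) (ind Q (tz m * (tz m +
    root Q 2 (AdjoinRoot.of _ (AdjoinRoot.of (mon m) γ)) (tz m ^ 2))))

/-- the candidates of the tournament -/
noncomputable def tourn (Q : ℕ) (γ : A) (m : A[X]) : List A[X] :=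
  (List.range m.natDegree).map fun c : ℕ => rep (outdeg Q γ m) - C (c : A)

end Defs

theorem comp_root {A k : Type} [CommRing A] [Field k] (ψ : A →+* k) {f : A[X]} (hf : f.Monic)
    (a : k) (ha : (f.map ψ).eval a = 0) : Crv.comp ψ hf a ha (AdjoinRoot.root _) = a :=
  AdjoinRoot.lift_root _

theorem comp_of {A k : Type} [CommRing A] [Field k] (ψ : A →+* k) {f : A[X]} (hf : f.Monic)
    (a : k) (ha : (f.map ψ).eval a = 0) (c : A) :
    Crv.comp ψ hf a ha (AdjoinRoot.of _ c) = ψ c := AdjoinRoot.lift_of _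

theorem comp_mk {A k : Type} [CommRing A] [Field k] (ψ : A →+* k) {f : A[X]} (hf : f.Monic)
    (a : k) (ha : (f.map ψ).eval a = 0) (w : A[X]) :
    Crv.comp ψ hf a ha (AdjoinRoot.mk _ w) = (w.map ψ).eval a := by
  rw [eval_map]
  exact AdjoinRoot.lift_mk _ _

/-- the trace is the sum over the roots -/
theorem map_trA {A k : Type} [CommRing A] [Field k] (ψ : A →+* k) {f : A[X]} (hf : f.Monic)
    {s : Finset k} (hs : f.map ψ = Lagrange.nodal s id) (x : AdjoinRoot (mon f)) :
    ψ (trA f x) = ∑ b ∈ s, ((rep x).map ψ).eval b := by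
  classical
  have := ψ.domain_nontrivial
  have hn : f.natDegree = s.card := by
    rw [← Lagrange.natDegree_nodal (s := s) (v := id (α := k)), ← hs, hf.natDegree_map]
  have h1 : rep (x * AdjoinRoot.mk (mon f) (derivative f)) = (rep x * derivative f) %ₘ f := by
    conv_lhs => rw [← mk_rep x, ← map_mul, rep_mk (mon_monic f)]
    congr 1
    exact mon_eq hf
  have hm : (Lagrange.nodal s (id : k → k)).Monic := Lagrange.nodal_monic
  rw [trA, h1, ← coeff_map, map_modByMonic _ hf, Polynomial.map_mul, ← derivative_map, hs, hn,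
    Lagrange.coeff_eq_sum (v := id) (Set.injOn_id _) (by
      rw [← Lagrange.degree_nodal (v := (id : k → k))]
      exact degree_modByMonic_lt _ hm)]
  refine sum_congr rfl fun b hb => ?_
  have h2 : ∏ j ∈ s.erase b, (id b - id j) ≠ 0 :=
    prod_ne_zero_iff.2 fun j hj => sub_ne_zero.2 (mem_erase.1 hj).1.symm
  rw [div_eq_iff h2, modByMonic_eq_sub_mul_div, eval_sub, eval_mul, eval_mul,
    Lagrange.eval_nodal_at_node hb, zero_mul, sub_zero,
    Lagrange.eval_nodal_derivative_eval_node_eq hb, Lagrange.eval_nodal]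
  rfl

variable {p : ℕ} [Fact p.Prime]

theorem splits_of_dvd {m : (ZMod p)[X]} (h : m ∣ X ^ p - X) : m.Splits := by
  have := FiniteField.splits_X_pow_card_sub_X (p := p) (K := ZMod p)
  rw [ZMod.card, Algebra.algebraMap_self, Polynomial.map_id] at this
  exact this.of_dvd (FiniteField.X_pow_card_sub_X_ne_zero _ (Fact.out : p.Prime).one_lt) h

theorem separable_of_dvd {m : (ZMod p)[X]} (h : m ∣ X ^ p - X) : m.Separable :=
  (galois_poly_separable p p dvd_rfl).of_dvd h

/-- a monic divisor of `X ^ p - X` is the product of `X - a` over a set of residues -/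
theorem exists_nodal {m : (ZMod p)[X]} (hm : m.Monic) (h : m ∣ X ^ p - X) :
    ∃ s : Finset (ZMod p), m = Lagrange.nodal s id ∧ s.card = m.natDegree ∧
      ∀ a, m.IsRoot a ↔ a ∈ s := by
  refine ⟨⟨m.roots, nodup_roots (separable_of_dvd h)⟩,
    (splits_of_dvd h).eq_prod_roots_of_monic hm, (splits_of_dvd h).natDegree_eq_card_roots.symm,
    fun a => (mem_roots hm.ne_zero).symm⟩

/-- the arcs of the tournament -/
noncomputable def arc (γ a b : ZMod p) : ℕ :=
  if (b - a) * (b - a + root p 2 γ ((b - a) ^ 2)) = 0 then 0 else 1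

theorem arc_self (γ a : ZMod p) : arc γ a a = 0 := if_pos (by rw [sub_self, zero_mul])

theorem arc_le (γ a b : ZMod p) : arc γ a b ≤ 1 := by
  unfold arc
  split_ifs <;> simp

theorem arc_add (hp : 3 ≤ p) {γ : ZMod p} (hγ : ∀ b, b ^ 2 ≠ γ) {a b : ZMod p} (hab : a ≠ b) :
    arc γ a b + arc γ b a = 1 := by
  have hodd : Odd p := (Fact.out : p.Prime).odd_of_ne_two (by omega)
  have hd : 2 ∣ p - 1 := (Nat.Odd.sub_odd hodd odd_one).two_dvd
  have h1 := root_spec (ψ := RingHom.id (ZMod p)) ⟨hp, fun z => ZMod.pow_card z⟩ Nat.prime_two hd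
    (g := γ) (z := (b - a) ^ 2) (ne_zero_of_not_pow two_ne_zero hγ)
    (by simpa using pow_div_ne_one (K := ZMod p) (by rwa [ZMod.card]) hγ)
    (ZMod.pow_card (b - a)) rfl
  rw [RingHom.id_apply, RingHom.id_apply, sq_eq_sq_iff_eq_or_eq_neg] at h1
  have h2 : (a - b) ^ 2 = (b - a) ^ 2 := by ring
  have h3 : b - a ≠ 0 := sub_ne_zero.2 hab.symm
  have h4 : a - b ≠ 0 := sub_ne_zero.2 hab
  have h5 : (2 : ZMod p) ≠ 0 := fun h => by
    have := (ZMod.natCast_eq_zero_iff 2 p).1 h
    have := Nat.le_of_dvd two_pos this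
    omega
  unfold arc
  rw [h2]
  rcases h1 with h | h
  · rw [h, if_neg (mul_ne_zero h3 (by rw [← two_mul]; exact mul_ne_zero h5 h3)),
      if_pos (by ring)]
  · rw [h, if_pos (by ring), if_neg (mul_ne_zero h4 (by
      rw [neg_sub, ← two_mul]; exact mul_ne_zero h5 h4))]

theorem eval_outdeg (γ : ZMod p) {m : (ZMod p)[X]} (hm : m.Monic) {s : Finset (ZMod p)}
    (hs : m = Lagrange.nodal s id) {a : ZMod p} (ha : a ∈ s) :
    (rep (outdeg p γ m)).eval a = ((∑ b ∈ s, arc γ a b : ℕ) : ZMod p) := by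
  have hr : ∀ b ∈ s, m.eval b = 0 := fun b hb => by
    rw [hs]
    exact Lagrange.eval_nodal_at_node (v := id) hb
  let ψ := Crv.comp (RingHom.id (ZMod p)) hm a (by rw [Polynomial.map_id, hr a ha])
  have h1 : (m.map (AdjoinRoot.of (mon m))).map ψ = m := by
    have : ψ.comp (AdjoinRoot.of (mon m)) = RingHom.id _ :=
      RingHom.ext fun c => comp_of _ hm a (by rw [Polynomial.map_id, hr a ha]) c
    rw [Polynomial.map_map, this, Polynomial.map_id]
  have h2 : (rep (outdeg p γ m)).eval a = ψ (outdeg p γ m) := by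
    conv_rhs => rw [← mk_rep (outdeg p γ m), comp_mk, Polynomial.map_id]
  rw [h2, outdeg, map_trA ψ (hm.map _) (h1.trans hs), Nat.cast_sum]
  refine sum_congr rfl fun b hb => ?_
  let φ := Crv.comp ψ (hm.map _) b (by rw [h1, hr b hb])
  have h3 : φ (tz m) = b - a := by rw [tz, map_sub, comp_root, comp_of, comp_root]
  rw [← comp_mk ψ (hm.map _) b (by rw [h1, hr b hb]), mk_rep, ind, map_pow, map_mul, map_add,
    map_root, map_pow, h3, comp_of, comp_of, RingHom.id_apply, ZMod.pow_card_sub_one, arc]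
  by_cases h4 : (b - a) * (b - a + root p 2 γ ((b - a) ^ 2)) = 0
  · rw [if_neg (not_not.2 h4), if_pos h4, Nat.cast_zero]
  · rw [if_pos h4, if_neg h4, Nat.cast_one]

theorem tourn_spec {γ : ZMod p} (hγ : ∀ b, b ^ 2 ≠ γ) {m : (ZMod p)[X]} (hm : m.Monic)
    (hd : m ∣ X ^ p - X) (h0 : 0 < m.natDegree) (hev : Even m.natDegree) (hp : m.natDegree < p) :
    ∃ c ∈ tourn p γ m, Sep m c := by
  classical
  obtain ⟨s, hs, hn, hr⟩ := exists_nodal hm hd
  have h3 : 3 ≤ p := by
    obtain ⟨j, hj⟩ := hev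
    omega
  have hlt : ∀ a ∈ s, ∑ b ∈ s, arc γ a b < m.natDegree := fun a ha => by
    rw [← add_sum_erase _ _ ha, arc_self, zero_add]
    refine (sum_le_card_nsmul _ _ 1 fun b _ => arc_le γ a b).trans_lt ?_
    rw [card_erase_of_mem ha, smul_eq_mul]
    omega
  by_contra hno
  have hc : ∀ a ∈ s, ∀ b ∈ s, ∑ c ∈ s, arc γ b c = ∑ c ∈ s, arc γ a c := fun a ha b hb => by
    by_contra hne
    refine hno ⟨_, List.mem_map.2 ⟨∑ c ∈ s, arc γ a c, List.mem_range.2 (hlt a ha), rfl⟩, a, b,
      (hr a).2 ha, (hr b).2 hb, ?_, ?_⟩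
    · rw [IsRoot.def, eval_sub, eval_C, eval_outdeg γ hm hs ha, sub_self]
    · rw [IsRoot.def, eval_sub, eval_C, eval_outdeg γ hm hs hb, sub_eq_zero,
        ZMod.natCast_eq_natCast_iff', Nat.mod_eq_of_lt ((hlt a ha).trans hp),
        Nat.mod_eq_of_lt ((hlt b hb).trans hp)]
      exact hne
  obtain ⟨a, ha⟩ : s.Nonempty := card_pos.1 (hn ▸ h0)
  have h1 : ∑ b ∈ s, ∑ c ∈ s, arc γ b c = s.card * ∑ c ∈ s, arc γ a c := by
    rw [sum_congr rfl (hc a ha), sum_const, smul_eq_mul]
  have h2 : ∑ b ∈ s, ∑ c ∈ s, (arc γ b c + arc γ c b) = s.card * (s.card - 1) := by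
    rw [← smul_eq_mul, ← sum_const]
    refine sum_congr rfl fun b hb => ?_
    rw [← add_sum_erase _ _ hb, arc_self, zero_add, zero_add, ← card_erase_of_mem hb,
      card_eq_sum_ones]
    exact sum_congr rfl fun c hc => arc_add h3 hγ (mem_erase.1 hc).1.symm
  simp only [sum_add_distrib] at h2
  rw [sum_comm (f := fun b c => arc γ c b), h1, ← mul_add, hn] at h2
  have h4 := Nat.eq_of_mul_eq_mul_left h0 h2
  obtain ⟨j, hj⟩ := hev
  omega

end Vale.Agent.P319.Alg
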