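import Vale.Agent.P319.Alg.Curve

/-!
P319: the curve algorithm over the prime field: the tower of two quotient rings and the descent of
the candidates by coordinates (definitions).
-/

open Polynomial

namespace Vale.Agent.P319.Crv

open Gen Vale.Agent.Lib.Dep

variable {R : Type} [CommRing R]

/-- the coordinates of a polynomial over a quotient ring -/
noncomputable def coords (h : R[X]) (c : (AdjoinRoot (mon h))[X]) : List R[X] :=
  (List.range h.natDegree).map fun i => mapc (fun x => (rep x).coeff i) c

/-- the equation of the Kummer extension of degree `M` -/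
noncomputable def kum (M : ℕ) (h g : R[X]) : (AdjoinRoot (mon h))[X] :=
  X ^ M - C (AdjoinRoot.mk (mon h) g)

/-- the candidates over the top of the tower; `q` is the number of elements of `R` -/
noncomputable def curveT (q r e : ℕ) (h g m : R[X]) :
    List (AdjoinRoot (mon (kum (r ^ e) h g)))[X] :=
  curve ((q ^ h.natDegree) ^ r ^ e) r (m.natDegree / r) e
    ((m.map (AdjoinRoot.of (mon h))).map (AdjoinRoot.of (mon (kum (r ^ e) h g))))
    (AdjoinRoot.of (mon (kum (r ^ e) h g)) (AdjoinRoot.root (mon h)))
    (AdjoinRoot.root (mon (kum (r ^ e) h g)))

/-- the candidates over the ground ring -/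
noncomputable def curveP (q r : ℕ) (h g m : R[X]) : List R[X] :=
  ((curveT q r (padicValNat r m.natDegree) h g m).flatMap
    (coords (kum (r ^ padicValNat r m.natDegree) h g))).flatMap (coords h)

end Vale.Agent.P319.Crv
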